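import Vale.Agent.P011.RP.Plane

/-!
The choice of a symmetric element which makes the involution positive and the form positive
on a plane.
-/

open Module Matrix
open scoped ComplexOrder

set_option linter.unusedSectionVars false

namespace Vale.Agent.P011.RP

variable {K D : Type} [Field K] [StarRing K] [DivisionRing D] [StarRing D] [Algebra K D]
  {n : ℕ}

/-- simultaneous density of the division algebra in the matrix algebras at the places -/
def Dense {ι : Type} (R : ι → RData K D n) : Prop :=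
  ∀ (X : ι → Matrix (Fin n) (Fin n) ℂ) (ε : ℝ), 0 < ε →
    ∃ x : D, ∀ i a b, ‖(R i).f x a b - X i a b‖ < ε

theorem sign_sq (ε : ℤˣ) : (((ε : ℤ) : ℂ)) * (((ε : ℤ) : ℂ)) = 1 := by
  rcases Int.units_eq_one_or ε with h | h <;> rw [h] <;> norm_num

theorem star_sign (ε : ℤˣ) : star (((ε : ℤ) : ℂ)) = ((ε : ℤ) : ℂ) := by
  rcases Int.units_eq_one_or ε with h | h <;> rw [h] <;> norm_num

/-- A hermitian form of rank `m` is definite on a subspace of dimension at most `m / 2`, at all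
places simultaneously. -/
theorem exists_plane {ι : Type} [Fintype ι] (R : ι → RData K D n) (hd : Dense R) {m q : ℕ}
    (hq : 2 * q ≤ m) {H : Matrix (Fin m) (Fin m) D} (hH : Hᴴ = H) (hu : IsUnit H) :
    ∃ (ε : ι → ℤˣ) (u : Fin q → Fin m → D), ∀ i, ∀ β : Fin q → D, β ≠ 0 →
      ((((ε i : ℤˣ) : ℤ) : ℂ) • ((R i).f (rowH H (fun a => ∑ c, β c * u c a)
        (fun a => ∑ c, β c * u c a)) * (R i).A)).PosDef := by
  classical
  have h1 : ∀ i, ∃ (ε : ℤˣ) (Y : Matrix (Fin q × Fin n) (Fin m × Fin n) ℂ),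
      (((ε : ℤ) : ℂ) • (Y * (R i).Gam H * Yᴴ)).PosDef := by
    intro i
    apply exists_half ((R i).Gam_herm hH) ((R i).Gam_unit hu)
    rw [Fintype.card_prod, Fintype.card_prod, Fintype.card_fin, Fintype.card_fin, Fintype.card_fin]
    calc 2 * (q * n) = (2 * q) * n := by ring
      _ ≤ m * n := Nat.mul_le_mul_right _ hq
  choose ε Y hY using h1
  have h2 : ∀ i, ∃ η : ℝ, 0 < η ∧ ∀ M : Matrix (Fin q × Fin n) (Fin q × Fin n) ℂ,
      M.IsHermitian → (∀ a b, ‖M a b - ((((ε i : ℤˣ) : ℤ) : ℂ) •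
        (Y i * (R i).Gam H * (Y i)ᴴ)) a b‖ < η) → M.PosDef := fun i => posDef_near (hY i)
  choose η hη hM using h2
  have h3 : ∀ i, ∃ δ : ℝ, 0 < δ ∧ ∀ U : Matrix (Fin q × Fin n) (Fin m × Fin n) ℂ,
      (∀ a b, ‖U a b - Y i a b‖ < δ) → ∀ a b, ‖(U * (R i).Gam H * Uᴴ) a b -
        (Y i * (R i).Gam H * (Y i)ᴴ) a b‖ < η i := fun i => near_conj _ _ (hη i)
  choose δ hδ hU using h3
  obtain ⟨δ0, hδ0, hδ0'⟩ : ∃ δ0 : ℝ, 0 < δ0 ∧ ∀ i, δ0 ≤ δ i := by
    rcases isEmpty_or_nonempty ι with hι | hι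
    · exact ⟨1, one_pos, fun i => (hι.false i).elim⟩
    · obtain ⟨i0, hi0⟩ := Finite.exists_min δ
      exact ⟨δ i0, hδ i0, hi0⟩
  have h4 : ∀ (c : Fin q) (a : Fin m), ∃ x : D, ∀ i p r,
      ‖(R i).f x p r - Y i (c, p) (a, r)‖ < δ0 := fun c a =>
    hd (fun i => Matrix.of fun p r => Y i (c, p) (a, r)) δ0 hδ0
  choose u hu' using h4
  refine ⟨ε, u, fun i β hβ => ?_⟩
  apply (R i).plane_pos u _ _ hβ
  apply hM i
  · rw [Matrix.IsHermitian, Matrix.conjTranspose_smul, star_sign, Matrix.conjTranspose_mul,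
      Matrix.conjTranspose_mul, Matrix.conjTranspose_conjTranspose, ((R i).Gam_herm hH).eq,
      Matrix.mul_assoc]
  · intro a b
    rw [Matrix.smul_apply, Matrix.smul_apply, ← smul_sub, norm_smul]
    have e1 : ‖((((ε i : ℤˣ) : ℤ) : ℂ))‖ = 1 := by
      rcases Int.units_eq_one_or (ε i) with h | h <;> rw [h] <;> simp
    rw [e1, one_mul]
    apply hU i
    rintro ⟨c, p⟩ ⟨a', r⟩
    exact (hu' c a' i p r).trans_le (hδ0' i)

variable [CharZero D]

/-- A symmetric element with prescribed definiteness at all places. -/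
theorem exists_definite {ι : Type} [Fintype ι] (R : ι → RData K D n) (hd : Dense R)
    (ε : ι → ℤˣ) : ∃ a : D, star a = a ∧
      ∀ i, ((((ε i : ℤˣ) : ℤ) : ℂ) • ((R i).f a * (R i).A)).PosDef := by
  classical
  obtain ⟨η, hη, hM⟩ := posDef_near (Matrix.PosDef.one (n := Fin n) (R := ℂ))
  -- a bound for the entries
  obtain ⟨C, hC, hCb⟩ : ∃ C : ℝ, 0 < C ∧ ∀ i a b, ‖(R i).A a b‖ ≤ C := by
    refine ⟨1 + ∑ i, ∑ a, ∑ b, ‖(R i).A a b‖, ?_, fun i a b => ?_⟩
    · positivity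
    · have h1 : ‖(R i).A a b‖ ≤ ∑ b, ‖(R i).A a b‖ :=
        Finset.single_le_sum (f := fun b => ‖(R i).A a b‖) (fun _ _ => norm_nonneg _)
          (Finset.mem_univ b)
      have h2 : ∑ b, ‖(R i).A a b‖ ≤ ∑ a, ∑ b, ‖(R i).A a b‖ :=
        Finset.single_le_sum (f := fun a => ∑ b, ‖(R i).A a b‖)
          (fun _ _ => Finset.sum_nonneg fun _ _ => norm_nonneg _) (Finset.mem_univ a)
      have h3 : ∑ a, ∑ b, ‖(R i).A a b‖ ≤ ∑ i, ∑ a, ∑ b, ‖(R i).A a b‖ :=
        Finset.single_le_sum (f := fun i => ∑ a, ∑ b, ‖(R i).A a b‖)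
          (fun _ _ => Finset.sum_nonneg fun _ _ => Finset.sum_nonneg fun _ _ => norm_nonneg _)
          (Finset.mem_univ i)
      linarith
  have hAi : ∀ i, ∃ C : Matrix (Fin n) (Fin n) ℂ, C * (R i).A = 1 := by
    intro i
    obtain ⟨Q, hQ⟩ := (R i).unit
    exact ⟨((Q⁻¹ : (Matrix (Fin n) (Fin n) ℂ)ˣ) : Matrix _ _ ℂ), by rw [← hQ, Units.inv_mul]⟩
  choose B hB using hAi
  obtain ⟨x, hx⟩ := hd (fun i => (((ε i : ℤˣ) : ℤ) : ℂ) • B i) (η / ((n + 1) * C))
    (by positivity)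
  have hcl : ∀ i a b, ‖((((ε i : ℤˣ) : ℤ) : ℂ) • ((R i).f x * (R i).A)) a b -
      (1 : Matrix (Fin n) (Fin n) ℂ) a b‖ < η := by
    intro i a b
    have h1 : ((((ε i : ℤˣ) : ℤ) : ℂ) • ((R i).f x * (R i).A)) - 1 =
        (((ε i : ℤˣ) : ℤ) : ℂ) • (((R i).f x - (((ε i : ℤˣ) : ℤ) : ℂ) • B i) * (R i).A) := by
      rw [sub_mul, smul_mul_assoc, hB, smul_sub, smul_smul, sign_sq, one_smul]
    have h2 : ((((ε i : ℤˣ) : ℤ) : ℂ) • ((R i).f x * (R i).A)) a b -
        (1 : Matrix (Fin n) (Fin n) ℂ) a b = ((((ε i : ℤˣ) : ℤ) : ℂ) •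
          (((R i).f x - (((ε i : ℤˣ) : ℤ) : ℂ) • B i) * (R i).A)) a b := by
      rw [← h1]; rfl
    rw [h2, Matrix.smul_apply, norm_smul]
    have e1 : ‖((((ε i : ℤˣ) : ℤ) : ℂ))‖ = 1 := by
      rcases Int.units_eq_one_or (ε i) with h | h <;> rw [h] <;> simp
    rw [e1, one_mul, Matrix.mul_apply]
    refine (norm_sum_le _ _).trans_lt ?_
    have h3 : ∀ k ∈ Finset.univ, ‖((R i).f x - (((ε i : ℤˣ) : ℤ) : ℂ) • B i) a k *
        (R i).A k b‖ ≤ (η / ((n + 1) * C)) * C := by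
      intro k _
      rw [norm_mul]
      refine mul_le_mul ?_ (hCb i k b) (norm_nonneg _) (by positivity)
      exact (hx i a k).le
    refine (Finset.sum_le_sum h3).trans_lt ?_
    rw [Finset.sum_const, Finset.card_univ, Fintype.card_fin, nsmul_eq_mul]
    have h4 : (n : ℝ) * (η / ((n + 1) * C) * C) = η * (n / (n + 1)) := by field_simp
    rw [h4]
    have h5 : (n : ℝ) / (n + 1) < 1 := by
      rw [div_lt_one (by positivity)]; linarith
    calc η * (n / (n + 1)) < η * 1 := by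
          exact mul_lt_mul_of_pos_left h5 hη
      _ = η := mul_one _
  have hstar2 : star ((2 : D)⁻¹) = (2 : D)⁻¹ := by
    rw [star_inv₀]; congr 1
    have : (2 : D) = ((2 : ℕ) : D) := by norm_num
    rw [this, star_natCast]
  refine ⟨(2 : D)⁻¹ * (x + star x), ?_, fun i => ?_⟩
  · have hc : Commute ((2 : D)⁻¹) (x + star x) := by
      apply Commute.inv_left₀
      have : (2 : D) = ((2 : ℕ) : D) := by norm_num
      rw [this]
      exact Nat.cast_commute 2 _
    rw [star_mul, star_add, star_star, add_comm (star x) x, hstar2]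
    exact hc.eq.symm
  · have hf2 : (R i).f ((2 : D)⁻¹) = ((2 : ℂ)⁻¹) • (1 : Matrix (Fin n) (Fin n) ℂ) := by
      have h1 : (R i).f ((2 : D)⁻¹) * (R i).f 2 = 1 := by
        rw [← map_mul, inv_mul_cancel₀ (two_ne_zero), map_one]
      have h2 : (R i).f 2 = (2 : ℂ) • (1 : Matrix (Fin n) (Fin n) ℂ) := by
        have : (2 : D) = 1 + 1 := by norm_num
        rw [this, map_add, map_one, two_smul]
      rw [h2, mul_smul_comm, mul_one] at h1
      rw [← h1, smul_smul]; norm_num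
    have key : ((((ε i : ℤˣ) : ℤ) : ℂ) • ((R i).f ((2 : D)⁻¹ * (x + star x)) * (R i).A)) =
        (2 : ℂ)⁻¹ • (((((ε i : ℤˣ) : ℤ) : ℂ) • ((R i).f x * (R i).A)) +
          ((((ε i : ℤˣ) : ℤ) : ℂ) • ((R i).f x * (R i).A))ᴴ) := by
      rw [map_mul, hf2, map_add, smul_mul_assoc, one_mul, conjTranspose_smul, star_sign,
        conjTranspose_mul, (R i).hA, ← (R i).star_f, ← smul_add, smul_comm, smul_mul_assoc,
        add_mul]
    apply hM
    · rw [key]
      rw [Matrix.IsHermitian, conjTranspose_smul, conjTranspose_add, conjTranspose_conjTranspose,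
        add_comm]
      congr 1
      simp
    · intro a b
      rw [key, Matrix.smul_apply, Matrix.add_apply, Matrix.conjTranspose_apply]
      have e1 := hcl i a b
      have e2 := hcl i b a
      set Z := ((((ε i : ℤˣ) : ℤ) : ℂ) • ((R i).f x * (R i).A)) with hZ
      have e3 : ‖star (Z b a) - (1 : Matrix (Fin n) (Fin n) ℂ) a b‖ < η := by
        have : star (Z b a) - (1 : Matrix (Fin n) (Fin n) ℂ) a b =
            star (Z b a - (1 : Matrix (Fin n) (Fin n) ℂ) b a) := by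
          rw [star_sub]; congr 1
          rw [Matrix.one_apply, Matrix.one_apply]
          by_cases hab : a = b
          · subst hab; simp
          · rw [if_neg hab, if_neg (Ne.symm hab), star_zero]
        rw [this, norm_star]; exact e2
      have e4 : (2 : ℂ)⁻¹ • (Z a b + star (Z b a)) - (1 : Matrix (Fin n) (Fin n) ℂ) a b =
          (2 : ℂ)⁻¹ * ((Z a b - (1 : Matrix (Fin n) (Fin n) ℂ) a b) +
            (star (Z b a) - (1 : Matrix (Fin n) (Fin n) ℂ) a b)) := by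
        rw [smul_eq_mul]; ring
      rw [e4, norm_mul]
      have e5 := norm_add_le (Z a b - (1 : Matrix (Fin n) (Fin n) ℂ) a b)
        (star (Z b a) - (1 : Matrix (Fin n) (Fin n) ℂ) a b)
      have e6 : ‖(2 : ℂ)⁻¹‖ = 1 / 2 := by norm_num
      rw [e6]
      linarith

end Vale.Agent.P011.RP
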