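import Vale.Agent.P011.RP.Dense
import Vale.Agent.P011.RP.Choice
import Vale.Agent.P011.T2.Descent

/-!
The interface between the arithmetic of forms over the division algebra and its consumers:
signatures at the real places of the fixed field that do not split, and the statement that a
form of rank at least two represents every element of the right signatures.
-/

open Module Matrix
open scoped ComplexOrder

namespace Vale.Agent.P011.RP

open Vale.Agent.P011.T2 (HF)

variable {K D : Type} [Field K] [StarRing K] [DivisionRing D] [StarRing D] [Algebra K D]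
  {n : ℕ}

/-- The symmetric elements `c` and `e` have the same signature at the place. -/
def RData.CongAt (R : RData K D n) (c e : D) : Prop :=
  ∃ Q : Matrix (Fin n) (Fin n) ℂ, IsUnit Q ∧ Q * (R.f c * R.A) * Qᴴ = R.f e * R.A

/-- A family of data which meets every place. -/
def Complete {ι : Type} (R : ι → RData K D n) : Prop :=
  ∀ s : K →+* ℂ, (∀ z, s (star z) = star (s z)) →
    ∃ i, (R i).s = s ∨ ∀ z, (R i).s z = star (s z)

/-- Anisotropic forms of rank at least two represent every element which has the signatures of
one of their values. -/
def HasR2 (K D : Type) [Field K] [StarRing K] [DivisionRing D] [StarRing D] [Algebra K D]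
    (n : ℕ) : Prop :=
  ∀ (V : Type) [AddCommGroup V] [Module D V] [FiniteDimensional D V] (B : HF D V),
    (∀ x, B.h x x = 0 → x = 0) → 2 ≤ finrank D V → ∀ x : V, x ≠ 0 → ∀ e : D, star e = e →
    e ≠ 0 → (∀ R : RData K D n, R.CongAt (B.h x x) e) → ∃ y, B.h y y = e

/-- Elements of the same signatures with the same discriminant define isometric forms of
rank one. -/
def HasR1 (K D : Type) [Field K] [StarRing K] [DivisionRing D] [StarRing D] [Algebra K D]
    (n : ℕ) : Prop :=
  ∀ (F : Type) [Field F] [Algebra K F] (f : D →ₐ[K] Matrix (Fin n) (Fin n) F) (c e : D),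
    star c = c → star e = e → c ≠ 0 → e ≠ 0 →
    (∃ z : K, z ≠ 0 ∧ (f e).det = algebraMap K F (z * star z) * (f c).det) →
    (∀ R : RData K D n, R.CongAt c e) → ∃ t : D, t ≠ 0 ∧ e = t * c * star t

end Vale.Agent.P011.RP
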