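import Vale.Agent.P011.RP.Univ1
import Vale.Agent.P011.H402.Defs

/-!
A positive involution and a form which is positive on a plane: the form is universal for sums
of hermitian squares, and its values are stable.
-/

open Module Matrix NumberField
open scoped ComplexOrder MatrixOrder

set_option linter.unusedSectionVars false

namespace Vale.Agent.P011.RP

open Vale.Agent.P011.T2 (HF)
open Vale.Agent.P011S Vale.Agent.P011.H402

section basic

variable {K D : Type} [Field K] [StarRing K] [DivisionRing D] [StarRing D] [Algebra K D]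
  {n : ℕ}

/-- the conjugate data -/
def RData.conj (R : RData K D n) : RData K D n where
  s := (starRingEnd ℂ).comp R.s
  hs z := by
    change star (R.s (star z)) = star (star (R.s z))
    rw [R.hs]
  f := ((starRingEnd ℂ).mapMatrix).comp R.f
  hf k := by
    change (R.f (algebraMap K D k)).map (starRingEnd ℂ) = _
    rw [R.hf, Matrix.scalar_apply, Matrix.scalar_apply, Matrix.diagonal_map (map_zero _)]
    rfl
  A := R.A.map (starRingEnd ℂ)
  hA := by
    ext a b
    have h1 := congrFun (congrFun R.hA a) b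
    rw [Matrix.conjTranspose_apply] at h1
    rw [Matrix.conjTranspose_apply, Matrix.map_apply, Matrix.map_apply, ← h1]
    rfl
  unit := R.unit.map ((starRingEnd ℂ).mapMatrix)
  star_f x := by
    change (R.f (star x)).map (starRingEnd ℂ) * R.A.map (starRingEnd ℂ) =
      R.A.map (starRingEnd ℂ) * ((R.f x).map (starRingEnd ℂ))ᴴ
    have h1 : ((R.f x).map (starRingEnd ℂ))ᴴ = ((R.f x)ᴴ).map (starRingEnd ℂ) := by
      ext a b
      rfl
    rw [h1, ← Matrix.map_mul, R.star_f, Matrix.map_mul]

theorem RData.conj_s (R : RData K D n) (z : K) : R.conj.s z = star (R.s z) := rfl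

theorem RData.CongAt.conj {R : RData K D n} {c e : D} (h : R.CongAt c e) : R.conj.CongAt c e := by
  obtain ⟨Q, hQ, h⟩ := h
  refine ⟨Q.map (starRingEnd ℂ), hQ.map ((starRingEnd ℂ).mapMatrix), ?_⟩
  change Q.map (starRingEnd ℂ) * ((R.f c).map (starRingEnd ℂ) * R.A.map (starRingEnd ℂ)) *
    (Q.map (starRingEnd ℂ))ᴴ = (R.f e).map (starRingEnd ℂ) * R.A.map (starRingEnd ℂ)
  have h1 : (Q.map (starRingEnd ℂ))ᴴ = (Qᴴ).map (starRingEnd ℂ) := by
    ext a b
    rfl
  rw [h1, ← Matrix.map_mul, ← Matrix.map_mul, ← Matrix.map_mul, h, Matrix.map_mul]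

end basic

section fam

variable {K D : Type} [Field K] [StarRing K] [DivisionRing D] [StarRing D]
  [Algebra K D] [StarModule K D] [FiniteDimensional K D] [Algebra.IsCentral K D] {n : ℕ}

theorem RData.CongAt.of_eq (hn : 0 < n) (hdeg : finrank K D = n ^ 2) {R R' : RData K D n}
    (hs : R.s = R'.s) {c e : D} (h : R.CongAt c e) : R'.CongAt c e := by
  obtain ⟨S, r, hS, hr, hf, hA⟩ := RData.unique hn hdeg R R' hs
  obtain ⟨Q, hQ, h⟩ := h
  obtain ⟨u, hu⟩ := hS
  obtain ⟨T, hTd⟩ : ∃ T : Matrix (Fin n) (Fin n) ℂ, T = ((u⁻¹ : (Matrix (Fin n) (Fin n) ℂ)ˣ) :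
    Matrix _ _ ℂ) := ⟨_, rfl⟩
  have hTS : T * S = 1 := by rw [hTd, ← hu, Units.inv_mul]
  have hST : S * T = 1 := by rw [hTd, ← hu, Units.mul_inv]
  have hval : ∀ x, R'.f x * R'.A = (r : ℂ) • (S * (R.f x * R.A) * Sᴴ) := by
    intro x
    rw [hA, mul_smul_comm]
    congr 1
    calc R'.f x * (S * R.A * Sᴴ) = (R'.f x * S) * R.A * Sᴴ := by simp only [mul_assoc]
      _ = _ := by rw [hf]; simp only [mul_assoc]
  refine ⟨S * Q * T, ?_, ?_⟩
  · have hT : IsUnit T := ⟨u⁻¹, hTd.symm⟩
    have hS' : IsUnit S := ⟨u, hu⟩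
    exact (hS'.mul hQ).mul hT
  · rw [hval, hval, mul_smul_comm, smul_mul_assoc]
    congr 1
    have hSH : Sᴴ * Tᴴ = 1 := by rw [← Matrix.conjTranspose_mul, hTS, Matrix.conjTranspose_one]
    calc S * Q * T * (S * (R.f c * R.A) * Sᴴ) * (S * Q * T)ᴴ
        = S * (Q * ((T * S) * (R.f c * R.A) * (Sᴴ * Tᴴ)) * Qᴴ) * Sᴴ := by
          rw [Matrix.conjTranspose_mul, Matrix.conjTranspose_mul]
          simp only [mul_assoc]
      _ = _ := by rw [hTS, hSH, one_mul, mul_one, h]

/-- Congruence at all places from congruence at the places of a complete family. -/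
theorem of_family (hn : 0 < n) (hdeg : finrank K D = n ^ 2) {ι : Type} {R : ι → RData K D n}
    (hc : Complete R) {c e : D} (h : ∀ i, (R i).CongAt c e) (R' : RData K D n) :
    R'.CongAt c e := by
  obtain ⟨i, hi | hi⟩ := hc R'.s R'.hs
  · exact (h i).of_eq hn hdeg hi
  · refine (h i).conj.of_eq hn hdeg ?_
    ext z
    rw [RData.conj_s, hi, star_star]

theorem f_unit' (R : RData K D n) {x : D} (hx : x ≠ 0) : IsUnit (R.f x) :=
  (isUnit_iff_ne_zero.mpr hx).map R.f

theorem ne_zero_of_pos (hn : 0 < n) {R : RData K D n} {c : D} (h : (R.f c * R.A).PosDef) :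
    c ≠ 0 := by
  rintro rfl
  rw [map_zero, zero_mul] at h
  have hne : Nonempty (Fin n) := ⟨⟨0, hn⟩⟩
  exact h.isUnit.ne_zero rfl

/-- two positive elements are congruent -/
theorem congAt_of_pos {R : RData K D n} {c e : D} (h1 : (R.f c * R.A).PosDef)
    (h2 : (R.f e * R.A).PosDef) : R.CongAt c e := by
  obtain ⟨Q₁, ⟨u₁, hu₁⟩, h₁⟩ := posDef_one h1
  obtain ⟨Q₂, ⟨u₂, hu₂⟩, h₂⟩ := posDef_one h2
  obtain ⟨P, hPd⟩ : ∃ P : Matrix (Fin n) (Fin n) ℂ, P = ((u₂⁻¹ : (Matrix (Fin n) (Fin n) ℂ)ˣ) :
    Matrix _ _ ℂ) := ⟨_, rfl⟩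
  have hPQ : P * Q₂ = 1 := by rw [hPd, ← hu₂, Units.inv_mul]
  have hQPH : Q₂ᴴ * Pᴴ = 1 := by rw [← Matrix.conjTranspose_mul, hPQ, Matrix.conjTranspose_one]
  refine ⟨P * Q₁, ?_, ?_⟩
  · have h3 : IsUnit P := ⟨u₂⁻¹, hPd.symm⟩
    exact h3.mul ⟨u₁, hu₁⟩
  · calc P * Q₁ * (R.f c * R.A) * (P * Q₁)ᴴ = P * (Q₁ * (R.f c * R.A) * Q₁ᴴ) * Pᴴ := by
          rw [Matrix.conjTranspose_mul]
          simp only [mul_assoc]
      _ = P * (Q₂ * (R.f e * R.A) * Q₂ᴴ) * Pᴴ := by rw [h₁, h₂]
      _ = (P * Q₂) * (R.f e * R.A) * (Q₂ᴴ * Pᴴ) := by simp only [mul_assoc]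
      _ = _ := by rw [hPQ, hQPH, one_mul, mul_one]

theorem f_sq (R : RData K D n) (x : D) :
    R.f (star x * x) * R.A = R.f (star x) * R.A * (R.f (star x))ᴴ := by
  have h1 := R.star_f (star x)
  rw [star_star] at h1
  rw [map_mul, mul_assoc, h1, mul_assoc]

theorem sq_pos {R : RData K D n} (hA : R.A.PosDef) {x : D} (hx : x ≠ 0) :
    (R.f (star x * x) * R.A).PosDef := by
  rw [f_sq]
  apply hA.mul_mul_conjTranspose_same
  have h1 : IsUnit (R.f (star x)) := f_unit' R (star_ne_zero.mpr hx)
  exact Matrix.vecMul_injective_of_isUnit h1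

theorem sq_psd {R : RData K D n} (hA : R.A.PosDef) (x : D) :
    (R.f (star x * x) * R.A).PosSemidef := by
  rw [f_sq]
  exact hA.posSemidef.mul_mul_conjTranspose_same _

theorem sum_psd {R : RData K D n} (hA : R.A.PosDef) {k : ℕ} (t : Fin k → D) :
    (R.f (∑ i, star (t i) * t i) * R.A).PosSemidef := by
  rw [map_sum, Finset.sum_mul]
  exact Matrix.posSemidef_sum _ fun i _ => sq_psd hA (t i)

theorem sum_pos {R : RData K D n} (hA : R.A.PosDef) {k : ℕ} (t : Fin k → D) (ht : t ≠ 0) :
    (R.f (∑ i, star (t i) * t i) * R.A).PosDef := by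
  classical
  obtain ⟨i0, hi0⟩ : ∃ i, t i ≠ 0 := by
    by_contra h
    push Not at h
    exact ht (funext h)
  rw [← Finset.add_sum_erase _ _ (Finset.mem_univ i0), map_add, add_mul]
  refine (sq_pos hA hi0).add_posSemidef ?_
  rw [map_sum, Finset.sum_mul]
  exact Matrix.posSemidef_sum _ fun i _ => sq_psd hA (t i)

theorem formallyPositive (hn : 0 < n) {R : RData K D n} (hA : R.A.PosDef) :
    IsFormallyPositive D := by
  intro k x hx
  by_contra h0
  have h1 := sum_pos hA x h0
  exact ne_zero_of_pos hn h1 hx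

end fam

section forms

variable {D : Type} [DivisionRing D] [StarRing D]

/-- the hermitian form on rows -/
def rowF {m : ℕ} (H : Matrix (Fin m) (Fin m) D) (hH : Hᴴ = H) : HF D (Fin m → D) where
  h := rowH H
  add_left x y z := by
    simp only [rowH, Pi.add_apply, add_mul, Finset.sum_add_distrib]
  smul_left a x y := by
    simp only [rowH, Pi.smul_apply, smul_eq_mul, mul_assoc, Finset.mul_sum]
  star_h x y := by
    simp only [rowH, star_sum, star_mul, star_star]
    rw [Finset.sum_comm]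
    refine Finset.sum_congr rfl fun b _ => Finset.sum_congr rfl fun a _ => ?_
    have h1 : star (H a b) = H b a := by
      have := congrFun (congrFun hH b) a
      rwa [Matrix.conjTranspose_apply] at this
    rw [h1, mul_assoc]

theorem col_row {m : ℕ} (H : Matrix (Fin m) (Fin m) D) (u v : Fin m → D) :
    star u ⬝ᵥ (H *ᵥ v) = rowH H (star u) (star v) := by
  simp only [rowH, dotProduct, Matrix.mulVec, Finset.mul_sum, Pi.star_apply, star_star, mul_assoc]

/-- restriction to a subspace -/
def resF {V : Type} [AddCommGroup V] [Module D V] (B : HF D V) (U : Submodule D V) : HF D U where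
  h x y := B.h x y
  add_left x y z := B.add_left x y z
  smul_left a x y := B.smul_left a x y
  star_h x y := B.star_h x y

/-- the orthogonal complement of a family -/
def orthF {V : Type} [AddCommGroup V] [Module D V] (B : HF D V) {r : ℕ} (y : Fin r → V) :
    V →ₗ[D] (Fin r → D) where
  toFun w k := B.h w (y k)
  map_add' a b := funext fun k => B.add_left a b (y k)
  map_smul' c a := funext fun k => B.smul_left c a (y k)

theorem mem_orth {V : Type} [AddCommGroup V] [Module D V] (B : HF D V) {r : ℕ} (y : Fin r → V)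
    (w : V) : w ∈ LinearMap.ker (orthF B y) ↔ ∀ k, B.h w (y k) = 0 := by
  rw [LinearMap.mem_ker]
  exact ⟨fun h k => congrFun h k, fun h => funext h⟩

theorem finrank_orth {V : Type} [AddCommGroup V] [Module D V] [FiniteDimensional D V]
    (B : HF D V) {r : ℕ} (y : Fin r → V) :
    finrank D V ≤ finrank D (LinearMap.ker (orthF B y)) + r := by
  have h1 := LinearMap.finrank_range_add_finrank_ker (orthF B y)
  have h2 : finrank D (LinearMap.range (orthF B y)) ≤ r := by
    refine (Submodule.finrank_le _).trans ?_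
    rw [Module.finrank_fin_fun]
  omega

end forms

section main

variable {K D : Type} [Field K] [NumberField K] [StarRing K] [DivisionRing D] [StarRing D]
  [Algebra K D] [StarModule K D] [FiniteDimensional K D] [Algebra.IsCentral K D] {n : ℕ}

/-- The family of places is nonempty if there is an anisotropic form of rank at least three. -/
theorem nonempty_of_anis (hn : 0 < n) (hdeg : finrank K D = n ^ 2) {ι : Type}
    {R : ι → RData K D n} (hc : Complete R) (hR2 : HasR2 K D n) {m : ℕ} (hm : 3 ≤ m)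
    {H : Matrix (Fin m) (Fin m) D} (hH : IsAnisotropicForm H) : Nonempty ι := by
  by_contra hι
  rw [not_nonempty_iff] at hι
  have hall : ∀ (c e : D) (R' : RData K D n), R'.CongAt c e := fun c e R' =>
    of_family hn hdeg hc (fun i => (hι.false i).elim) R'
  let B := rowF H hH.1
  have hB : ∀ x, B.h x x = 0 → x = 0 := by
    intro x hx
    have h1 := hH.2 (star x) (by rw [col_row, star_star]; exact hx)
    rw [← star_star x, h1, star_zero]
  have hm0 : 0 < m := by omega
  let x0 : Fin m → D := fun _ => 1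
  have hx0 : x0 ≠ 0 := fun h => one_ne_zero (congrFun h ⟨0, hm0⟩)
  let W := LinearMap.ker (orthF B (fun _ : Fin 1 => x0))
  have hW : 2 ≤ finrank D W := by
    have h1 := finrank_orth B (fun _ : Fin 1 => x0)
    rw [Module.finrank_fin_fun] at h1
    change m ≤ finrank D W + 1 at h1
    omega
  obtain ⟨w, hw⟩ : ∃ w : W, w ≠ 0 := by
    have : 0 < finrank D W := by omega
    have := Module.finrank_pos_iff.mp this
    exact exists_ne 0
  have hval : B.h x0 x0 ≠ 0 := fun h => hx0 (hB x0 h)
  obtain ⟨y, hy⟩ := hR2 W (resF B W) (fun x hx => Subtype.ext (hB x hx)) hW w hw (-(B.h x0 x0))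
    (by rw [star_neg, B.star_h]) (neg_ne_zero.mpr hval) (hall _ _)
  have hy' : B.h (y : Fin m → D) y = -(B.h x0 x0) := hy
  have hyx : B.h (y : Fin m → D) x0 = 0 := (mem_orth B _ _).mp y.2 0
  have hxy : B.h x0 y = 0 := by rw [← B.star_h, hyx, star_zero]
  have h2 : B.h (x0 + y) (x0 + y) = 0 := by
    rw [B.add_left, B.add_right, B.add_right, hy', hyx, hxy]
    abel
  have h3 := hB _ h2
  have h4 : B.h (x0 + y) x0 = 0 := by rw [h3]; exact B.zero_left x0
  rw [B.add_left, hyx, add_zero] at h4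
  exact hval h4

/-- the key representation statement -/
theorem represent_sum (hn : 0 < n) (hdeg : finrank K D = n ^ 2) {ι : Type}
    {R : ι → RData K D n} (hc : Complete R) (hA : ∀ i, (R i).A.PosDef) (hR2 : HasR2 K D n) {m : ℕ}
    (hm : 3 ≤ m) {H : Matrix (Fin m) (Fin m) D} (hH : IsAnisotropicForm H)
    (u : Fin 2 → Fin m → D)
    (hu : ∀ i, ∀ β : Fin 2 → D, β ≠ 0 → ((R i).f (rowH H (fun a => ∑ c, β c * u c a)
      (fun a => ∑ c, β c * u c a)) * (R i).A).PosDef)
    {r : ℕ} (hr : r ≤ 1) (y : Fin r → Fin m → D) {k : ℕ} (t : Fin k → D) :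
    ∃ x : Fin m → D, rowH H x x = ∑ i, star (t i) * t i ∧ ∀ j, rowH H x (y j) = 0 := by
  let B := rowF H hH.1
  have hB : ∀ x, B.h x x = 0 → x = 0 := by
    intro x hx
    have h1 := hH.2 (star x) (by rw [col_row, star_star]; exact hx)
    rw [← star_star x, h1, star_zero]
  obtain ⟨i0⟩ := nonempty_of_anis hn hdeg hc hR2 hm hH
  by_cases ht : t = 0
  · refine ⟨0, ?_, fun j => B.zero_left (y j)⟩
    have h1 : rowH H 0 0 = 0 := B.zero_left 0
    rw [h1, ht]
    simp
  · let W := LinearMap.ker (orthF B y)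
    have hW : 2 ≤ finrank D W := by
      have h1 := finrank_orth B y
      rw [Module.finrank_fin_fun] at h1
      change m ≤ finrank D W + r at h1
      omega
    -- a positive vector in `W`
    let G : (Fin 2 → D) →ₗ[D] (Fin r → D) :=
      { toFun := fun β j => B.h (fun a => ∑ c, β c * u c a) (y j)
        map_add' := fun β γ => by
          funext j
          have h1 : (fun a => ∑ c, (β + γ) c * u c a) =
              (fun a => ∑ c, β c * u c a) + (fun a => ∑ c, γ c * u c a) := by
            funext a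
            simp only [Pi.add_apply, add_mul, Finset.sum_add_distrib]
          rw [h1, B.add_left]
          rfl
        map_smul' := fun z β => by
          funext j
          have h1 : (fun a => ∑ c, (z • β) c * u c a) = z • (fun a => ∑ c, β c * u c a) := by
            funext a
            simp only [Pi.smul_apply, smul_eq_mul, Finset.mul_sum, mul_assoc]
          rw [h1, B.smul_left]
          rfl }
    have hG : LinearMap.ker G ≠ ⊥ := by
      apply LinearMap.ker_ne_bot_of_finrank_lt
      rw [Module.finrank_fin_fun, Module.finrank_fin_fun]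
      omega
    obtain ⟨β, hβ, hβ0⟩ := (Submodule.ne_bot_iff _).mp hG
    obtain ⟨w, hwd⟩ : ∃ w : Fin m → D, w = fun a => ∑ c, β c * u c a := ⟨_, rfl⟩
    have hpos : ∀ i, ((R i).f (B.h w w) * (R i).A).PosDef := by
      intro i
      rw [hwd]
      exact hu i β hβ0
    have hwW : w ∈ W := by
      rw [mem_orth]
      intro j
      rw [hwd]
      exact congrFun (LinearMap.mem_ker.mp hβ) j
    have hw0 : (⟨w, hwW⟩ : W) ≠ 0 := by
      intro h
      have h1 : w = 0 := congrArg Subtype.val h
      have h2 := ne_zero_of_pos hn (hpos i0)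
      rw [h1] at h2
      exact h2 (B.zero_left 0)
    have hc' : ∀ i, ((R i).f (∑ j, star (t j) * t j) * (R i).A).PosDef := fun i =>
      sum_pos (hA i) t ht
    obtain ⟨x, hx⟩ := hR2 W (resF B W) (fun x hx => Subtype.ext (hB x hx)) hW ⟨w, hwW⟩ hw0
      (∑ j, star (t j) * t j) (by simp only [star_sum, star_mul, star_star])
      (ne_zero_of_pos hn (hc' i0))
      (of_family hn hdeg hc fun i => congAt_of_pos (hpos i) (hc' i))
    exact ⟨x, hx, (mem_orth B _ _).mp x.2⟩

theorem isUniversal (hn : 0 < n) (hdeg : finrank K D = n ^ 2) {ι : Type}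
    {R : ι → RData K D n} (hc : Complete R) (hA : ∀ i, (R i).A.PosDef) (hR2 : HasR2 K D n) {m : ℕ}
    (hm : 3 ≤ m) {H : Matrix (Fin m) (Fin m) D} (hH : IsAnisotropicForm H)
    (u : Fin 2 → Fin m → D)
    (hu : ∀ i, ∀ β : Fin 2 → D, β ≠ 0 → ((R i).f (rowH H (fun a => ∑ c, β c * u c a)
      (fun a => ∑ c, β c * u c a)) * (R i).A).PosDef) : IsUniversal H 2 := by
  obtain ⟨i0⟩ := nonempty_of_anis hn hdeg hc hR2 hm hH
  have hFP : IsFormallyPositive D := formallyPositive hn (hA i0)
  let B := rowF H hH.1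
  have hBr : ∀ u v, B.h u v = rowH H u v := fun _ _ => rfl
  -- matrices versus rows
  have hent : ∀ {i j : ℕ} (y : Matrix (Fin m) (Fin i) D) (x : Matrix (Fin m) (Fin j) D)
      (a : Fin i) (b : Fin j), (yᴴ * H * x) a b =
        rowH H (fun c => star (y c a)) (fun c => star (x c b)) := by
    intro i j y x a b
    rw [Matrix.mul_apply, rowH, Finset.sum_comm]
    refine Finset.sum_congr rfl fun c _ => ?_
    rw [Matrix.mul_apply, Finset.sum_mul]
    refine Finset.sum_congr rfl fun d _ => ?_
    rw [Matrix.conjTranspose_apply, star_star]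
  intro i j N hij y s
  have hsum : ∀ a b : Fin j, (sᴴ * s) a b = ∑ k, star (s k a) * s k b := by
    intro a b
    rw [Matrix.mul_apply]
    rfl
  match j, hij, s, hsum with
  | 0, _, s, _ => exact ⟨0, by ext a; exact a.elim0, by ext a b; exact b.elim0⟩
  | 1, hij, s, hsum =>
    obtain ⟨x, hx1, hx2⟩ := represent_sum hn hdeg hc hA hR2 hm hH u hu (r := i) (by omega)
      (fun a c => star (y c a)) (fun k => s k 0)
    refine ⟨Matrix.of fun c _ => star (x c), ?_, ?_⟩
    · ext a b
      have ha : a = 0 := Subsingleton.elim _ _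
      have hb : b = 0 := Subsingleton.elim _ _
      subst ha
      subst hb
      rw [hent, hsum]
      simp only [Matrix.of_apply, star_star]
      exact hx1
    · ext a b
      rw [hent]
      simp only [Matrix.of_apply, star_star, Matrix.zero_apply]
      have h1 := hx2 a
      rw [← hBr, ← B.star_h, ← star_zero D]
      congr 1
  | 2, hij, s, hsum =>
    have hi : i = 0 := by omega
    subst hi
    by_cases h00 : ∑ k, star (s k 0) * s k 0 = 0
    · have hs0 : (fun k => s k 0) = 0 := hFP N (fun k => s k 0) h00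
      obtain ⟨x, hx1, -⟩ := represent_sum hn hdeg hc hA hR2 hm hH u hu (r := 0) (by omega)
        (fun a => a.elim0) (fun k => s k 1)
      refine ⟨Matrix.of fun c b => if b = 0 then 0 else star (x c), ?_, ?_⟩
      · have hzl : ∀ v, rowH H (fun _ : Fin m => (0 : D)) v = 0 := fun v => B.zero_left v
        have hzr : ∀ v, rowH H v (fun _ : Fin m => (0 : D)) = 0 := fun v => by
          rw [← hBr, ← B.star_h, hBr, hzl, star_zero]
        have hs0' : ∀ k, s k 0 = 0 := fun k => congrFun hs0 k
        ext a b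
        rw [hent, hsum]
        fin_cases a <;> fin_cases b
        · simp [hs0', hzl]
        · simp [hs0', hzl]
        · simp [hs0', hzr]
        · simp [hx1]
      · ext a
        exact a.elim0
    · obtain ⟨x₀, hx₀, -⟩ := represent_sum hn hdeg hc hA hR2 hm hH u hu (r := 0) (by omega)
        (fun a => a.elim0) (fun k => s k 0)
      obtain ⟨g, hg⟩ : ∃ g : D, (∑ k, star (s k 0) * s k 0) * g = ∑ k, star (s k 0) * s k 1 :=
        ⟨(∑ k, star (s k 0) * s k 0)⁻¹ * ∑ k, star (s k 0) * s k 1, by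
          rw [← mul_assoc, mul_inv_cancel₀ h00, one_mul]⟩
      obtain ⟨x', hx', hx'0⟩ := represent_sum hn hdeg hc hA hR2 hm hH u hu (r := 1) le_rfl
        (fun _ => x₀) (fun k => s k 1 - s k 0 * g)
      have hx'0 : B.h x' x₀ = 0 := hx'0 0
      have hx0' : B.h x₀ x' = 0 := by rw [← B.star_h, hx'0, star_zero]
      have hx₀ : B.h x₀ x₀ = ∑ k, star (s k 0) * s k 0 := hx₀
      have hx' : B.h x' x' = ∑ k, star (s k 1 - s k 0 * g) * (s k 1 - s k 0 * g) := hx'
      have hg' : star g * (∑ k, star (s k 0) * s k 0) = ∑ k, star (s k 1) * s k 0 := by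
        have h1 := congrArg star hg
        simp only [star_mul, star_sum, star_star] at h1
        exact h1
      have e01 : B.h x₀ (star g • x₀ + x') = ∑ k, star (s k 0) * s k 1 := by
        rw [B.add_right, hx0', add_zero, B.smul_right, star_star, hx₀, hg]
      have e10 : B.h (star g • x₀ + x') x₀ = ∑ k, star (s k 1) * s k 0 := by
        rw [B.add_left, hx'0, add_zero, B.smul_left, hx₀, hg']
      have e11 : B.h (star g • x₀ + x') (star g • x₀ + x') = ∑ k, star (s k 1) * s k 1 := by
        rw [B.add_right, B.smul_right, star_star, e10, B.add_left, B.smul_left, hx0', mul_zero,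
          zero_add, hx']
        have h1 : ∀ k, star (s k 1 - s k 0 * g) * (s k 1 - s k 0 * g) =
            star (s k 1) * s k 1 - star (s k 1) * s k 0 * g - star g * (star (s k 0) * s k 1) +
              star g * (star (s k 0) * s k 0) * g := by
          intro k
          rw [star_sub, star_mul]
          noncomm_ring
        simp only [h1, Finset.sum_add_distrib, Finset.sum_sub_distrib, ← Finset.sum_mul,
          ← Finset.mul_sum]
        rw [← hg', ← hg]
        noncomm_ring
      refine ⟨Matrix.of fun c b => if b = 0 then star (x₀ c) else star ((star g • x₀ + x') c),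
        ?_, ?_⟩
      · ext a b
        rw [hent, hsum]
        fin_cases a <;> fin_cases b
        · simp
          exact hx₀
        · simp
          exact e01
        · simp
          exact e10
        · simp
          exact e11
      · ext a
        exact a.elim0

/-- small symmetric elements have small images -/
theorem small_entry {R : RData K D n} (hA : R.A.PosDef) {δ : ℚ} {s : D} (hs : IsSmall δ s)
    (a b : Fin n) : 2 * ‖(R.f s * R.A) a b‖ ≤ δ * ((R.A a a).re + (R.A b b).re) := by
  obtain ⟨_, ⟨k₁, t₁, h₁⟩, ⟨k₂, t₂, h₂⟩⟩ := hs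
  have hδ : R.f (δ : D) = ((δ : ℝ) : ℂ) • (1 : Matrix (Fin n) (Fin n) ℂ) := by
    have h3 : (δ : D) = algebraMap K D (δ : K) := by rw [map_ratCast]
    rw [h3, R.hf, map_ratCast, Matrix.scalar_apply, ← Matrix.smul_one_eq_diagonal]
    norm_cast
  have hp₁ : (((δ : ℝ) : ℂ) • R.A - R.f s * R.A).PosSemidef := by
    have h3 := sum_psd hA t₁
    rw [← h₁, map_sub, hδ, sub_mul, smul_mul_assoc, one_mul] at h3
    exact h3
  have hp₂ : (((δ : ℝ) : ℂ) • R.A + R.f s * R.A).PosSemidef := by
    have h3 := sum_psd hA t₂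
    rw [← h₂, map_add, hδ, add_mul, smul_mul_assoc, one_mul] at h3
    exact h3
  have e₁ := psd_entry hp₁ a b
  have e₂ := psd_entry hp₂ a b
  have hM : (2 : ℂ) * (R.f s * R.A) a b = (((δ : ℝ) : ℂ) • R.A + R.f s * R.A) a b -
      (((δ : ℝ) : ℂ) • R.A - R.f s * R.A) a b := by
    rw [Matrix.add_apply, Matrix.sub_apply]
    ring
  have hn := congrArg norm hM
  rw [norm_mul, Complex.norm_ofNat] at hn
  have h4 := norm_sub_le ((((δ : ℝ) : ℂ) • R.A + R.f s * R.A) a b)
    ((((δ : ℝ) : ℂ) • R.A - R.f s * R.A) a b)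
  have h5 : ∀ c, ((((δ : ℝ) : ℂ) • R.A - R.f s * R.A) c c).re +
      ((((δ : ℝ) : ℂ) • R.A + R.f s * R.A) c c).re = 2 * (δ * (R.A c c).re) := by
    intro c
    rw [Matrix.add_apply, Matrix.sub_apply, Complex.sub_re, Complex.add_re, Matrix.smul_apply,
      smul_eq_mul, Complex.re_ofReal_mul]
    ring
  have h6 := h5 a
  have h7 := h5 b
  linarith

/-- The values of the form are stable. -/
theorem hasStable (hn : 0 < n) (hdeg : finrank K D = n ^ 2) {ι : Type} [Fintype ι]
    {R : ι → RData K D n} (hc : Complete R) (hA : ∀ i, (R i).A.PosDef) (hR2 : HasR2 K D n) {m : ℕ}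
    (hm : 4 ≤ m) {H : Matrix (Fin m) (Fin m) D} (hH : IsAnisotropicForm H) :
    HasStableValues H := by
  obtain ⟨i0⟩ := nonempty_of_anis hn hdeg hc hR2 (by omega : 3 ≤ m) hH
  intro y z x hx0 hyx hzx
  let B := rowF H hH.1
  have hB : ∀ x, B.h x x = 0 → x = 0 := by
    intro x hx
    have h1 := hH.2 (star x) (by rw [col_row, star_star]; exact hx)
    rw [← star_star x, h1, star_zero]
  rw [col_row] at hyx hzx
  let W := LinearMap.ker (orthF B ![star y, star z])
  have hW : 2 ≤ finrank D W := by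
    have h1 := finrank_orth B ![star y, star z]
    rw [Module.finrank_fin_fun] at h1
    change m ≤ finrank D W + 2 at h1
    omega
  have hmemW : ∀ w, w ∈ W ↔ (B.h w (star y) = 0 ∧ B.h w (star z) = 0) := by
    intro w
    rw [mem_orth, Fin.forall_fin_two]
    rfl
  have hsymm : ∀ {u v : Fin m → D}, B.h u v = 0 → B.h v u = 0 := fun {u v} h => by
    rw [← B.star_h, h, star_zero]
  have hxW : star x ∈ W := (hmemW _).mpr ⟨hsymm hyx, hsymm hzx⟩
  have hx0' : (⟨star x, hxW⟩ : W) ≠ 0 := by
    intro h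
    apply hx0
    have h1 : star x = 0 := congrArg Subtype.val h
    rw [← star_star x, h1, star_zero]
  obtain ⟨c, hcd⟩ : ∃ c : D, c = B.h (star x) (star x) := ⟨_, rfl⟩
  have hc0 : c ≠ 0 := by
    intro h
    apply hx0
    have h1 := hB (star x) (hcd ▸ h)
    rw [← star_star x, h1, star_zero]
  have hcs : star c = c := by rw [hcd, B.star_h]
  have hnear : ∀ i, ∃ η : ℝ, 0 < η ∧ ∀ M : Matrix (Fin n) (Fin n) ℂ, M.IsHermitian →
      (∀ a b, ‖M a b‖ < η) → ∃ Q : Matrix (Fin n) (Fin n) ℂ, IsUnit Q ∧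
        Q * ((R i).f c * (R i).A) * Qᴴ = (R i).f c * (R i).A + M := fun i =>
    herm_near ((R i).isHermitian hcs) ((f_unit' (R i) hc0).mul (R i).unit)
  choose η hη hnear using hnear
  -- a common bound
  obtain ⟨C, hC, hCb⟩ : ∃ C : ℝ, 0 < C ∧ ∀ i a, ((R i).A a a).re ≤ C := by
    refine ⟨1 + ∑ i, ∑ a, |((R i).A a a).re|, by positivity, fun i a => ?_⟩
    have h1 : |((R i).A a a).re| ≤ ∑ a, |((R i).A a a).re| :=
      Finset.single_le_sum (f := fun a => |((R i).A a a).re|) (fun _ _ => abs_nonneg _)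
        (Finset.mem_univ a)
    have h2 : ∑ a, |((R i).A a a).re| ≤ ∑ i, ∑ a, |((R i).A a a).re| :=
      Finset.single_le_sum (f := fun i => ∑ a, |((R i).A a a).re|)
        (fun _ _ => Finset.sum_nonneg fun _ _ => abs_nonneg _) (Finset.mem_univ i)
    have h3 := le_abs_self ((R i).A a a).re
    linarith
  have hne : Nonempty ι := ⟨i0⟩
  obtain ⟨i1, hi1⟩ := Finite.exists_min η
  obtain ⟨δ, hδ0, hδ⟩ := exists_rat_btwn (show (0 : ℝ) < η i1 / C by have := hη i1; positivity)
  have hδ0' : 0 < δ := by exact_mod_cast hδ0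
  refine ⟨δ, hδ0', fun s hs => ?_⟩
  have hcong : ∀ i, (R i).CongAt c (c + s) := by
    intro i
    obtain ⟨Q, hQ, h⟩ := hnear i ((R i).f s * (R i).A) ((R i).isHermitian hs.1) (by
      intro a b
      have h1 := small_entry (hA i) hs a b
      have h2 := hCb i a
      have h3 := hCb i b
      have h4 : (δ : ℝ) * C < η i1 := by rwa [lt_div_iff₀ hC] at hδ
      have h5 := hi1 i
      have h6 : (δ : ℝ) * (((R i).A a a).re + ((R i).A b b).re) ≤ δ * (C + C) :=
        mul_le_mul_of_nonneg_left (by linarith) hδ0.le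
      linarith)
    refine ⟨Q, hQ, ?_⟩
    rw [h, map_add, add_mul]
  have hcs0 : c + s ≠ 0 := by
    obtain ⟨Q, hQ, h⟩ := hcong i0
    intro h0
    rw [h0, map_zero, zero_mul] at h
    have h1 : IsUnit (Q * ((R i0).f c * (R i0).A) * Qᴴ) :=
      (hQ.mul ((f_unit' (R i0) hc0).mul (R i0).unit)).mul ((Matrix.isUnit_conjTranspose _).mpr hQ)
    rw [h] at h1
    have hne' : Nonempty (Fin n) := ⟨⟨0, hn⟩⟩
    exact h1.ne_zero rfl
  obtain ⟨x', hx'⟩ := hR2 W (resF B W) (fun x hx => Subtype.ext (hB x hx)) hW ⟨star x, hxW⟩ hx0'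
    (c + s) (by rw [star_add, hcs, hs.1]) hcs0 (by
      have h1 : (resF B W).h ⟨star x, hxW⟩ ⟨star x, hxW⟩ = c := hcd.symm
      rw [h1]
      exact of_family hn hdeg hc hcong)
  have hx'' := (hmemW _).mp x'.2
  refine ⟨star (x' : Fin m → D), ?_, ?_, ?_⟩
  · rw [col_row, star_star, col_row]
    have h1 : B.h (x' : Fin m → D) x' = c + s := hx'
    have h2 : rowH H (x' : Fin m → D) x' = B.h x' x' := rfl
    have h3 : rowH H (star x) (star x) = c := hcd.symm
    rw [h2, h1, h3]
  · rw [col_row, star_star]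
    exact hsymm hx''.1
  · rw [col_row, star_star]
    exact hsymm hx''.2

/-- The hypotheses of the structure theorem for normal subgroups. -/
theorem univ_stable (hn : 0 < n) (hdeg : finrank K D = n ^ 2) {ι : Type} [Fintype ι]
    {R : ι → RData K D n} (hc : Complete R) (hA : ∀ i, (R i).A.PosDef) (hR2 : HasR2 K D n) {m : ℕ}
    (hm : 4 ≤ m) {H : Matrix (Fin m) (Fin m) D} (hH : IsAnisotropicForm H)
    (u : Fin 2 → Fin m → D)
    (hu : ∀ i, ∀ β : Fin 2 → D, β ≠ 0 → ((R i).f (rowH H (fun a => ∑ c, β c * u c a)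
      (fun a => ∑ c, β c * u c a)) * (R i).A).PosDef) :
    IsFormallyPositive D ∧ IsUniversal H 2 ∧ HasStableValues H := by
  obtain ⟨i0⟩ := nonempty_of_anis hn hdeg hc hR2 (by omega : 3 ≤ m) hH
  exact ⟨formallyPositive hn (hA i0), isUniversal hn hdeg hc hA hR2 (by omega) hH u hu,
    hasStable hn hdeg hc hA hR2 hm hH⟩

end main

end Vale.Agent.P011.RP
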