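import Vale.Agent.P011.RP.Odd
import Vale.Agent.P011.RP.Universal
import Vale.Agent.P011.T2.Transport

/-!
Normal subgroups of the special unitary group of an anisotropic hermitian form of rank at least
four, for an arbitrary involution of the second kind.
-/

open Module Matrix
open scoped ComplexOrder

set_option linter.unusedSectionVars false

namespace Vale.Agent.P011.RP

open Vale.Agent.P011S Vale.Agent.P011.H402 Vale.Agent.P011.T2

section

variable {K D : Type} [Field K] [StarRing K] [DivisionRing D] [StarRing D] [Algebra K D] {n : ℕ}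

/-- The data for the twisted involution. -/
def RData.tw (R : RData K D n) (a : D) (ha0 : a ≠ 0) (ha : star a = a) (ε : ℤˣ) :
    @RData K D _ _ _ (twist a ha0 ha) _ n :=
  @RData.mk K D _ _ _ (twist a ha0 ha) _ n R.s R.hs R.f R.hf
    ((((ε : ℤˣ) : ℤ) : ℂ) • (R.f a * R.A))
    (by
      rw [conjTranspose_smul, star_sign, conjTranspose_mul, R.hA, ← R.star_f, ha])
    (by
      have h1 : IsUnit ((((ε : ℤˣ) : ℤ) : ℂ) • (1 : Matrix (Fin n) (Fin n) ℂ)) := by
        refine ⟨⟨_, (((ε : ℤˣ) : ℤ) : ℂ) • (1 : Matrix (Fin n) (Fin n) ℂ), ?_, ?_⟩, rfl⟩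
        · rw [smul_mul_smul_comm, sign_sq, one_smul, one_mul]
        · rw [smul_mul_smul_comm, sign_sq, one_smul, one_mul]
      have h2 := h1.mul ((R.f_unit ha0).mul R.unit)
      rwa [smul_mul_assoc, one_mul] at h2)
    (by
      intro x
      change R.f (a * star x * a⁻¹) * _ = _ * (R.f x)ᴴ
      rw [mul_smul_comm, smul_mul_assoc]
      congr 1
      rw [← mul_assoc, ← map_mul]
      have h1 : a * star x * a⁻¹ * a = a * star x := by
        rw [mul_assoc, inv_mul_cancel₀ ha0, mul_one]
      rw [h1, map_mul, mul_assoc, R.star_f, mul_assoc])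

theorem rowH_tw {m : ℕ} (H : Matrix (Fin m) (Fin m) D) (a : D) (ha0 : a ≠ 0) (ha : star a = a)
    (w : Fin m → D) :
    @rowH D _ (twist a ha0 ha) m (Vale.Agent.P011.T2.tw a H) (fun b => w b * a⁻¹)
      (fun b => w b * a⁻¹) = rowH H w w * a⁻¹ := by
  unfold rowH
  rw [Finset.sum_mul]
  refine Finset.sum_congr rfl fun b _ => ?_
  rw [Finset.sum_mul]
  refine Finset.sum_congr rfl fun c _ => ?_
  change w b * a⁻¹ * (a * H b c) * (a * star (w c * a⁻¹) * a⁻¹) = _
  rw [star_mul, star_inv₀, ha]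
  calc w b * a⁻¹ * (a * H b c) * (a * (a⁻¹ * star (w c)) * a⁻¹)
      = w b * (a⁻¹ * a) * H b c * (a * a⁻¹) * star (w c) * a⁻¹ := by simp only [mul_assoc]
    _ = _ := by rw [inv_mul_cancel₀ ha0, mul_inv_cancel₀ ha0, mul_one, mul_one]

end

/-- The Gram matrix of an anisotropic form is invertible. -/
theorem isUnit_of_anis {D : Type} [DivisionRing D] [StarRing D] {m : ℕ}
    {H : Matrix (Fin m) (Fin m) D} (hH : IsAnisotropicForm H) : IsUnit H := by
  classical
  have hinj : ∀ v : Fin m → D, v ᵥ* H = 0 → v = 0 := by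
    intro v hv
    have h1 := hH.2 (star v) (by
      rw [star_star, Matrix.dotProduct_mulVec, hv, zero_dotProduct])
    rw [← star_star v, h1, star_zero]
  let F : (Fin m → D) →ₗ[D] (Fin m → D) := Matrix.vecMulLinear H
  have hF : Function.Injective F := by
    rw [← LinearMap.ker_eq_bot, LinearMap.ker_eq_bot']
    exact fun v hv => hinj v hv
  have hFs : Function.Surjective F := LinearMap.surjective_of_injective hF
  choose w hw using fun i : Fin m => hFs (Pi.single i 1)
  have h1 : (Matrix.of w) * H = 1 := by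
    ext i j
    have h2 := congrFun (hw i) j
    change (w i ᵥ* H) j = _ at h2
    rw [Matrix.mul_apply, Matrix.one_apply]
    change ∑ k, w i k * H k j = _
    change ∑ k, w i k * H k j = _ at h2
    rw [h2, Pi.single_apply]
    simp only [eq_comm]
  have h3 : H * (Matrix.of w) = 1 := by
    have h4 : ∀ i, (H * (Matrix.of w) - 1) i = 0 := by
      intro i
      apply hinj
      have h5 : (H * (Matrix.of w) - 1) * H = 0 := by
        rw [sub_mul, mul_assoc, h1, mul_one, one_mul, sub_self]
      exact congrFun h5 i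
    rw [← sub_eq_zero]
    funext i
    exact h4 i
  exact ⟨⟨H, Matrix.of w, h3, h1⟩, rfl⟩

section

variable {K D : Type} [Field K] [NumberField K] [StarRing K] [DivisionRing D] [StarRing D]
  [Algebra K D] [StarModule K D] [FiniteDimensional K D] [Algebra.IsCentral K D]

/-- Normal subgroups of the special unitary group of an anisotropic form of rank at least four,
given the representation theorem. -/
theorem normal_of_R2 (hK : ∃ k : K, star k ≠ k) {n : ℕ} (hn : 0 < n)
    (hdeg : finrank K D = n ^ 2)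
    (hR2 : ∀ (a : D) (ha0 : a ≠ 0) (ha : star a = a), @HasR2 K D _ _ _ (twist a ha0 ha) _ n)
    {F : Type} [Field F] [Algebra K F] (f : D →ₐ[K] Matrix (Fin n) (Fin n) F)
    {m : ℕ} (hm : 4 ≤ m) (H : Matrix (Fin m) (Fin m) D) (hH : IsAnisotropicForm H)
    (N : Subgroup (SU f H)) [N.Normal] :
    N ≤ Subgroup.center (SU f H) ∨
      (ContainsCommutators f H N ∧ IsQuotientOfSUK f (SU f H ⧸ N) ∧
        (Squarefree n → N = ⊤)) := by
  classical
  have hchar : CharZero D := charZero_of_injective_algebraMap (algebraMap K D).injective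
  obtain ⟨ι, _, R, hc, hd⟩ := exists_family (D := D) hK hn hdeg
  have hHu : IsUnit H := isUnit_of_anis hH
  obtain ⟨ε, u, hu⟩ := exists_plane (q := 2) R hd (by omega) hH.1 hHu
  obtain ⟨a, ha, ha0, haP⟩ : ∃ a : D, star a = a ∧ a ≠ 0 ∧
      ∀ i, ((((ε i : ℤˣ) : ℤ) : ℂ) • ((R i).f a * (R i).A)).PosDef := by
    rcases isEmpty_or_nonempty ι with hι | ⟨⟨i0⟩⟩
    · exact ⟨1, star_one D, one_ne_zero, fun i => (hι.false i).elim⟩
    · obtain ⟨a, ha, haP⟩ := exists_definite R hd ε
      refine ⟨a, ha, ?_, haP⟩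
      rintro rfl
      have h1 := (haP i0).diag_pos (i := ⟨0, hn⟩)
      rw [map_zero, zero_mul, smul_zero, Matrix.zero_apply] at h1
      exact lt_irrefl _ h1
  obtain ⟨h1, h2, h3⟩ := @univ_stable K D _ _ _ _ (twist a ha0 ha) _ (twist_module a ha0 ha)
    _ _ n hn hdeg ι _ (fun i => (R i).tw a ha0 ha (ε i)) hc haP (hR2 a ha0 ha) m hm
    (Vale.Agent.P011.T2.tw a H) (anis_twist a ha0 ha hH) (fun c b => u c b * a⁻¹) (by
      intro i β hβ
      have e1 : (fun b => ∑ c, β c * (u c b * a⁻¹)) = fun b => (∑ c, β c * u c b) * a⁻¹ := by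
        funext b
        rw [Finset.sum_mul]
        exact Finset.sum_congr rfl fun c _ => by rw [mul_assoc]
      rw [e1, rowH_tw]
      change ((R i).f (rowH H _ _ * a⁻¹) *
        ((((ε i : ℤˣ) : ℤ) : ℂ) • ((R i).f a * (R i).A))).PosDef
      rw [mul_smul_comm, ← mul_assoc, ← map_mul, mul_assoc, inv_mul_cancel₀ ha0, mul_one]
      exact hu i β hβ)
  exact normal_all_twist hK hdeg f H hH a ha0 ha h1 (Or.inr ⟨by omega, h2, h3⟩) N

/-- Division algebras of odd degree. -/
theorem normal_odd (hK : ∃ k : K, star k ≠ k) {n : ℕ} (hn : Odd n)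
    (hdeg : finrank K D = n ^ 2)
    {F : Type} [Field F] [Algebra K F] (f : D →ₐ[K] Matrix (Fin n) (Fin n) F)
    {m : ℕ} (hm : 4 ≤ m) (H : Matrix (Fin m) (Fin m) D) (hH : IsAnisotropicForm H)
    (N : Subgroup (SU f H)) [N.Normal] :
    N ≤ Subgroup.center (SU f H) ∨
      (ContainsCommutators f H N ∧ IsQuotientOfSUK f (SU f H ⧸ N) ∧
        (Squarefree n → N = ⊤)) :=
  normal_of_R2 hK hn.pos hdeg (fun a ha0 ha =>
    @hasR2_odd K D _ _ _ _ (twist a ha0 ha) _ (twist_module a ha0 ha) _ _ hK n hn hdeg)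
    f hm H hH N

end

end Vale.Agent.P011.RP
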