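import Vale.Agent.P011.RP.Basic
import Vale.Agent.P011.Arith.SUnit
import Vale.Agent.P011.Arith.Places

/-!
Density of a division algebra with involution of the second kind in the product of its
completions at the nonsplit real places.
-/

open Module Matrix NumberField
open Vale.Agent.P011S
open Vale.Agent.P011.Arith (approx plAbv plAbv_inr Pl)

set_option linter.unusedSectionVars false

namespace Vale.Agent.P011.RP

/-- A number field is dense in the product of its real completions. -/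
theorem real_dense {F : Type} [Field F] [NumberField F] (r : (F →+* ℝ) → ℝ) {ε : ℝ} (hε : 0 < ε) :
    ∃ a : F, ∀ φ : F →+* ℝ, |φ a - r φ| < ε := by
  choose q hq1 hq2 using fun φ : F →+* ℝ => exists_rat_btwn (show r φ - ε / 2 < r φ + ε / 2 by linarith)
  obtain ⟨a, ha⟩ := approx (F := F) (Set.range Sum.inr) (Set.finite_range _)
    (fun p => Sum.elim (fun _ => (0 : F)) (fun φ => ((q φ : ℚ) : F)) p) (fun _ => ε / 2)
    (fun _ => by linarith)
  refine ⟨a, fun φ => ?_⟩
  have h1 := ha (Sum.inr φ) ⟨φ, rfl⟩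
  rw [plAbv_inr, Sum.elim_inr, map_sub, map_ratCast] at h1
  have h2 := hq1 φ
  have h3 := hq2 φ
  rw [abs_lt] at h1 ⊢
  constructor <;> linarith [h1.1, h1.2]

section field

variable {K : Type} [Field K] [NumberField K] [StarRing K]

noncomputable instance : NumberField (FK K) where
  to_charZero := inferInstance
  to_finiteDimensional := by
    have h : FiniteDimensional ℚ (fixK K) :=
      FiniteDimensional.of_injective (Algebra.linearMap (fixK K) K |>.restrictScalars ℚ)
        (algebraMap (fixK K) K).injective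
    exact h

variable {θ : K} (hθ0 : θ ≠ 0) (hθ : star θ = -θ)

/-- the image of `θ` under the embedding above `w` -/
noncomputable def rt (w : FK K →+* ℝ) : ℝ := Real.sqrt (-w (sqK hθ))

theorem rt_pos {w : FK K →+* ℝ} (hw : w (sqK hθ) < 0) : 0 < rt hθ w :=
  Real.sqrt_pos.mpr (by linarith)

/-- the complex embedding of `K` above the real embedding `w` -/
noncomputable def emb (w : FK K →+* ℝ) (hw : w (sqK hθ) < 0) : K →+* ℂ :=
  letI : Algebra (FK K) ℂ := (Complex.ofRealHom.comp w).toAlgebra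
  (liftK hθ0 hθ (R := ℂ) ((rt hθ w : ℂ) * Complex.I) (by
    have h1 : ((rt hθ w : ℂ) * Complex.I) * ((rt hθ w : ℂ) * Complex.I) =
        -((rt hθ w * rt hθ w : ℝ) : ℂ) := by
      push_cast
      linear_combination ((rt hθ w : ℂ) ^ 2) * Complex.I_sq
    rw [h1, rt, Real.mul_self_sqrt (by linarith)]
    change _ = ((w (sqK hθ) : ℝ) : ℂ)
    push_cast
    ring)).toRingHom

theorem emb_apply (w : FK K →+* ℝ) (hw : w (sqK hθ) < 0) (x : K) :
    emb hθ0 hθ w hw x = (w (al x) : ℂ) + (w (be hθ x) : ℂ) * ((rt hθ w : ℂ) * Complex.I) := rfl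

theorem emb_star (w : FK K →+* ℝ) (hw : w (sqK hθ) < 0) (x : K) :
    emb hθ0 hθ w hw (star x) = star (emb hθ0 hθ w hw x) := by
  rw [emb_apply, emb_apply, al_star hθ0 hθ, be_star hθ0 hθ, star_add, star_mul', star_mul']
  simp [Complex.conj_ofReal]

theorem emb_mk (w : FK K →+* ℝ) (hw : w (sqK hθ) < 0) (a b : FK K) :
    emb hθ0 hθ w hw (algebraMap (FK K) K a + algebraMap (FK K) K b * θ) =
      (w a : ℂ) + (w b : ℂ) * ((rt hθ w : ℂ) * Complex.I) := by
  rw [emb_apply, al_mk hθ0 hθ, be_mk hθ0 hθ]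

include hθ0 in
/-- every embedding compatible with the involutions is one of these, up to conjugation -/
theorem exists_emb (s : K →+* ℂ) (hs : ∀ z, s (star z) = star (s z)) :
    ∃ (w : FK K →+* ℝ) (hw : w (sqK hθ) < 0),
      emb hθ0 hθ w hw = s ∨ ∀ z, emb hθ0 hθ w hw z = star (s z) := by
  have hre : ∀ a : FK K, ((s (algebraMap (FK K) K a)).re : ℂ) = s (algebraMap (FK K) K a) := by
    intro a
    have h1 := hs (algebraMap (FK K) K a)
    rw [star_fixK] at h1
    exact Complex.conj_eq_iff_re.mp h1.symm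
  let w : FK K →+* ℝ :=
    { toFun := fun a => (s (algebraMap (FK K) K a)).re
      map_one' := by simp
      map_zero' := by simp
      map_add' := fun a b => by simp
      map_mul' := fun a b => by
        rw [map_mul, map_mul, ← hre a, ← hre b, ← Complex.ofReal_mul, Complex.ofReal_re,
          Complex.ofReal_re, Complex.ofReal_re] }
  have hwa : ∀ a : FK K, (w a : ℂ) = s (algebraMap (FK K) K a) := hre
  have hθi : (s θ).re = 0 := by
    have h1 := hs θ
    rw [hθ, map_neg] at h1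
    have h2 := congrArg Complex.re h1
    simp only [Complex.neg_re, Complex.star_def, Complex.conj_re] at h2
    linarith
  have hθs : s θ = ((s θ).im : ℂ) * Complex.I := by
    apply Complex.ext
    · simp [hθi]
    · simp
  have him : (s θ).im ≠ 0 := by
    intro h
    rw [h, Complex.ofReal_zero, zero_mul] at hθs
    exact hθ0 ((map_eq_zero s).mp hθs)
  have hw2 : w (sqK hθ) = -((s θ).im ^ 2) := by
    have h1 : (w (sqK hθ) : ℂ) = ((-((s θ).im ^ 2) : ℝ) : ℂ) := by
      rw [hwa, coe_sqK, map_mul, hθs]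
      push_cast
      simp only [Complex.mul_im, Complex.ofReal_re, Complex.I_im, mul_one, Complex.ofReal_im,
        Complex.I_re, mul_zero, add_zero]
      linear_combination (((s θ).im : ℂ) ^ 2) * Complex.I_sq
    exact_mod_cast h1
  have hw : w (sqK hθ) < 0 := by
    rw [hw2]
    have := pow_pos (abs_pos.mpr him) 2
    rw [sq_abs] at this
    linarith
  have hrt : rt hθ w = |(s θ).im| := by
    rw [rt, hw2, neg_neg, Real.sqrt_sq_eq_abs]
  refine ⟨w, hw, ?_⟩
  rcases le_total 0 (s θ).im with h0 | h0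
  · left
    ext x
    rw [emb_apply, hrt, abs_of_nonneg h0, ← hθs, hwa, hwa, ← map_mul, ← map_add, al_be hθ0 hθ]
  · right
    intro x
    rw [emb_apply, hrt, abs_of_nonpos h0]
    have h1 : ((-(s θ).im : ℝ) : ℂ) * Complex.I = s (-θ) := by
      rw [map_neg]
      conv_rhs => rw [hθs]
      push_cast
      ring
    rw [h1, hwa, hwa, ← map_mul, ← map_add, ← hs]
    congr 1
    conv_rhs => rw [← al_be hθ0 hθ x]
    rw [star_add, star_mul, star_fixK, star_fixK, hθ]
    ring

include hθ0 hθ in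
/-- density of `K` in the product of the complex completions above nonsplit real places -/
theorem cplx_dense (z : (FK K →+* ℝ) → ℂ) {ε : ℝ} (hε : 0 < ε) :
    ∃ k : K, ∀ (w : FK K →+* ℝ) (hw : w (sqK hθ) < 0), ‖emb hθ0 hθ w hw k - z w‖ < ε := by
  have : Finite (FK K →+* ℝ) := inferInstance
  have : Fintype (FK K →+* ℝ) := Fintype.ofFinite _
  obtain ⟨M, hM0, hM⟩ : ∃ M : ℝ, 0 < M ∧ ∀ w : FK K →+* ℝ, rt hθ w ≤ M := by
    refine ⟨∑ w : FK K →+* ℝ, rt hθ w + 1, ?_, fun w => ?_⟩
    · have : 0 ≤ ∑ w : FK K →+* ℝ, rt hθ w := Finset.sum_nonneg fun w _ => Real.sqrt_nonneg _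
      linarith
    · have := Finset.single_le_sum (f := fun w : FK K →+* ℝ => rt hθ w)
        (fun w _ => Real.sqrt_nonneg _) (Finset.mem_univ w)
      linarith
  obtain ⟨a, ha⟩ := real_dense (F := FK K) (fun w => (z w).re) (half_pos hε)
  obtain ⟨b, hb⟩ := real_dense (F := FK K) (fun w => (z w).im / rt hθ w)
    (show 0 < ε / 2 / M by positivity)
  refine ⟨algebraMap (FK K) K a + algebraMap (FK K) K b * θ, fun w hw => ?_⟩
  rw [emb_mk]
  have hp := rt_pos hθ hw
  have h1 : (w a : ℂ) + (w b : ℂ) * ((rt hθ w : ℂ) * Complex.I) - z w =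
      ((w a - (z w).re : ℝ) : ℂ) + (((w b - (z w).im / rt hθ w) * rt hθ w : ℝ) : ℂ) * Complex.I := by
    conv_lhs => rw [← Complex.re_add_im (z w)]
    rw [sub_mul, div_mul_cancel₀ _ hp.ne']
    push_cast
    ring
  rw [h1]
  have h2 := norm_add_le ((w a - (z w).re : ℝ) : ℂ)
    ((((w b - (z w).im / rt hθ w) * rt hθ w : ℝ) : ℂ) * Complex.I)
  rw [norm_mul, Complex.norm_I, mul_one, Complex.norm_real, Complex.norm_real, Real.norm_eq_abs,
    Real.norm_eq_abs, abs_mul, abs_of_pos hp] at h2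
  have h3 : |w b - (z w).im / rt hθ w| * rt hθ w ≤ ε / 2 := by
    have h4 := (hb w).le
    calc |w b - (z w).im / rt hθ w| * rt hθ w ≤ (ε / 2 / M) * M := by
          apply mul_le_mul h4 (hM w) hp.le
          positivity
      _ = ε / 2 := by field_simp
  have h5 := ha w
  linarith

end field

section alg

variable {K D : Type} [Field K] [NumberField K] [StarRing K] [DivisionRing D] [StarRing D]
  [Algebra K D] [StarModule K D] [FiniteDimensional K D] [Algebra.IsCentral K D] {n : ℕ}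

theorem RData.split_basis (hdeg : finrank K D = n ^ 2) (hn : 0 < n) (R : RData K D n)
    (X : Matrix (Fin n) (Fin n) ℂ) :
    ∃ γ : Fin (finrank K D) → ℂ, X = ∑ j, γ j • R.f (finBasis K D j) := by
  let _ : Algebra K ℂ := R.s.toAlgebra
  let f' : D →ₐ[K] Matrix (Fin n) (Fin n) ℂ :=
    { R.f with
      commutes' := fun k => by
        change R.f (algebraMap K D k) = _
        rw [R.hf, Matrix.algebraMap_eq_diagonal]
        rfl }
  have h1 := span_split hn hdeg f'
  have h2 := Vale.Agent.P011S.SF.split_indep hn f' (finBasis K D) (finBasis K D).linearIndependent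
  have h3 := h2.span_eq_top_of_card_eq_finrank' (by
    rw [Fintype.card_fin, Module.finrank_matrix, Fintype.card_fin, hdeg, Module.finrank_self,
      mul_one, pow_two])
  have h4 : X ∈ Submodule.span ℂ (Set.range fun i => f' (finBasis K D i)) := by
    rw [h3]; exact Submodule.mem_top
  rw [Submodule.mem_span_range_iff_exists_fun] at h4
  obtain ⟨γ, hγ⟩ := h4
  exact ⟨γ, hγ.symm⟩

/-- The places and the density of `D`. -/
theorem exists_family (hK : ∃ k : K, star k ≠ k) (hn : 0 < n) (hdeg : finrank K D = n ^ 2) :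
    ∃ (ι : Type) (_ : Fintype ι) (R : ι → RData K D n),
      (∀ s : K →+* ℂ, (∀ z, s (star z) = star (s z)) →
        ∃ i, (R i).s = s ∨ ∀ z, (R i).s z = star (s z)) ∧
      (∀ (X : ι → Matrix (Fin n) (Fin n) ℂ) (ε : ℝ), 0 < ε →
        ∃ x : D, ∀ i a b, ‖(R i).f x a b - X i a b‖ < ε) := by
  obtain ⟨k, hk⟩ := hK
  have hθ0 : k - star k ≠ 0 := sub_ne_zero.mpr (Ne.symm hk)
  have hθ : star (k - star k) = -(k - star k) := by rw [star_sub, star_star, neg_sub]
  choose R hR using fun w : {w : FK K →+* ℝ // w (sqK hθ) < 0} =>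
    RData.exists_of (D := D) hn hdeg (emb hθ0 hθ w.1 w.2) (emb_star hθ0 hθ w.1 w.2)
  have hfin : Finite {w : FK K →+* ℝ // w (sqK hθ) < 0} := inferInstance
  refine ⟨{w : FK K →+* ℝ // w (sqK hθ) < 0}, Fintype.ofFinite _, R, ?_, ?_⟩
  · intro s hs
    obtain ⟨w, hw, h⟩ := exists_emb hθ0 hθ s hs
    refine ⟨⟨w, hw⟩, ?_⟩
    rw [hR]
    exact h
  · intro X ε hε
    classical
    let _ : Fintype {w : FK K →+* ℝ // w (sqK hθ) < 0} := Fintype.ofFinite _
    choose γ hγ using fun w : {w : FK K →+* ℝ // w (sqK hθ) < 0} =>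
      (R w).split_basis hdeg hn (X w)
    obtain ⟨M, hM0, hM⟩ : ∃ M : ℝ, 0 < M ∧ ∀ w : {w : FK K →+* ℝ // w (sqK hθ) < 0},
        ∀ a b, ∑ j, ‖(R w).f (finBasis K D j) a b‖ < M := by
      refine ⟨∑ w : {w : FK K →+* ℝ // w (sqK hθ) < 0}, ∑ a, ∑ b,
        ∑ j, ‖(R w).f (finBasis K D j) a b‖ + 1, ?_, ?_⟩
      · have h1 : 0 ≤ ∑ w : {w : FK K →+* ℝ // w (sqK hθ) < 0}, ∑ a, ∑ b,
            ∑ j, ‖(R w).f (finBasis K D j) a b‖ :=
          Finset.sum_nonneg fun _ _ => Finset.sum_nonneg fun _ _ => Finset.sum_nonneg fun _ _ =>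
            Finset.sum_nonneg fun _ _ => norm_nonneg _
        linarith
      · intro w a b
        have h1 : ∑ j, ‖(R w).f (finBasis K D j) a b‖ ≤
            ∑ b, ∑ j, ‖(R w).f (finBasis K D j) a b‖ :=
          Finset.single_le_sum (f := fun b => ∑ j, ‖(R w).f (finBasis K D j) a b‖)
            (fun _ _ => Finset.sum_nonneg fun _ _ => norm_nonneg _) (Finset.mem_univ b)
        have h2 : ∑ b, ∑ j, ‖(R w).f (finBasis K D j) a b‖ ≤
            ∑ a, ∑ b, ∑ j, ‖(R w).f (finBasis K D j) a b‖ :=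
          Finset.single_le_sum (f := fun a => ∑ b, ∑ j, ‖(R w).f (finBasis K D j) a b‖)
            (fun _ _ => Finset.sum_nonneg fun _ _ => Finset.sum_nonneg fun _ _ => norm_nonneg _)
            (Finset.mem_univ a)
        have h3 : ∑ a, ∑ b, ∑ j, ‖(R w).f (finBasis K D j) a b‖ ≤
            ∑ w : {w : FK K →+* ℝ // w (sqK hθ) < 0}, ∑ a, ∑ b,
              ∑ j, ‖(R w).f (finBasis K D j) a b‖ :=
          Finset.single_le_sum
            (f := fun w : {w : FK K →+* ℝ // w (sqK hθ) < 0} =>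
              ∑ a, ∑ b, ∑ j, ‖(R w).f (finBasis K D j) a b‖)
            (fun _ _ => Finset.sum_nonneg fun _ _ => Finset.sum_nonneg fun _ _ =>
              Finset.sum_nonneg fun _ _ => norm_nonneg _)
            (Finset.mem_univ w)
        linarith
    have hδ : 0 < ε / M := by positivity
    choose c hc using fun j : Fin (finrank K D) =>
      cplx_dense hθ0 hθ (fun w => if hw : w (sqK hθ) < 0 then γ ⟨w, hw⟩ j else 0) hδ
    refine ⟨∑ j, algebraMap K D (c j) * finBasis K D j, fun w a b => ?_⟩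
    have h1 : (R w).f (∑ j, algebraMap K D (c j) * finBasis K D j) a b - X w a b =
        ∑ j, ((R w).s (c j) - γ w j) * (R w).f (finBasis K D j) a b := by
      rw [map_sum]
      conv_lhs => rw [hγ w]
      rw [Matrix.sum_apply, Matrix.sum_apply, ← Finset.sum_sub_distrib]
      refine Finset.sum_congr rfl fun j _ => ?_
      rw [map_mul, (R w).hf, Matrix.scalar_apply, ← Matrix.smul_eq_diagonal_mul,
        Matrix.smul_apply, Matrix.smul_apply, smul_eq_mul, smul_eq_mul, sub_mul]
    rw [h1]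
    have h2 : ∀ j, ‖(R w).s (c j) - γ w j‖ ≤ ε / M := by
      intro j
      have h3 := hc j w.1 w.2
      rw [dif_pos w.2] at h3
      rw [hR]
      exact h3.le
    calc ‖∑ j, ((R w).s (c j) - γ w j) * (R w).f (finBasis K D j) a b‖
        ≤ ∑ j, ‖((R w).s (c j) - γ w j) * (R w).f (finBasis K D j) a b‖ := norm_sum_le _ _
      _ ≤ ∑ j, (ε / M) * ‖(R w).f (finBasis K D j) a b‖ := by
          refine Finset.sum_le_sum fun j _ => ?_
          rw [norm_mul]
          exact mul_le_mul_of_nonneg_right (h2 j) (norm_nonneg _)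
      _ = (ε / M) * ∑ j, ‖(R w).f (finBasis K D j) a b‖ := by rw [Finset.mul_sum]
      _ < (ε / M) * M := mul_lt_mul_of_pos_left (hM w a b) hδ
      _ = ε := by field_simp

/-- The symmetric elements are dense as well. -/
theorem exists_sym {ι : Type} [Fintype ι] (R : ι → RData K D n)
    (hR : ∀ (X : ι → Matrix (Fin n) (Fin n) ℂ) (ε : ℝ), 0 < ε →
        ∃ x : D, ∀ i a b, ‖(R i).f x a b - X i a b‖ < ε)
    (X : ι → Matrix (Fin n) (Fin n) ℂ) (hX : ∀ i, (X i * (R i).A)ᴴ = X i * (R i).A) {ε : ℝ}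
    (hε : 0 < ε) : ∃ x : D, star x = x ∧ ∀ i a b, ‖(R i).f x a b - X i a b‖ < ε := by
  classical
  choose B hB using fun i => (R i).unit
  let A' : ι → Matrix (Fin n) (Fin n) ℂ := fun i => (((B i)⁻¹ : (Matrix (Fin n) (Fin n) ℂ)ˣ) : _)
  have hA' : ∀ i, (R i).A * A' i = 1 := fun i => by rw [← hB]; exact Units.mul_inv _
  obtain ⟨M, hM0, hM⟩ : ∃ M : ℝ, 0 < M ∧ ∀ i a b c e, ‖(R i).A a b‖ * ‖A' i c e‖ ≤ M := by
    refine ⟨∑ i, ∑ a, ∑ b, ∑ c, ∑ e, ‖(R i).A a b‖ * ‖A' i c e‖ + 1, ?_, ?_⟩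
    · have : 0 ≤ ∑ i, ∑ a, ∑ b, ∑ c, ∑ e, ‖(R i).A a b‖ * ‖A' i c e‖ :=
        Finset.sum_nonneg fun _ _ => Finset.sum_nonneg fun _ _ => Finset.sum_nonneg fun _ _ =>
          Finset.sum_nonneg fun _ _ => Finset.sum_nonneg fun _ _ => by positivity
      linarith
    · intro i a b c e
      have h5 : ‖(R i).A a b‖ * ‖A' i c e‖ ≤ ∑ e, ‖(R i).A a b‖ * ‖A' i c e‖ :=
        Finset.single_le_sum (f := fun e => ‖(R i).A a b‖ * ‖A' i c e‖)
          (fun _ _ => by positivity) (Finset.mem_univ e)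
      have h4 : ∑ e, ‖(R i).A a b‖ * ‖A' i c e‖ ≤ ∑ c, ∑ e, ‖(R i).A a b‖ * ‖A' i c e‖ :=
        Finset.single_le_sum (f := fun c => ∑ e, ‖(R i).A a b‖ * ‖A' i c e‖)
          (fun _ _ => Finset.sum_nonneg fun _ _ => by positivity) (Finset.mem_univ c)
      have h3 : ∑ c, ∑ e, ‖(R i).A a b‖ * ‖A' i c e‖ ≤
          ∑ b, ∑ c, ∑ e, ‖(R i).A a b‖ * ‖A' i c e‖ :=
        Finset.single_le_sum (f := fun b => ∑ c, ∑ e, ‖(R i).A a b‖ * ‖A' i c e‖)
          (fun _ _ => Finset.sum_nonneg fun _ _ => Finset.sum_nonneg fun _ _ => by positivity)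
          (Finset.mem_univ b)
      have h2 : ∑ b, ∑ c, ∑ e, ‖(R i).A a b‖ * ‖A' i c e‖ ≤
          ∑ a, ∑ b, ∑ c, ∑ e, ‖(R i).A a b‖ * ‖A' i c e‖ :=
        Finset.single_le_sum (f := fun a => ∑ b, ∑ c, ∑ e, ‖(R i).A a b‖ * ‖A' i c e‖)
          (fun _ _ => Finset.sum_nonneg fun _ _ => Finset.sum_nonneg fun _ _ =>
            Finset.sum_nonneg fun _ _ => by positivity) (Finset.mem_univ a)
      have h1 : ∑ a, ∑ b, ∑ c, ∑ e, ‖(R i).A a b‖ * ‖A' i c e‖ ≤
          ∑ i, ∑ a, ∑ b, ∑ c, ∑ e, ‖(R i).A a b‖ * ‖A' i c e‖ :=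
        Finset.single_le_sum
          (f := fun i => ∑ a, ∑ b, ∑ c, ∑ e, ‖(R i).A a b‖ * ‖A' i c e‖)
          (fun _ _ => Finset.sum_nonneg fun _ _ => Finset.sum_nonneg fun _ _ =>
            Finset.sum_nonneg fun _ _ => Finset.sum_nonneg fun _ _ => by positivity)
          (Finset.mem_univ i)
      linarith
  have hδ : 0 < ε / (1 + n * n * M) := by positivity
  obtain ⟨x, hx⟩ := hR X _ hδ
  refine ⟨algebraMap K D (1 / 2) * (x + star x), ?_, fun i a b => ?_⟩
  · rw [star_mul, star_add, star_star, ← algebraMap_star_comm, star_div₀, star_one, star_ofNat,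
      ← Algebra.commutes, add_comm]
  · have h1 : (R i).f (star x) = (R i).A * ((R i).f x)ᴴ * A' i := by
      rw [← (R i).star_f, mul_assoc, hA', mul_one]
    have h2 : X i = (R i).A * (X i)ᴴ * A' i := by
      have h3 := hX i
      rw [Matrix.conjTranspose_mul, (R i).hA] at h3
      rw [h3, mul_assoc, hA', mul_one]
    have h4 : (R i).f (algebraMap K D (1 / 2) * (x + star x)) - X i =
        (1 / 2 : ℂ) • (((R i).f x - X i) + (R i).A * ((R i).f x - X i)ᴴ * A' i) := by
      rw [map_mul, (R i).hf, map_add, h1, map_div₀, map_one, map_ofNat, Matrix.scalar_apply,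
        ← Matrix.smul_eq_diagonal_mul, Matrix.conjTranspose_sub, mul_sub, sub_mul, ← h2]
      have h5 : X i = (1 / 2 : ℂ) • (X i + X i) := by
        rw [← two_smul ℂ, smul_smul]; norm_num
      conv_lhs => rw [h5]
      rw [← smul_sub]
      congr 1
      abel
    have h6 := congrFun (congrFun h4 a) b
    rw [Matrix.sub_apply] at h6
    rw [h6, Matrix.smul_apply, Matrix.add_apply, smul_eq_mul, norm_mul]
    have h7 : ‖((R i).f x - X i) a b‖ < ε / (1 + n * n * M) := by
      rw [Matrix.sub_apply]; exact hx i a b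
    have h8 : ‖((R i).A * ((R i).f x - X i)ᴴ * A' i) a b‖ ≤
        n * n * M * (ε / (1 + n * n * M)) := by
      rw [Matrix.mul_apply]
      have h9 : ∀ c, ‖((R i).A * ((R i).f x - X i)ᴴ) a c * A' i c b‖ ≤
          n * (M * (ε / (1 + n * n * M))) := by
        intro c
        rw [Matrix.mul_apply, Finset.sum_mul]
        refine (norm_sum_le _ _).trans ?_
        have h10 : ∀ e ∈ (Finset.univ : Finset (Fin n)),
            ‖(R i).A a e * ((R i).f x - X i)ᴴ e c * A' i c b‖ ≤ M * (ε / (1 + n * n * M)) := by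
          intro e _
          rw [norm_mul, norm_mul, Matrix.conjTranspose_apply, norm_star, Matrix.sub_apply]
          calc ‖(R i).A a e‖ * ‖(R i).f x c e - X i c e‖ * ‖A' i c b‖
              = (‖(R i).A a e‖ * ‖A' i c b‖) * ‖(R i).f x c e - X i c e‖ := by ring
            _ ≤ M * (ε / (1 + n * n * M)) :=
                mul_le_mul (hM i a e c b) (hx i c e).le (norm_nonneg _) hM0.le
        refine (Finset.sum_le_sum h10).trans ?_
        rw [Finset.sum_const, Finset.card_univ, Fintype.card_fin, nsmul_eq_mul]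
      refine (norm_sum_le _ _).trans ?_
      refine (Finset.sum_le_sum fun c _ => h9 c).trans ?_
      rw [Finset.sum_const, Finset.card_univ, Fintype.card_fin, nsmul_eq_mul]
      apply le_of_eq
      ring
    have h11 : ε / (1 + n * n * M) + n * n * M * (ε / (1 + n * n * M)) = ε := by
      have : (1 + n * n * M) ≠ 0 := by positivity
      field_simp
    have h12 := norm_add_le (((R i).f x - X i) a b) (((R i).A * ((R i).f x - X i)ᴴ * A' i) a b)
    have h13 : ‖(1 / 2 : ℂ)‖ = 1 / 2 := by norm_num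
    rw [h13]
    linarith

end alg

end Vale.Agent.P011.RP
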