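import Vale.Agent.P011.RP.Final
import Vale.Agent.P011.T2.Transport2

/-!
The structure theorem for the special unitary group of an anisotropic hermitian form of rank at
least four, for an arbitrary involution of the second kind.
-/

open Module Matrix
open scoped ComplexOrder commutatorElement

set_option linter.unusedSectionVars false

namespace Vale.Agent.P011.RP

open Vale.Agent.P011S Vale.Agent.P011.H402 Vale.Agent.P011.T2

variable {K D : Type} [Field K] [NumberField K] [StarRing K] [DivisionRing D] [StarRing D]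
  [Algebra K D] [StarModule K D] [FiniteDimensional K D] [Algebra.IsCentral K D]

/-- After a change of the involution, an anisotropic form of rank at least four satisfies the
hypotheses of the structure theorem. -/
theorem exists_twist (hK : ∃ k : K, star k ≠ k) {n : ℕ} (hn : 0 < n)
    (hdeg : finrank K D = n ^ 2)
    (hR2 : ∀ (a : D) (ha0 : a ≠ 0) (ha : star a = a), @HasR2 K D _ _ _ (twist a ha0 ha) _ n)
    {m : ℕ} (hm : 4 ≤ m) (H : Matrix (Fin m) (Fin m) D) (hH : IsAnisotropicForm H) :
    ∃ (a : D) (ha0 : a ≠ 0) (ha : star a = a), @IsFormallyPositive D _ (twist a ha0 ha) ∧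
      @IsUniversal D _ (twist a ha0 ha) m (Vale.Agent.P011.T2.tw a H) 2 ∧
      @HasStableValues D _ (twist a ha0 ha) m (Vale.Agent.P011.T2.tw a H) := by
  classical
  have hchar : CharZero D := charZero_of_injective_algebraMap (algebraMap K D).injective
  obtain ⟨ι, _, R, hc, hd⟩ := exists_family (D := D) hK hn hdeg
  have hHu : IsUnit H := isUnit_of_anis hH
  obtain ⟨ε, u, hu⟩ := exists_plane (q := 2) R hd (by omega) hH.1 hHu
  obtain ⟨a, ha, ha0, haP⟩ : ∃ a : D, star a = a ∧ a ≠ 0 ∧
      ∀ i, ((((ε i : ℤˣ) : ℤ) : ℂ) • ((R i).f a * (R i).A)).PosDef := by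
    rcases isEmpty_or_nonempty ι with hι | ⟨⟨i0⟩⟩
    · exact ⟨1, star_one D, one_ne_zero, fun i => (hι.false i).elim⟩
    · obtain ⟨a, ha, haP⟩ := exists_definite R hd ε
      refine ⟨a, ha, ?_, haP⟩
      rintro rfl
      have h1 := (haP i0).diag_pos (i := ⟨0, hn⟩)
      rw [map_zero, zero_mul, smul_zero, Matrix.zero_apply] at h1
      exact lt_irrefl _ h1
  refine ⟨a, ha0, ha, ?_⟩
  exact @univ_stable K D _ _ _ _ (twist a ha0 ha) _ (twist_module a ha0 ha)
    _ _ n hn hdeg ι _ (fun i => (R i).tw a ha0 ha (ε i)) hc haP (hR2 a ha0 ha) m hm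
    (Vale.Agent.P011.T2.tw a H) (anis_twist a ha0 ha hH) (fun c b => u c b * a⁻¹) (by
      intro i β hβ
      have e1 : (fun b => ∑ c, β c * (u c b * a⁻¹)) = fun b => (∑ c, β c * u c b) * a⁻¹ := by
        funext b
        rw [Finset.sum_mul]
        exact Finset.sum_congr rfl fun c _ => by rw [mul_assoc]
      rw [e1, rowH_tw]
      change ((R i).f (rowH H _ _ * a⁻¹) *
        ((((ε i : ℤˣ) : ℤ) : ℂ) • ((R i).f a * (R i).A))).PosDef
      rw [mul_smul_comm, ← mul_assoc, ← map_mul, mul_assoc, inv_mul_cancel₀ ha0, mul_one]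
      exact hu i β hβ)

/-- All clauses, given the representation theorem. -/
theorem clauses_of_R2 (hK : ∃ k : K, star k ≠ k) {n : ℕ} (hn : 0 < n)
    (hdeg : finrank K D = n ^ 2)
    (hR2 : ∀ (a : D) (ha0 : a ≠ 0) (ha : star a = a), @HasR2 K D _ _ _ (twist a ha0 ha) _ n)
    {F : Type} [Field F] [Algebra K F] (f : D →ₐ[K] Matrix (Fin n) (Fin n) F)
    {m : ℕ} (hm : 4 ≤ m) (H : Matrix (Fin m) (Fin m) D) (hH : IsAnisotropicForm H) :
    AllClauses f H := by
  have hchar : CharZero D := charZero_of_injective_algebraMap (algebraMap K D).injective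
  obtain ⟨a, ha0, ha, h1, h2, h3⟩ := exists_twist hK hn hdeg hR2 hm H hH
  exact all_clauses_twist hK hdeg f H hH a ha0 ha h1 (Or.inr ⟨by omega, h2, h3⟩)

/-- All clauses for division algebras of odd degree. -/
theorem clauses_odd (hK : ∃ k : K, star k ≠ k) {n : ℕ} (hn : Odd n)
    (hdeg : finrank K D = n ^ 2)
    {F : Type} [Field F] [Algebra K F] (f : D →ₐ[K] Matrix (Fin n) (Fin n) F)
    {m : ℕ} (hm : 4 ≤ m) (H : Matrix (Fin m) (Fin m) D) (hH : IsAnisotropicForm H) :
    AllClauses f H :=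
  clauses_of_R2 hK hn.pos hdeg (fun a ha0 ha =>
    @hasR2_odd K D _ _ _ _ (twist a ha0 ha) _ (twist_module a ha0 ha) _ _ hK n hn hdeg)
    f hm H hH

end Vale.Agent.P011.RP
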