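import Vale.Agent.P011.RP.Basic

/-!
Perturbation of positive definite matrices, and large definite subspaces of hermitian matrices.
-/

open Module Matrix
open scoped ComplexOrder

namespace Vale.Agent.P011.RP

/-- A hermitian matrix close to a positive definite one is positive definite. -/
theorem posDef_near {ι : Type} [Fintype ι] [DecidableEq ι] {P : Matrix ι ι ℂ} (hP : P.PosDef) :
    ∃ ε : ℝ, 0 < ε ∧ ∀ M : Matrix ι ι ℂ, M.IsHermitian → (∀ a b, ‖M a b - P a b‖ < ε) →
      M.PosDef := by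
  classical
  rcases isEmpty_or_nonempty ι with hι | hι
  · refine ⟨1, one_pos, fun M hM _ => ?_⟩
    refine Matrix.PosDef.of_dotProduct_mulVec_pos hM ?_
    intro x hx
    exact absurd (Subsingleton.elim x 0) hx
  let g : (ι → ℂ) → ℝ := fun x => (star x ⬝ᵥ P *ᵥ x).re
  have hg : Continuous g := by
    apply Complex.continuous_re.comp
    apply Continuous.dotProduct
    · exact continuous_star
    · exact Continuous.matrix_mulVec continuous_const continuous_id
  have hcomp : IsCompact (Metric.sphere (0 : ι → ℂ) 1) := isCompact_sphere _ _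
  have hne : (Metric.sphere (0 : ι → ℂ) 1).Nonempty := by
    refine ⟨fun _ => 1, ?_⟩
    rw [mem_sphere_zero_iff_norm, pi_norm_const]
    simp
  obtain ⟨x0, hx0, hmin⟩ := hcomp.exists_isMinOn hne hg.continuousOn
  have hx0' : x0 ≠ 0 := by
    rintro rfl
    simp at hx0
  have hm : 0 < g x0 := (Complex.lt_def.mp (hP.dotProduct_mulVec_pos hx0')).1
  have hbound : ∀ x : ι → ℂ, g x0 * ‖x‖ ^ 2 ≤ g x := by
    intro x
    by_cases hx : x = 0
    · subst hx
      simp [g]
    · have hnx : 0 < ‖x‖ := norm_pos_iff.mpr hx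
      have h1 : ((‖x‖⁻¹ : ℝ) : ℂ) • x ∈ Metric.sphere (0 : ι → ℂ) 1 := by
        rw [mem_sphere_zero_iff_norm, norm_smul, Complex.norm_real, norm_inv, norm_norm,
          inv_mul_cancel₀ hnx.ne']
      have h2 : g x0 ≤ g (((‖x‖⁻¹ : ℝ) : ℂ) • x) := hmin h1
      have h3 : g (((‖x‖⁻¹ : ℝ) : ℂ) • x) = (‖x‖⁻¹) ^ 2 * g x := by
        simp only [g]
        rw [star_smul, Matrix.mulVec_smul, smul_dotProduct, dotProduct_smul, smul_smul]
        rw [show star (((‖x‖⁻¹ : ℝ) : ℂ)) = ((‖x‖⁻¹ : ℝ) : ℂ) from Complex.conj_ofReal _]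
        rw [← Complex.ofReal_mul, smul_eq_mul, Complex.re_ofReal_mul, pow_two]
      rw [h3] at h2
      calc g x0 * ‖x‖ ^ 2 ≤ ((‖x‖⁻¹) ^ 2 * g x) * ‖x‖ ^ 2 :=
            mul_le_mul_of_nonneg_right h2 (by positivity)
        _ = g x := by field_simp
  let N : ℝ := (Fintype.card ι : ℝ) ^ 2
  have hN : 0 < N := by
    have : 0 < Fintype.card ι := Fintype.card_pos
    positivity
  refine ⟨g x0 / (2 * N), by positivity, fun M hM hclose => ?_⟩
  refine Matrix.PosDef.of_dotProduct_mulVec_pos hM ?_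
  intro x hx
  have hnx : 0 < ‖x‖ := norm_pos_iff.mpr hx
  have hreal : (star x ⬝ᵥ M *ᵥ x).im = 0 := by
    have h1 : star (star x ⬝ᵥ M *ᵥ x) = star x ⬝ᵥ M *ᵥ x := by
      rw [← Matrix.star_dotProduct_star, star_star, Matrix.star_mulVec, hM.eq,
        ← Matrix.dotProduct_mulVec, dotProduct_comm]
    exact Complex.conj_eq_iff_im.mp h1
  have hdiff : ‖star x ⬝ᵥ (M - P) *ᵥ x‖ ≤ N * (g x0 / (2 * N)) * ‖x‖ ^ 2 := by
    have h1 : ∀ a, ‖((M - P) *ᵥ x) a‖ ≤ Fintype.card ι * ((g x0 / (2 * N)) * ‖x‖) := by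
      intro a
      rw [Matrix.mulVec, dotProduct]
      refine (norm_sum_le _ _).trans ?_
      rw [← nsmul_eq_mul, ← Finset.card_univ, ← Finset.sum_const]
      refine Finset.sum_le_sum fun b _ => ?_
      rw [norm_mul]
      exact mul_le_mul (hclose a b).le (norm_le_pi_norm x b) (norm_nonneg _) (by positivity)
    rw [dotProduct]
    refine (norm_sum_le _ _).trans ?_
    have h2 : ∀ a ∈ Finset.univ, ‖star x a * ((M - P) *ᵥ x) a‖ ≤
        ‖x‖ * (Fintype.card ι * ((g x0 / (2 * N)) * ‖x‖)) := by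
      intro a _
      rw [norm_mul, Pi.star_apply, norm_star]
      exact mul_le_mul (norm_le_pi_norm x a) (h1 a) (norm_nonneg _) (norm_nonneg _)
    refine (Finset.sum_le_sum h2).trans ?_
    rw [Finset.sum_const, Finset.card_univ, nsmul_eq_mul]
    apply le_of_eq
    simp only [N]
    ring
  rw [Complex.lt_def]
  refine ⟨?_, hreal.symm⟩
  have h1 : star x ⬝ᵥ M *ᵥ x = star x ⬝ᵥ P *ᵥ x + star x ⬝ᵥ (M - P) *ᵥ x := by
    rw [← dotProduct_add, ← Matrix.add_mulVec, add_sub_cancel]
  rw [h1, Complex.add_re, Complex.zero_re]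
  have h2 := hbound x
  have h3 := (abs_le.mp ((Complex.abs_re_le_norm _).trans hdiff)).1
  have h4 : N * (g x0 / (2 * N)) * ‖x‖ ^ 2 = g x0 * ‖x‖ ^ 2 / 2 := by field_simp
  rw [h4] at h3
  have h5 : 0 < g x0 * ‖x‖ ^ 2 := by positivity
  change 0 < g x + _
  linarith

/-- A hermitian invertible matrix of size at least `2 q` has a definite restriction of
size `q`. -/
theorem exists_half {ι : Type} [Fintype ι] [DecidableEq ι] {G : Matrix ι ι ℂ}
    (hG : G.IsHermitian) (hu : IsUnit G) {κ : Type} [Fintype κ] [DecidableEq κ]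
    (hq : 2 * Fintype.card κ ≤ Fintype.card ι) :
    ∃ (ε : ℤˣ) (Y : Matrix κ ι ℂ), (((ε : ℤ) : ℂ) • (Y * G * Yᴴ)).PosDef := by
  classical
  let U : Matrix ι ι ℂ := (hG.eigenvectorUnitary : Matrix ι ι ℂ)
  have hU1 : Uᴴ * U = 1 := Matrix.mem_unitaryGroup_iff'.mp hG.eigenvectorUnitary.2
  have hspec : Uᴴ * G * U = Matrix.diagonal (fun i => (hG.eigenvalues i : ℂ)) := by
    have h1 := hG.spectral_theorem
    have h2 : G = U * Matrix.diagonal (fun i => (hG.eigenvalues i : ℂ)) * Uᴴ := h1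
    calc Uᴴ * G * U = Uᴴ * (U * Matrix.diagonal (fun i => (hG.eigenvalues i : ℂ)) * Uᴴ) * U := by
          rw [← h2]
      _ = (Uᴴ * U) * Matrix.diagonal (fun i => (hG.eigenvalues i : ℂ)) * (Uᴴ * U) := by
          simp only [mul_assoc]
      _ = _ := by rw [hU1, one_mul, mul_one]
  have hne : ∀ i, hG.eigenvalues i ≠ 0 := by
    intro i h0
    have hdet : G.det ≠ 0 := by
      have := (Matrix.isUnit_iff_isUnit_det G).mp hu
      exact this.ne_zero
    apply hdet
    rw [hG.det_eq_prod_eigenvalues]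
    exact Finset.prod_eq_zero (Finset.mem_univ i) (by rw [h0]; rfl)
  have key : ∀ (ε : ℤˣ) (S : Finset ι), (∀ i ∈ S, 0 < ((ε : ℤ) : ℝ) * hG.eigenvalues i) →
      Fintype.card κ ≤ S.card → ∃ Y : Matrix κ ι ℂ, (((ε : ℤ) : ℂ) • (Y * G * Yᴴ)).PosDef := by
    intro ε S hS hcard
    obtain ⟨e⟩ : Nonempty (κ ↪ S) := by
      apply Function.Embedding.nonempty_of_card_le
      rwa [Fintype.card_coe]
    refine ⟨Uᴴ.submatrix (fun k => (e k : ι)) id, ?_⟩
    have h1 : (Uᴴ.submatrix (fun k => (e k : ι)) id) * G *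
        (Uᴴ.submatrix (fun k => (e k : ι)) id)ᴴ =
        Matrix.diagonal (fun k => (hG.eigenvalues (e k) : ℂ)) := by
      rw [Matrix.conjTranspose_submatrix, Matrix.conjTranspose_conjTranspose]
      have h2 : (Uᴴ.submatrix (fun k => (e k : ι)) id) * G * (U.submatrix id fun k => (e k : ι)) =
          (Uᴴ * G * U).submatrix (fun k => (e k : ι)) (fun k => (e k : ι)) := by
        ext a b
        simp [Matrix.mul_apply, Matrix.submatrix_apply]
      rw [h2, hspec]
      ext a b
      rw [Matrix.submatrix_apply, Matrix.diagonal_apply, Matrix.diagonal_apply]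
      by_cases hab : a = b
      · subst hab; simp
      · rw [if_neg hab, if_neg]
        intro h
        exact hab (e.injective (Subtype.ext h))
    rw [h1, ← Matrix.diagonal_smul]
    apply Matrix.PosDef.diagonal
    intro k
    rw [Pi.smul_apply, smul_eq_mul]
    have := hS _ (e k).2
    rw [Complex.lt_def]
    constructor
    · simpa using this
    · simp
  let Sp : Finset ι := Finset.univ.filter fun i => 0 < hG.eigenvalues i
  let Sn : Finset ι := Finset.univ.filter fun i => ¬ 0 < hG.eigenvalues i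
  have hsum : Sp.card + Sn.card = Fintype.card ι := by
    rw [← Finset.card_univ]
    exact Finset.card_filter_add_card_filter_not (s := Finset.univ) _
  rcases le_or_gt (Fintype.card κ) Sp.card with h | h
  · obtain ⟨Y, hY⟩ := key 1 Sp (fun i hi => by
      have := (Finset.mem_filter.mp hi).2
      simpa using this) h
    exact ⟨1, Y, hY⟩
  · obtain ⟨Y, hY⟩ := key (-1) Sn (fun i hi => by
      have h1 := (Finset.mem_filter.mp hi).2
      have h2 : hG.eigenvalues i < 0 := lt_of_le_of_ne (not_lt.mp h1) (hne i)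
      simpa using h2) (by omega)
    exact ⟨-1, Y, hY⟩

end Vale.Agent.P011.RP
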