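import Vale.Agent.P011.RP.Adj
import Vale.Agent.P011.RP.Final
import Vale.Agent.P011.Tri.Twist

/-!
The third vector.
-/

open Module Matrix
open scoped ComplexOrder

set_option linter.unusedSectionVars false

namespace Vale.Agent.P011.RP

open Vale.Agent.P011.T2
open Vale.Agent.P011.Tri (RT SignOK)

section

variable {K D : Type} [Field K] [StarRing K] [DivisionRing D] [StarRing D]
  [Algebra K D] [FiniteDimensional K D] [Algebra.IsCentral K D] {n : ℕ}

/-- A family of rows which is definite at all places simultaneously. -/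
theorem exists_plane_of {ι : Type} [Fintype ι] (R : ι → RData K D n) (hd : Dense R) {m q : ℕ}
    {H : Matrix (Fin m) (Fin m) D} (hH : Hᴴ = H)
    (h1 : ∀ i, ∃ (ε : ℤˣ) (Y : Matrix (Fin q × Fin n) (Fin m × Fin n) ℂ),
      (((ε : ℤ) : ℂ) • (Y * (R i).Gam H * Yᴴ)).PosDef) :
    ∃ (ε : ι → ℤˣ) (u : Fin q → Fin m → D), ∀ i,
      ((((ε i : ℤˣ) : ℤ) : ℂ) • ((R i).Um u * (R i).Gam H * ((R i).Um u)ᴴ)).PosDef := by
  classical
  choose ε Y hY using h1
  have h2 : ∀ i, ∃ η : ℝ, 0 < η ∧ ∀ M : Matrix (Fin q × Fin n) (Fin q × Fin n) ℂ,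
      M.IsHermitian → (∀ a b, ‖M a b - ((((ε i : ℤˣ) : ℤ) : ℂ) •
        (Y i * (R i).Gam H * (Y i)ᴴ)) a b‖ < η) → M.PosDef := fun i => posDef_near (hY i)
  choose η hη hM using h2
  have h3 : ∀ i, ∃ δ : ℝ, 0 < δ ∧ ∀ U : Matrix (Fin q × Fin n) (Fin m × Fin n) ℂ,
      (∀ a b, ‖U a b - Y i a b‖ < δ) → ∀ a b, ‖(U * (R i).Gam H * Uᴴ) a b -
        (Y i * (R i).Gam H * (Y i)ᴴ) a b‖ < η i := fun i => near_conj _ _ (hη i)
  choose δ hδ hU using h3
  obtain ⟨δ0, hδ0, hδ0'⟩ : ∃ δ0 : ℝ, 0 < δ0 ∧ ∀ i, δ0 ≤ δ i := by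
    rcases isEmpty_or_nonempty ι with hι | hι
    · exact ⟨1, one_pos, fun i => (hι.false i).elim⟩
    · obtain ⟨i0, hi0⟩ := Finite.exists_min δ
      exact ⟨δ i0, hδ i0, hi0⟩
  have h4 : ∀ (c : Fin q) (a : Fin m), ∃ x : D, ∀ i p r,
      ‖(R i).f x p r - Y i (c, p) (a, r)‖ < δ0 := fun c a =>
    hd (fun i => Matrix.of fun p r => Y i (c, p) (a, r)) δ0 hδ0
  choose u hu' using h4
  refine ⟨ε, u, fun i => ?_⟩
  apply hM i
  · rw [Matrix.IsHermitian, Matrix.conjTranspose_smul, star_sign, Matrix.conjTranspose_mul,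
      Matrix.conjTranspose_mul, Matrix.conjTranspose_conjTranspose, ((R i).Gam_herm hH).eq,
      Matrix.mul_assoc]
  · intro a b
    rw [Matrix.smul_apply, Matrix.smul_apply, ← smul_sub, norm_smul]
    have e1 : ‖((((ε i : ℤˣ) : ℤ) : ℂ))‖ = 1 := by
      rcases Int.units_eq_one_or (ε i) with h | h <;> rw [h] <;> simp
    rw [e1, one_mul]
    apply hU i
    rintro ⟨c, p⟩ ⟨a', r⟩
    exact (hu' c a' i p r).trans_le (hδ0' i)

/-- Symmetric elements of a centraliser are dense. -/
theorem exists_sym_cent [CharZero D] (hdeg : finrank K D = n ^ 2) (hn : 0 < n) {ι : Type}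
    [Fintype ι] (R : ι → RData K D n) (hd : KDense R) {C : D} (hC : star C = C)
    (X : ι → Matrix (Fin n) (Fin n) ℂ) (hX : ∀ i, (X i * (R i).A)ᴴ = X i * (R i).A)
    (hXC : ∀ i, (R i).f C * X i = X i * (R i).f C) {ε : ℝ} (hε : 0 < ε) :
    ∃ y : D, star y = y ∧ C * y = y * C ∧ ∀ i a b, ‖((R i).f y - X i) a b‖ < ε := by
  classical
  have hAi : ∀ i, ∃ C : Matrix (Fin n) (Fin n) ℂ, (R i).A * C = 1 := by
    intro i
    obtain ⟨Q, hQ⟩ := (R i).unit
    exact ⟨((Q⁻¹ : (Matrix (Fin n) (Fin n) ℂ)ˣ) : Matrix _ _ ℂ), by rw [← hQ, Units.mul_inv]⟩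
  choose A' hA' using hAi
  choose γ hγ using fun i => (R i).centralizer hdeg hn (hXC i)
  -- a bound
  obtain ⟨M, hM0, hM⟩ : ∃ M : ℝ, 0 < M ∧ ∀ i a b c e, ‖(R i).A a b‖ * ‖A' i c e‖ ≤ M := by
    refine ⟨1 + (∑ i, ∑ a, ∑ b, ‖(R i).A a b‖) * (∑ i, ∑ a, ∑ b, ‖A' i a b‖), by positivity, ?_⟩
    intro i a b c e
    have key : ∀ (Z : ι → Matrix (Fin n) (Fin n) ℂ) i a b,
        ‖Z i a b‖ ≤ ∑ i, ∑ a, ∑ b, ‖Z i a b‖ := by
      intro Z i a b
      have h1 : ‖Z i a b‖ ≤ ∑ b, ‖Z i a b‖ :=
        Finset.single_le_sum (f := fun b => ‖Z i a b‖) (fun _ _ => norm_nonneg _)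
          (Finset.mem_univ b)
      have h2 : ∑ b, ‖Z i a b‖ ≤ ∑ a, ∑ b, ‖Z i a b‖ :=
        Finset.single_le_sum (f := fun a => ∑ b, ‖Z i a b‖)
          (fun _ _ => Finset.sum_nonneg fun _ _ => norm_nonneg _) (Finset.mem_univ a)
      have h3 : ∑ a, ∑ b, ‖Z i a b‖ ≤ ∑ i, ∑ a, ∑ b, ‖Z i a b‖ :=
        Finset.single_le_sum (f := fun i => ∑ a, ∑ b, ‖Z i a b‖)
          (fun _ _ => Finset.sum_nonneg fun _ _ => Finset.sum_nonneg fun _ _ => norm_nonneg _)
          (Finset.mem_univ i)
      linarith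
    have h1 := mul_le_mul (key (fun i => (R i).A) i a b) (key A' i c e) (norm_nonneg _)
      (Finset.sum_nonneg fun _ _ => Finset.sum_nonneg fun _ _ => Finset.sum_nonneg
        fun _ _ => norm_nonneg _)
    linarith
  have hδ : 0 < ε / (1 + n * n * M) := by positivity
  obtain ⟨k, hk⟩ := hd.sub (fun j => (finBasis K (cent K C) j : D)) γ hδ
  obtain ⟨x, hx0⟩ : ∃ x, x = ∑ j, k j • (finBasis K (cent K C) j : D) := ⟨_, rfl⟩
  have hxc : C * x = x * C := by
    apply mem_cent (K := K).mp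
    rw [hx0]
    exact Submodule.sum_mem _ fun j _ => Submodule.smul_mem _ _ (finBasis K (cent K C) j).2
  have hx : ∀ i a b, ‖(R i).f x a b - X i a b‖ < ε / (1 + n * n * M) := by
    intro i a b
    have := hk i a b
    rwa [← hγ, ← hx0] at this
  have hstar2 : star ((2 : D)⁻¹) = (2 : D)⁻¹ := by
    rw [star_inv₀]; congr 1
    have : (2 : D) = ((2 : ℕ) : D) := by norm_num
    rw [this, star_natCast]
  have hc2 : ∀ z : D, (2 : D)⁻¹ * z = z * (2 : D)⁻¹ := by
    intro z
    have hc : Commute ((2 : D)⁻¹) z := by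
      apply Commute.inv_left₀
      have : (2 : D) = ((2 : ℕ) : D) := by norm_num
      rw [this]
      exact Nat.cast_commute 2 _
    exact hc.eq
  refine ⟨(2 : D)⁻¹ * (x + star x), ?_, ?_, fun i a b => ?_⟩
  · rw [star_mul, star_add, star_star, add_comm (star x) x, hstar2, hc2]
  · have h1 : C * star x = star x * C := by
      have := congrArg star hxc
      rw [star_mul, star_mul, hC] at this
      exact this.symm
    rw [← mul_assoc, ← hc2 C, mul_assoc, mul_assoc]
    congr 1
    rw [mul_add, add_mul, hxc, h1]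
  · have hf2 : (R i).f ((2 : D)⁻¹) = ((1 / 2 : ℂ)) • (1 : Matrix (Fin n) (Fin n) ℂ) := by
      have h1 : (R i).f ((2 : D)⁻¹) * (R i).f 2 = 1 := by
        rw [← map_mul, inv_mul_cancel₀ (two_ne_zero), map_one]
      have h2 : (R i).f 2 = (2 : ℂ) • (1 : Matrix (Fin n) (Fin n) ℂ) := by
        have : (2 : D) = 1 + 1 := by norm_num
        rw [this, map_add, map_one, two_smul]
      rw [h2, mul_smul_comm, mul_one] at h1
      rw [← h1, smul_smul]; norm_num
    have h1 : (R i).f (star x) = (R i).A * ((R i).f x)ᴴ * A' i := by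
      rw [← (R i).star_f, mul_assoc, hA', mul_one]
    have h2 : X i = (R i).A * (X i)ᴴ * A' i := by
      have h3 := hX i
      rw [Matrix.conjTranspose_mul, (R i).hA] at h3
      rw [h3, mul_assoc, hA', mul_one]
    have h4 : (R i).f ((2 : D)⁻¹ * (x + star x)) - X i =
        (1 / 2 : ℂ) • (((R i).f x - X i) + (R i).A * ((R i).f x - X i)ᴴ * A' i) := by
      rw [map_mul, hf2, map_add, h1, smul_mul_assoc, one_mul, Matrix.conjTranspose_sub, mul_sub,
        sub_mul, ← h2]
      have h5 : X i = (1 / 2 : ℂ) • (X i + X i) := by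
        rw [← two_smul ℂ, smul_smul]; norm_num
      conv_lhs => rw [h5]
      rw [← smul_sub]
      congr 1
      abel
    rw [h4, Matrix.smul_apply, Matrix.add_apply, smul_eq_mul, norm_mul]
    have h7 : ‖((R i).f x - X i) a b‖ < ε / (1 + n * n * M) := by
      rw [Matrix.sub_apply]; exact hx i a b
    have h8 : ‖((R i).A * ((R i).f x - X i)ᴴ * A' i) a b‖ ≤
        n * n * M * (ε / (1 + n * n * M)) := by
      rw [Matrix.mul_apply]
      have h9 : ∀ c, ‖((R i).A * ((R i).f x - X i)ᴴ) a c * A' i c b‖ ≤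
          n * (M * (ε / (1 + n * n * M))) := by
        intro c
        rw [Matrix.mul_apply, Finset.sum_mul]
        refine (norm_sum_le _ _).trans ?_
        have h10 : ∀ e ∈ (Finset.univ : Finset (Fin n)),
            ‖(R i).A a e * ((R i).f x - X i)ᴴ e c * A' i c b‖ ≤ M * (ε / (1 + n * n * M)) := by
          intro e _
          rw [norm_mul, norm_mul, Matrix.conjTranspose_apply, norm_star, Matrix.sub_apply]
          calc ‖(R i).A a e‖ * ‖(R i).f x c e - X i c e‖ * ‖A' i c b‖
              = (‖(R i).A a e‖ * ‖A' i c b‖) * ‖(R i).f x c e - X i c e‖ := by ring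
            _ ≤ M * (ε / (1 + n * n * M)) :=
                mul_le_mul (hM i a e c b) (hx i c e).le (norm_nonneg _) hM0.le
        refine (Finset.sum_le_sum h10).trans ?_
        rw [Finset.sum_const, Finset.card_univ, Fintype.card_fin, nsmul_eq_mul]
      refine (norm_sum_le _ _).trans ?_
      refine (Finset.sum_le_sum fun c _ => h9 c).trans ?_
      rw [Finset.sum_const, Finset.card_univ, Fintype.card_fin, nsmul_eq_mul]
      apply le_of_eq
      ring
    have h11 : ε / (1 + n * n * M) + n * n * M * (ε / (1 + n * n * M)) = ε := by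
      have : (1 + n * n * M) ≠ 0 := by positivity
      field_simp
    have h12 := norm_add_le (((R i).f x - X i) a b) (((R i).A * ((R i).f x - X i)ᴴ * A' i) a b)
    have h13 : ‖(1 / 2 : ℂ)‖ = 1 / 2 := by norm_num
    rw [h13]
    linarith

end

section

variable {K D : Type} [Field K] [NumberField K] [StarRing K] [DivisionRing D] [StarRing D]
  [Algebra K D] [StarModule K D] [FiniteDimensional K D] [Algebra.IsCentral K D] {n : ℕ}

/-- The sign of an element close to `X` on an eigenvector of `X`. -/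
theorem sign_of_near {N : ℕ} {F X : Matrix (Fin N) (Fin N) ℂ} {ε : ℝ}
    (hε : N * ε < 1) (h : ∀ a b, ‖(F - X) a b‖ < ε) {v : Fin N → ℂ} (hv : v ≠ 0) {z : ℂ}
    (hF : F *ᵥ v = z • v) (hX : X *ᵥ v = v) : 0 < z.re := by
  obtain ⟨a0, ha0⟩ := Function.ne_iff.mp hv
  have hne : Nonempty (Fin N) := ⟨a0⟩
  obtain ⟨a, ha⟩ := Finite.exists_max fun a => ‖v a‖
  have hva : 0 < ‖v a‖ := lt_of_lt_of_le (norm_pos_iff.mpr ha0) (ha a0)
  have h1 : (z - 1) * v a = ∑ k, (F - X) a k * v k := by
    have h2 : (F - X) *ᵥ v = (z - 1) • v := by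
      rw [Matrix.sub_mulVec, hF, hX, sub_smul, one_smul]
    have h3 := congrFun h2 a
    rw [Pi.smul_apply, smul_eq_mul] at h3
    rw [← h3]
    rfl
  have h2 : ‖z - 1‖ * ‖v a‖ ≤ N * ε * ‖v a‖ := by
    rw [← norm_mul, h1]
    refine (norm_sum_le _ _).trans ?_
    have h3 : ∀ k ∈ Finset.univ, ‖(F - X) a k * v k‖ ≤ ε * ‖v a‖ := by
      intro k _
      rw [norm_mul]
      exact mul_le_mul (h a k).le (ha k) (norm_nonneg _) ((norm_nonneg _).trans (h a k).le)
    refine (Finset.sum_le_sum h3).trans ?_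
    rw [Finset.sum_const, Finset.card_univ, Fintype.card_fin, nsmul_eq_mul, mul_assoc]
  have h3 : ‖z - 1‖ < 1 := lt_of_le_of_lt (le_of_mul_le_mul_right h2 hva) hε
  have h4 := Complex.abs_re_le_norm (z - 1)
  rw [Complex.sub_re, Complex.one_re] at h4
  have h5 := abs_lt.mp (lt_of_le_of_lt h4 h3)
  linarith [h5.1]

theorem third_core (hn : 0 < n) (hdeg : finrank K D = n ^ 2) {ι : Type} [Fintype ι]
    [hne : Nonempty ι] (R : ι → RData K D n) (hc : Complete R) (hd : KDense R) (hA : ∀ i, (R i).A.PosDef)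
    (hadj : HasAdj K D n) {C c : D} (hC : star C = C) (hcs : star c = c) (hc0 : c ≠ 0)
    (hcnt : ∀ i (lam : Fin n → ℝ) (V S : Matrix (Fin n) (Fin n) ℂ) (η : Fin n → ℤˣ), IsUnit V →
      (R i).A = V * Vᴴ → (R i).f C * V = V * Matrix.diagonal (fun j => (lam j : ℂ)) →
      IsUnit S → S * ((R i).f c * (R i).A) * Sᴴ =
        Matrix.diagonal (fun j => ((((η j : ℤˣ) : ℤ) : ℝ) : ℂ)) →
      Fintype.card {j // 1 < lam j} ≤ Fintype.card {j // η j = 1}) :
    ∃ t : D, t ≠ 0 ∧ C * (t * c * star t) = (t * c * star t) * C ∧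
      SignOK K C (t * c * star t) := by
  classical
  have hchar : CharZero D := charZero_of_injective_algebraMap (algebraMap K D).injective
  have h1 := fun i => spectral_pair (hA i) (M := (R i).f C) ((R i).isHermitian hC)
  choose V lam hV hVA hVC using h1
  have h2 := fun i => exists_sign_diag ((R i).isHermitian hcs) ((R i).f_unit hc0 |>.mul (R i).unit)
  choose S η hS hSc using h2
  have h3 := fun i => exists_signs (fun j => 1 < lam i j) (η i)
    (hcnt i (lam i) (V i) (S i) (η i) (hV i) (hVA i) (hVC i) (hS i) (hSc i))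
  choose σ hσ using h3
  have inv : ∀ Z : Matrix (Fin n) (Fin n) ℂ, IsUnit Z →
      ∃ Y : Matrix (Fin n) (Fin n) ℂ, Y * Z = 1 ∧ Z * Y = 1 := by
    rintro Z ⟨U, rfl⟩
    exact ⟨_, U.inv_mul, U.mul_inv⟩
  choose W hWV hVW using fun i => inv (V i) (hV i)
  choose T hTS hST using fun i => inv (S i) (hS i)
  let J : ι → Matrix (Fin n) (Fin n) ℂ := fun i =>
    Matrix.diagonal (fun j => ((((η i (σ i j) : ℤˣ) : ℤ) : ℝ) : ℂ))
  let X : ι → Matrix (Fin n) (Fin n) ℂ := fun i => V i * J i * W i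
  have hJ : ∀ i, (J i)ᴴ = J i := by
    intro i
    rw [Matrix.diagonal_conjTranspose]
    congr 1
    funext j
    exact Complex.conj_ofReal _
  have hJJ : ∀ i, J i * J i = 1 := by
    intro i
    rw [Matrix.diagonal_mul_diagonal, ← Matrix.diagonal_one]
    congr 1
    funext j
    rcases Int.units_eq_one_or (η i (σ i j)) with h | h <;> rw [h] <;> norm_num
  have hXA : ∀ i, X i * (R i).A = V i * J i * (V i)ᴴ := by
    intro i
    rw [hVA i]
    calc V i * J i * W i * (V i * (V i)ᴴ) = V i * J i * (W i * V i) * (V i)ᴴ := by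
          simp only [mul_assoc]
      _ = _ := by rw [hWV, mul_one]
  have hXAh : ∀ i, (X i * (R i).A)ᴴ = X i * (R i).A := by
    intro i
    rw [hXA, Matrix.conjTranspose_mul, Matrix.conjTranspose_mul,
      Matrix.conjTranspose_conjTranspose, hJ]
    simp only [mul_assoc]
  have hfC : ∀ i, (R i).f C = V i * Matrix.diagonal (fun j => (lam i j : ℂ)) * W i := by
    intro i
    rw [← hVC, mul_assoc, hVW, mul_one]
  have hXC : ∀ i, (R i).f C * X i = X i * (R i).f C := by
    intro i
    rw [hfC]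
    calc V i * Matrix.diagonal (fun j => (lam i j : ℂ)) * W i * (V i * J i * W i)
        = V i * (Matrix.diagonal (fun j => (lam i j : ℂ)) * (W i * V i) * J i) * W i := by
          simp only [mul_assoc]
      _ = V i * (J i * (W i * V i) * Matrix.diagonal (fun j => (lam i j : ℂ))) * W i := by
          rw [hWV, mul_one, mul_one, Matrix.diagonal_mul_diagonal, Matrix.diagonal_mul_diagonal]
          simp only [mul_comm]
      _ = _ := by simp only [X, mul_assoc]
  have hXAu : ∀ i, IsUnit (X i * (R i).A) := by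
    intro i
    refine IsUnit.mul ?_ (R i).unit
    refine ⟨⟨X i, X i, ?_, ?_⟩, rfl⟩ <;>
    · calc V i * J i * W i * (V i * J i * W i) = V i * (J i * (W i * V i) * J i) * W i := by
            simp only [mul_assoc]
        _ = 1 := by rw [hWV, mul_one, hJJ, mul_one, hVW]
  choose θ hθ hθM using fun i => herm_near (G := X i * (R i).A) (hXAh i) (hXAu i)
  obtain ⟨M, hM0, hM⟩ : ∃ M : ℝ, 0 < M ∧ ∀ i a b, ‖(R i).A a b‖ ≤ M := by
    refine ⟨1 + ∑ i, ∑ a, ∑ b, ‖(R i).A a b‖, by positivity, fun i a b => ?_⟩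
    have h1 : ‖(R i).A a b‖ ≤ ∑ b, ‖(R i).A a b‖ :=
      Finset.single_le_sum (f := fun b => ‖(R i).A a b‖) (fun _ _ => norm_nonneg _)
        (Finset.mem_univ b)
    have h2 : ∑ b, ‖(R i).A a b‖ ≤ ∑ a, ∑ b, ‖(R i).A a b‖ :=
      Finset.single_le_sum (f := fun a => ∑ b, ‖(R i).A a b‖)
        (fun _ _ => Finset.sum_nonneg fun _ _ => norm_nonneg _) (Finset.mem_univ a)
    have h3 : ∑ a, ∑ b, ‖(R i).A a b‖ ≤ ∑ i, ∑ a, ∑ b, ‖(R i).A a b‖ :=
      Finset.single_le_sum (f := fun i => ∑ a, ∑ b, ‖(R i).A a b‖)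
        (fun _ _ => Finset.sum_nonneg fun _ _ => Finset.sum_nonneg fun _ _ => norm_nonneg _)
        (Finset.mem_univ i)
    linarith
  obtain ⟨θ0, hθ0, hθ0'⟩ : ∃ θ0 : ℝ, 0 < θ0 ∧ ∀ i, θ0 ≤ θ i := by
    rcases isEmpty_or_nonempty ι with hι | hι
    · exact ⟨1, one_pos, fun i => (hι.false i).elim⟩
    · obtain ⟨i0, hi0⟩ := Finite.exists_min θ
      exact ⟨θ i0, hθ i0, hi0⟩
  obtain ⟨ε, hε, hε1, hε2⟩ : ∃ ε : ℝ, 0 < ε ∧ n * ε < 1 ∧ n * (ε * M) < θ0 := by
    refine ⟨min (1 / ((n : ℝ) + 1)) (θ0 / (((n : ℝ) + 1) * M)), by positivity, ?_, ?_⟩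
    · calc (n : ℝ) * min (1 / ((n : ℝ) + 1)) (θ0 / (((n : ℝ) + 1) * M)) ≤
            (n : ℝ) * (1 / ((n : ℝ) + 1)) :=
          mul_le_mul_of_nonneg_left (min_le_left _ _) (by positivity)
        _ < 1 := by
          rw [mul_one_div, div_lt_one (by positivity)]; linarith
    · calc (n : ℝ) * (min (1 / ((n : ℝ) + 1)) (θ0 / (((n : ℝ) + 1) * M)) * M) ≤
            (n : ℝ) * (θ0 / (((n : ℝ) + 1) * M) * M) := by
            apply mul_le_mul_of_nonneg_left _ (by positivity)
            exact mul_le_mul_of_nonneg_right (min_le_right _ _) hM0.le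
        _ = θ0 * ((n : ℝ) / ((n : ℝ) + 1)) := by field_simp
        _ < θ0 * 1 := by
          apply mul_lt_mul_of_pos_left _ hθ0
          rw [div_lt_one (by positivity)]; linarith
        _ = θ0 := mul_one _
  obtain ⟨e, hes, heC, heX⟩ := exists_sym_cent hdeg hn R hd hC X hXAh hXC hε
  have hcong : ∀ i, (R i).CongAt c e := by
    intro i
    obtain ⟨Q, hQ, hQe⟩ := hθM i ((R i).f e * (R i).A - X i * (R i).A) (by
      rw [Matrix.IsHermitian, Matrix.conjTranspose_sub, hXAh, ((R i).isHermitian hes).eq]) (by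
      intro a b
      rw [← sub_mul, Matrix.mul_apply]
      refine (norm_sum_le _ _).trans_lt ?_
      have h3 : ∀ k ∈ Finset.univ, ‖((R i).f e - X i) a k * (R i).A k b‖ ≤ ε * M := by
        intro k _
        rw [norm_mul]
        exact mul_le_mul (heX i a k).le (hM i k b) (norm_nonneg _) hε.le
      refine (Finset.sum_le_sum h3).trans_lt ?_
      rw [Finset.sum_const, Finset.card_univ, Fintype.card_fin, nsmul_eq_mul]
      exact lt_of_lt_of_le hε2 (hθ0' i))
    rw [add_sub_cancel] at hQe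
    let S' := (S i).submatrix (σ i) (Equiv.refl (Fin n))
    have hS' : IsUnit S' := by
      refine ⟨⟨S', (T i).submatrix (Equiv.refl (Fin n)) (σ i), ?_, ?_⟩, rfl⟩
      · rw [Matrix.submatrix_mul_equiv, hST, Matrix.submatrix_one_equiv]
      · rw [Matrix.submatrix_mul_equiv, hTS, Matrix.submatrix_one_equiv]
    have hS'c : S' * ((R i).f c * (R i).A) * S'ᴴ = J i := by
      have e1 : (R i).f c * (R i).A = ((R i).f c * (R i).A).submatrix (Equiv.refl (Fin n))
        (Equiv.refl (Fin n)) := rfl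
      rw [Matrix.conjTranspose_submatrix, e1, Matrix.submatrix_mul_equiv,
        Matrix.submatrix_mul_equiv, hSc, Matrix.submatrix_diagonal_equiv]
      rfl
    refine ⟨Q * (V i * S'), hQ.mul ((hV i).mul hS'), ?_⟩
    rw [← hQe, hXA, ← hS'c]
    simp only [Matrix.conjTranspose_mul, mul_assoc]
  have hall := of_family hn hdeg hc hcong
  obtain ⟨i0⟩ := hne
  have he0 : e ≠ 0 := by
    rintro rfl
    obtain ⟨Q, hQ, hQe⟩ := hcong i0
    rw [map_zero, zero_mul] at hQe
    have h4 := (hQ.mul (((R i0).f_unit hc0).mul (R i0).unit)).mul hQ.star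
    rw [Matrix.star_eq_conjTranspose, hQe] at h4
    have hnn : Nonempty (Fin n) := ⟨⟨0, hn⟩⟩
    exact h4.ne_zero rfl
  obtain ⟨μ, t, hμs, hμ, ht0, hte⟩ := hadj c e hcs hes hc0 he0 hall
  refine ⟨t, ht0, ?_, ?_⟩
  · rw [← hte, ← mul_assoc, ← Algebra.commutes μ C, mul_assoc, heC]
    simp only [mul_assoc]
  · rw [← hte]
    intro L _ _ _ _ _ j hj hKL c' f' hc' hf' τ hτ hneg
    have key : ∀ (i : ι) (τ : L →+* ℂ), (∀ k, τ (algebraMap K L k) = (R i).s k) →
        (τ c').im = 0 → 1 < (τ c').re → 0 < (τ f').re := by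
      intro i τ hτk hre him
      obtain ⟨v, hv0, hv⟩ := (R i).exists_eigen hn j τ hτk
      have hμ0 : 0 < ((R i).s μ).re := hμ _ (R i).hs
      have hμ1 : ((R i).s μ).im = 0 := by
        have h5 := (R i).hs μ
        rw [hμs, Complex.star_def] at h5
        exact Complex.conj_eq_iff_im.mp h5.symm
      have hμK : μ ≠ 0 := by
        rintro rfl
        rw [map_zero, Complex.zero_re] at hμ0
        exact lt_irrefl _ hμ0
      obtain ⟨e', he'⟩ : ∃ e' : L, e' = (algebraMap K L μ)⁻¹ * f' := ⟨_, rfl⟩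
      have hμL : algebraMap K L μ ≠ 0 := (map_ne_zero _).mpr hμK
      have hμD : algebraMap K D μ ≠ 0 := (map_ne_zero _).mpr hμK
      have hje : j e' = e := by
        rw [he', map_mul, map_inv₀, AlgHom.commutes, hf', inv_mul_cancel_left₀ hμD]
      have hfe : f' = algebraMap K L μ * e' := by
        rw [he', mul_inv_cancel_left₀ hμL]
      -- the eigenvector
      have hvC := hv c'
      rw [hc'] at hvC
      have hXv : X i *ᵥ v = v := by
        have h5 : Matrix.diagonal (fun j => (lam i j : ℂ)) *ᵥ (W i *ᵥ v) =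
            τ c' • (W i *ᵥ v) := by
          rw [← Matrix.mulVec_smul, ← hvC, hfC i, Matrix.mulVec_mulVec, Matrix.mulVec_mulVec]
          congr 1
          calc Matrix.diagonal (fun j => (lam i j : ℂ)) * W i =
              (W i * V i) * Matrix.diagonal (fun j => (lam i j : ℂ)) * W i := by
                rw [hWV, one_mul]
            _ = _ := by simp only [mul_assoc]
        have h6 : J i *ᵥ (W i *ᵥ v) = W i *ᵥ v := by
          funext a
          rw [Matrix.mulVec_diagonal]
          by_cases h7 : (W i *ᵥ v) a = 0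
          · rw [h7, mul_zero]
          · have h8 := congrFun h5 a
            rw [Matrix.mulVec_diagonal, Pi.smul_apply, smul_eq_mul] at h8
            have h9 := mul_right_cancel₀ h7 h8
            have h10 : 1 < lam i a := by
              rw [← h9, Complex.ofReal_re] at him
              exact him
            rw [hσ i a h10]
            norm_num
        change (V i * J i * W i) *ᵥ v = v
        rw [← Matrix.mulVec_mulVec, ← Matrix.mulVec_mulVec, h6, Matrix.mulVec_mulVec, hVW,
          Matrix.one_mulVec]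
      have hve := hv e'
      rw [hje] at hve
      have hpos := sign_of_near hε1 (heX i) hv0 hve hXv
      rw [hfe, map_mul, hτk, Complex.mul_re, hμ1, zero_mul, sub_zero]
      exact mul_pos hμ0 hpos
    have hc's : star c' = c' := by
      apply j.toRingHom.injective
      change j (star c') = j c'
      rw [hj, hc', hC]
    have him : (τ c').im = 0 := Vale.Agent.P011.Tri.RT.im_eq_zero hτ hc's
    have hre : 1 < (τ c').re := by
      rw [map_sub, map_one, Complex.sub_re, Complex.one_re] at hneg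
      linarith
    obtain ⟨i, hi | hi⟩ := hc (τ.comp (algebraMap K L)) (by
      intro z
      rw [RingHom.comp_apply, RingHom.comp_apply, hKL, hτ, Complex.star_def])
    · exact key i τ (fun k => by rw [hi]; rfl) him hre
    · have h5 := key i ((starRingEnd ℂ).comp τ) (fun k => by rw [hi]; rfl)
        (by rw [RingHom.comp_apply, Complex.conj_im, him, neg_zero])
        (by rw [RingHom.comp_apply, Complex.conj_re]; exact hre)
      rwa [RingHom.comp_apply, Complex.conj_re] at h5

end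

section count

variable {K D : Type} [Field K] [StarRing K] [DivisionRing D] [StarRing D]
  [Algebra K D] {n : ℕ}

theorem rowH_sub {m : ℕ} (H : Matrix (Fin m) (Fin m) D) (hH : Hᴴ = H) (x y z : Fin m → D) (d : D) :
    rowH H (x - d • y) z = rowH H x z - d * rowH H y z := by
  have h1 := (rowF H hH).sub_left x (d • y) z
  have h2 := (rowF H hH).smul_left d y z
  rw [h2] at h1
  exact h1

theorem rowH_star {m : ℕ} (H : Matrix (Fin m) (Fin m) D) (hH : Hᴴ = H) (x y : Fin m → D) :
    star (rowH H x y) = rowH H y x := (rowF H hH).star_h x y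

/-- Counting negative directions. -/
theorem count_third (R : RData K D n) {H : Matrix (Fin 3) (Fin 3) D}
    (hH : Vale.Agent.P011S.IsAnisotropicForm H) (u : Fin 2 → Fin 3 → D)
    (hu : (R.Um u * R.Gam H * (R.Um u)ᴴ).PosDef) {a : D} (ha0 : a ≠ 0)
    {x x' w : Fin 3 → D} (hx : rowH H x x = a) (hx' : rowH H x' x' = a)
    (hw0 : w ≠ 0) (hxw : rowH H x w = 0) (hx'w : rowH H x' w = 0) {C c : D}
    (hC : C = rowH H x x' * a⁻¹ * rowH H x' x * a⁻¹) (hC1 : C ≠ 1)
    (hc : c = rowH H w w * a⁻¹) {lam : Fin n → ℝ} {V S : Matrix (Fin n) (Fin n) ℂ}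
    {η : Fin n → ℤˣ} (hV : IsUnit V) (hVA : R.f a * R.A = V * Vᴴ)
    (hVC : R.f C * V = V * Matrix.diagonal (fun j => (lam j : ℂ))) (hS : IsUnit S)
    (hSc : S * (R.f c * (R.f a * R.A)) * Sᴴ =
      Matrix.diagonal (fun j => ((((η j : ℤˣ) : ℤ) : ℝ) : ℂ))) :
    Fintype.card {j // 1 < lam j} ≤ Fintype.card {j // η j = 1} := by
  classical
  have hHh := hH.1
  have hanis : ∀ v : Fin 3 → D, rowH H v v = 0 → v = 0 := by
    intro v hv
    have h1 := hH.2 (star v) (by rw [col_row, star_star, hv])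
    rw [← star_star v, h1, star_zero]
  have ha : star a = a := by rw [← hx]; exact rowH_star H hHh x x
  obtain ⟨ζ, hζ⟩ : ∃ ζ, ζ = rowH H x x' * a⁻¹ := ⟨_, rfl⟩
  obtain ⟨y0, hy0⟩ : ∃ y0, y0 = x - ζ • x' := ⟨_, rfl⟩
  have s1 : rowH H y0 x' = 0 := by
    rw [hy0, rowH_sub H hHh, hx', hζ, mul_assoc, inv_mul_cancel₀ ha0, mul_one, sub_self]
  have s1' : rowH H x' y0 = 0 := by rw [← rowH_star H hHh, s1, star_zero]
  have s2 : rowH H y0 w = 0 := by
    rw [hy0, rowH_sub H hHh, hxw, hx'w, mul_zero, sub_zero]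
  have s2' : rowH H w y0 = 0 := by rw [← rowH_star H hHh, s2, star_zero]
  have s3 : rowH H w x' = 0 := by rw [← rowH_star H hHh, hx'w, star_zero]
  have s4 : rowH H y0 y0 = (1 - C) * a := by
    have e1 : rowH H y0 y0 = rowH H x y0 - ζ * rowH H x' y0 := by
      conv_lhs => rw [hy0]
      rw [rowH_sub H hHh, ← hy0]
    rw [e1, s1', mul_zero, sub_zero, ← rowH_star H hHh, hy0, rowH_sub H hHh, hx, star_sub,
      star_mul, rowH_star H hHh, ha, hζ, star_mul, star_inv₀, ha, rowH_star H hHh, hC, sub_mul,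
      one_mul]
    congr 1
    rw [mul_assoc _ a⁻¹ a, inv_mul_cancel₀ ha0, mul_one, mul_assoc]
  have hww : rowH H w w = c * a := by rw [hc, mul_assoc, inv_mul_cancel₀ ha0, mul_one]
  let y : Fin 3 → Fin 3 → D := ![y0, x', w]
  let g : Fin 3 → D := ![(1 - C) * a, a, c * a]
  have hyg : ∀ k l, rowH H (y k) (y l) = if k = l then g k else 0 := by
    intro k l
    fin_cases k <;> fin_cases l
    · exact s4
    · exact s1
    · exact s2
    · exact s1'
    · exact hx'
    · exact hx'w
    · exact s2'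
    · exact s3
    · exact hww
  have hg0 : ∀ k, g k ≠ 0 := by
    intro k
    fin_cases k
    · exact mul_ne_zero (sub_ne_zero.mpr (Ne.symm hC1)) ha0
    · exact ha0
    · change c * a ≠ 0
      rw [← hww]
      exact fun h => hw0 (hanis w h)
  have hli : LinearIndependent D y := by
    rw [Fintype.linearIndependent_iff]
    intro β hβ l
    have h1 : rowH H (∑ k, β k • y k) (y l) = β l * g l := by
      have h2 := (rowF H hHh).sum_left Finset.univ (fun k => β k • y k) (y l)
      change rowH H (∑ k, β k • y k) (y l) = _ at h2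
      rw [h2, Finset.sum_eq_single l]
      · change (rowF H hHh).h (β l • y l) (y l) = _
        rw [(rowF H hHh).smul_left]
        change β l * rowH H (y l) (y l) = _
        rw [hyg, if_pos rfl]
      · intro k _ hk
        rw [(rowF H hHh).smul_left]
        change β k * rowH H (y k) (y l) = _
        rw [hyg, if_neg hk, mul_zero]
      · intro h; exact absurd (Finset.mem_univ l) h
    rw [hβ] at h1
    have h3 : rowH H 0 (y l) = 0 := (rowF H hHh).zero_left (y l)
    rw [h3] at h1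
    exact (mul_eq_zero.mp h1.symm).resolve_right (hg0 l)
  let b : Basis (Fin 3) D (Fin 3 → D) := basisOfLinearIndependentOfCardEqFinrank hli (by simp)
  have hb : ∀ k, b k = y k := fun k => by simp [b]
  -- block matrices
  let X : Matrix (Fin 2) (Fin 3) (Matrix (Fin n) (Fin n) ℂ) :=
    Matrix.of fun p k => R.f (b.repr (u p) k)
  let Yb : Matrix (Fin 3) (Fin 3) (Matrix (Fin n) (Fin n) ℂ) := Matrix.of fun k l => R.f (y k l)
  have hUm : R.Um u = cm X * R.Um y := by
    have h1 : R.Um y = cm Yb := rfl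
    have h2 : R.Um u = cm (Matrix.of fun p l => R.f (u p l)) := rfl
    rw [h1, h2, ← cm_mul]
    congr 1
    refine Matrix.ext fun p l => ?_
    rw [Matrix.of_apply, Matrix.mul_apply]
    have h3 : u p l = ∑ k, b.repr (u p) k * y k l := by
      have h4 := congrFun (b.sum_repr (u p)) l
      rw [← h4, Finset.sum_apply]
      exact Finset.sum_congr rfl fun k _ => by rw [Pi.smul_apply, smul_eq_mul, hb]
    rw [h3, map_sum]
    exact Finset.sum_congr rfl fun k _ => by rw [map_mul]; rfl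
  obtain ⟨W, hWV, hVW⟩ : ∃ W : Matrix (Fin n) (Fin n) ℂ, W * V = 1 ∧ V * W = 1 := by
    obtain ⟨U, rfl⟩ := hV
    exact ⟨_, U.inv_mul, U.mul_inv⟩
  obtain ⟨T', hTS, hST⟩ : ∃ W : Matrix (Fin n) (Fin n) ℂ, W * S = 1 ∧ S * W = 1 := by
    obtain ⟨U, rfl⟩ := hS
    exact ⟨_, U.inv_mul, U.mul_inv⟩
  have hVWh : Vᴴ * Wᴴ = 1 := by rw [← Matrix.conjTranspose_mul, hWV, Matrix.conjTranspose_one]
  let Tk : Fin 3 → Matrix (Fin n) (Fin n) ℂ := ![W, W, S]
  let Ti : Fin 3 → Matrix (Fin n) (Fin n) ℂ := ![V, V, T']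
  let dk : Fin 3 → Fin n → ℝ := ![fun j => 1 - lam j, fun _ => 1, fun j => (((η j : ℤˣ) : ℤ) : ℝ)]
  have hcm1 : cm (1 : Matrix (Fin 3) (Fin 3) (Matrix (Fin n) (Fin n) ℂ)) = 1 := by
    ext ⟨k, p⟩ ⟨l, q⟩
    change (1 : Matrix (Fin 3) (Fin 3) (Matrix (Fin n) (Fin n) ℂ)) k l p q = _
    rw [Matrix.one_apply, Matrix.one_apply]
    by_cases hkl : k = l
    · subst hkl
      rw [if_pos rfl, Matrix.one_apply]
      by_cases hpq : p = q
      · subst hpq; simp
      · rw [if_neg hpq, if_neg (fun h => hpq (congrArg Prod.snd h))]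
    · rw [if_neg hkl, if_neg (fun h => hkl (congrArg Prod.fst h))]
      rfl
  have hTT : ∀ k, Tk k * Ti k = 1 ∧ Ti k * Tk k = 1 := by
    intro k
    fin_cases k
    · exact ⟨hWV, hVW⟩
    · exact ⟨hWV, hVW⟩
    · exact ⟨hST, hTS⟩
  have hTu : IsUnit (cm (Matrix.diagonal Tk)) := by
    refine ⟨⟨cm (Matrix.diagonal Tk), cm (Matrix.diagonal Ti), ?_, ?_⟩, rfl⟩
    · rw [← cm_mul, Matrix.diagonal_mul_diagonal, ← hcm1, ← Matrix.diagonal_one]
      congr 2
      funext k
      exact (hTT k).1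
    · rw [← cm_mul, Matrix.diagonal_mul_diagonal, ← hcm1, ← Matrix.diagonal_one]
      congr 2
      funext k
      exact (hTT k).2
  have hG : R.Um y * R.Gam H * (R.Um y)ᴴ = cm (Matrix.diagonal fun k => R.f (g k) * R.A) := by
    ext ⟨k, p⟩ ⟨l, q⟩
    rw [R.Um_gram]
    change (R.f (rowH H (y k) (y l)) * R.A) p q =
      (Matrix.diagonal fun k => R.f (g k) * R.A) k l p q
    rw [hyg, Matrix.diagonal_apply]
    split_ifs
    · rfl
    · rw [map_zero, zero_mul]
  have hdk : ∀ k, Tk k * (R.f (g k) * R.A) * (Tk k)ᴴ =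
      Matrix.diagonal fun j => (dk k j : ℂ) := by
    intro k
    fin_cases k
    · change W * (R.f ((1 - C) * a) * R.A) * Wᴴ = Matrix.diagonal fun j => ((1 - lam j : ℝ) : ℂ)
      rw [map_mul, map_sub, map_one, mul_assoc (1 - R.f C), hVA]
      calc W * ((1 - R.f C) * (V * Vᴴ)) * Wᴴ = (W * V - W * (R.f C * V)) * (Vᴴ * Wᴴ) := by
            noncomm_ring
        _ = 1 - (W * V) * Matrix.diagonal (fun j => (lam j : ℂ)) := by
            rw [hVWh, mul_one, hVC, ← mul_assoc, hWV]
        _ = _ := by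
            rw [hWV, one_mul, ← Matrix.diagonal_one, Matrix.diagonal_sub]
            congr 1
            funext j
            push_cast
            rfl
    · change W * (R.f a * R.A) * Wᴴ = Matrix.diagonal fun j => ((1 : ℝ) : ℂ)
      rw [hVA]
      calc W * (V * Vᴴ) * Wᴴ = (W * V) * (Vᴴ * Wᴴ) := by simp only [mul_assoc]
        _ = 1 := by rw [hWV, hVWh, mul_one]
        _ = _ := by rw [← Matrix.diagonal_one]; simp
    · change S * (R.f (c * a) * R.A) * Sᴴ = _
      rw [map_mul, mul_assoc (R.f c), hSc]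
      rfl
  have hTG : cm (Matrix.diagonal Tk) * (R.Um y * R.Gam H * (R.Um y)ᴴ) *
      (cm (Matrix.diagonal Tk))ᴴ = Matrix.diagonal fun x : Fin 3 × Fin n => (dk x.1 x.2 : ℂ) := by
    rw [hG, cm_conj, ← cm_mul, ← cm_mul]
    have h1 : (Matrix.diagonal Tk)ᴴ = Matrix.diagonal fun k => (Tk k)ᴴ :=
      Matrix.diagonal_conjTranspose _
    rw [h1, Matrix.diagonal_mul_diagonal, Matrix.diagonal_mul_diagonal]
    ext ⟨k, p⟩ ⟨l, q⟩
    change (Matrix.diagonal fun k => Tk k * (R.f (g k) * R.A) * (Tk k)ᴴ) k l p q = _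
    rw [Matrix.diagonal_apply, Matrix.diagonal_apply]
    by_cases hkl : k = l
    · subst hkl
      rw [if_pos rfl, hdk, Matrix.diagonal_apply]
      by_cases hpq : p = q
      · subst hpq; simp
      · rw [if_neg hpq, if_neg (fun h => hpq (congrArg Prod.snd h))]
    · rw [if_neg hkl, if_neg (fun h => hkl (congrArg Prod.fst h))]
      rfl
  have hu' : (cm X * (R.Um y * R.Gam H * (R.Um y)ᴴ) * (cm X)ᴴ).PosDef := by
    have h1 : cm X * (R.Um y * R.Gam H * (R.Um y)ᴴ) * (cm X)ᴴ =
        R.Um u * R.Gam H * (R.Um u)ᴴ := by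
      rw [hUm, Matrix.conjTranspose_mul]
      simp only [Matrix.mul_assoc]
    rw [h1]; exact hu
  have hcount := count_le hTu hTG hu'
  rw [Fintype.card_prod, Fintype.card_prod, Fintype.card_fin, Fintype.card_fin,
    Fintype.card_fin] at hcount
  -- the negative directions
  have h1 : Fintype.card {j // 1 < lam j} + Fintype.card {j // ¬ η j = 1} ≤
      Fintype.card {x : Fin 3 × Fin n // dk x.1 x.2 ≤ 0} := by
    rw [← Fintype.card_sum]
    let F : ({j // 1 < lam j} ⊕ {j // ¬ η j = 1}) → {x : Fin 3 × Fin n // dk x.1 x.2 ≤ 0} :=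
      Sum.elim (fun j => ⟨(0, j.1), by
        change 1 - lam j.1 ≤ 0
        have := j.2
        linarith⟩) (fun j => ⟨(2, j.1), by
        change (((η j.1 : ℤˣ) : ℤ) : ℝ) ≤ 0
        rcases Int.units_eq_one_or (η j.1) with h | h
        · exact absurd h j.2
        · rw [h]; norm_num⟩)
    apply Fintype.card_le_of_injective F
    rintro (i | i) (j | j) hij
    · have h2 := congrArg Subtype.val hij
      exact congrArg Sum.inl (Subtype.ext (congrArg Prod.snd h2))
    · have h2 : (0 : Fin 3) = 2 := congrArg (fun z => z.1.1) hij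
      exact absurd h2 (by decide)
    · have h2 : (2 : Fin 3) = 0 := congrArg (fun z => z.1.1) hij
      exact absurd h2 (by decide)
    · have h2 := congrArg Subtype.val hij
      exact congrArg Sum.inr (Subtype.ext (congrArg Prod.snd h2))
  have h2 : Fintype.card {j // ¬ η j = 1} = n - Fintype.card {j // η j = 1} := by
    rw [Fintype.card_subtype_compl, Fintype.card_fin]
  have h3 := Fintype.card_subtype_le fun j => η j = 1
  rw [Fintype.card_fin] at h3
  omega

end count

section thirdOK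

open Vale.Agent.P011S

variable {K D : Type} [Field K] [NumberField K] [StarRing K] [DivisionRing D] [StarRing D]
  [Algebra K D] [StarModule K D] [FiniteDimensional K D] [Algebra.IsCentral K D] {n : ℕ}

theorem rowForm_rowH [FormPos D] [CharZero D] [FiniteDimensional ℚ D] {m : ℕ} (H : Matrix (Fin m) (Fin m) D) (hA : An H) (x y : Fin m → D) :
    (rowForm H hA).h x y = rowH H x y := by
  rw [rowForm_h, gram_entry]
  have h1 := col_row H (star x) (star y)
  rw [star_star, star_star] at h1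
  rw [← h1]
  congr 1
  ext i
  simp [cv]

theorem psd_of_sos {R : RData K D n} (hA : R.A.PosDef) {a : D} (ha : a ∈ sos D) :
    (R.f a * R.A).PosSemidef := by
  induction ha using AddSubmonoid.closure_induction with
  | mem x hx =>
    obtain ⟨y, rfl⟩ := hx
    change (R.f (y * star y) * R.A).PosSemidef
    rw [map_mul, mul_assoc, R.star_f, ← mul_assoc]
    exact hA.posSemidef.mul_mul_conjTranspose_same _
  | zero => rw [map_zero, zero_mul]; exact Matrix.PosSemidef.zero
  | add x y _ _ hx hy => rw [map_add, add_mul]; exact hx.add hy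

theorem pos_of_sos {R : RData K D n} (hA : R.A.PosDef) {a : D} (ha : a ∈ sos D) (ha0 : a ≠ 0) :
    (R.f a * R.A).PosDef :=
  (psd_of_sos hA ha).posDef_iff_isUnit.mpr ((R.f_unit ha0).mul R.unit)

/-- The condition on the third vector, in rank three. -/
theorem thirdOK [FormPos D] [CharZero D] [FiniteDimensional ℚ D] (hn : 0 < n) (hdeg : finrank K D = n ^ 2) {ι : Type} [Fintype ι] [Nonempty ι]
    (R : ι → RData K D n) (hc : Complete R) (hd : KDense R) (hA : ∀ i, (R i).A.PosDef)
    (hadj : ∀ (a : D) (ha0 : a ≠ 0) (ha : star a = a),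
      @HasAdj K D _ _ _ (Vale.Agent.P011.T2.twist a ha0 ha) _ n)
    (H : Matrix (Fin 3) (Fin 3) D) (hH : IsAnisotropicForm H) (hAn : An H)
    (u : Fin 2 → Fin 3 → D) (hu : ∀ i, ((R i).Um u * (R i).Gam H * ((R i).Um u)ᴴ).PosDef) :
    Vale.Agent.P011.Tri.ThirdOK K (rowForm H hAn) := by
  classical
  intro a ha ha0 x x' hx hx'
  rw [rowForm_rowH] at hx hx'
  have hsa : star a = a := sos_star ha
  obtain ⟨w, hw0, hwx, hwx'⟩ : ∃ w, w ≠ 0 ∧ rowH H w x = 0 ∧ rowH H w x' = 0 := by
    let F : (Fin 3 → D) →ₗ[D] (D × D) :=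
      ((rowF H hH.1).lin x).prod ((rowF H hH.1).lin x')
    have h1 : LinearMap.ker F ≠ ⊥ := by
      apply LinearMap.ker_ne_bot_of_finrank_lt
      rw [Module.finrank_prod, Module.finrank_self, Module.finrank_fin_fun]
      omega
    obtain ⟨w, hw, hw0⟩ := (Submodule.ne_bot_iff _).mp h1
    have h2 : F w = 0 := hw
    exact ⟨w, hw0, congrArg Prod.fst h2, congrArg Prod.snd h2⟩
  have hxw : rowH H x w = 0 := by rw [← rowH_star H hH.1, hwx, star_zero]
  have hx'w : rowH H x' w = 0 := by rw [← rowH_star H hH.1, hwx', star_zero]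
  simp only [rowForm_rowH]
  obtain ⟨C, hC⟩ : ∃ C, C = rowH H x x' * a⁻¹ * rowH H x' x * a⁻¹ := ⟨_, rfl⟩
  simp only [← hC]
  by_cases hC1 : C = 1
  · refine ⟨w, hw0, hxw, hx'w, ?_, ?_⟩
    · rw [hC1, one_mul, mul_one]
    · intro L _ _ _ _ _ j hj hKL c' f' hc' hf' τ hτ hneg
      have h1 : c' = 1 := by
        apply j.toRingHom.injective
        change j c' = j 1
        rw [hc', hC1, map_one]
      rw [h1, sub_self, map_zero, Complex.zero_re] at hneg
      exact absurd hneg (lt_irrefl _)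
  · obtain ⟨c, hcd⟩ : ∃ c, c = rowH H w w * a⁻¹ := ⟨_, rfl⟩
    have hww : star (rowH H w w) = rowH H w w := rowH_star H hH.1 w w
    have hww0 : rowH H w w ≠ 0 := by
      intro h0
      apply hw0
      have h1 := hH.2 (star w) (by rw [col_row, star_star, h0])
      rw [← star_star w, h1, star_zero]
    obtain ⟨t, ht0, htC, htS⟩ := @third_core K D _ _ _ _ (Vale.Agent.P011.T2.twist a ha0 hsa) _
      (Vale.Agent.P011.T2.twist_module a ha0 hsa) _ _ n hn hdeg ι _ _
      (fun i => (R i).tw a ha0 hsa 1) hc hd (by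
        intro i
        change (((((1 : ℤˣ) : ℤ) : ℂ)) • ((R i).f a * (R i).A)).PosDef
        rw [Units.val_one, Int.cast_one, one_smul]
        exact pos_of_sos (hA i) ha ha0) (hadj a ha0 hsa) C c (by
        change a * star C * a⁻¹ = C
        rw [hC, star_mul, star_mul, star_mul, star_inv₀, hsa, rowH_star H hH.1,
          rowH_star H hH.1]
        simp only [← mul_assoc]
        rw [mul_inv_cancel₀ ha0, one_mul]) (by
        change a * star c * a⁻¹ = c
        rw [hcd, star_mul, star_inv₀, hsa, hww, ← mul_assoc, mul_inv_cancel₀ ha0, one_mul]) (by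
        rw [hcd]
        exact mul_ne_zero hww0 (inv_ne_zero ha0)) (by
        intro i lam V S η hV hVA hVC hS hSc
        have e1 : @RData.A K D _ _ _ (Vale.Agent.P011.T2.twist a ha0 hsa) _ n
            ((R i).tw a ha0 hsa 1) = (R i).f a * (R i).A := by
          change (((((1 : ℤˣ) : ℤ) : ℂ)) • ((R i).f a * (R i).A)) = _
          rw [Units.val_one, Int.cast_one, one_smul]
        rw [e1] at hVA hSc
        exact count_third (R i) hH u (hu i) ha0 hx hx' hw0 hxw hx'w hC hC1 hcd hV hVA hVC hS hSc)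
    refine ⟨t • w, ?_, ?_, ?_, ?_, ?_⟩
    · exact smul_ne_zero ht0 hw0
    · have h1 : rowH H x (t • w) = rowH H x w * star t := (rowF H hH.1).smul_right t x w
      rw [h1, hxw, zero_mul]
    · have h1 : rowH H x' (t • w) = rowH H x' w * star t := (rowF H hH.1).smul_right t x' w
      rw [h1, hx'w, zero_mul]
    · have e1 : rowH H (t • w) (t • w) * a⁻¹ = t * c * (a * star t * a⁻¹) := by
        have h1 : rowH H (t • w) (t • w) = t * rowH H w w * star t := by
          change (rowF H hH.1).h (t • w) (t • w) = _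
          rw [(rowF H hH.1).smul_left, (rowF H hH.1).smul_right]
          change t * (rowH H w w * star t) = _
          rw [mul_assoc]
        rw [h1, hcd]
        calc t * rowH H w w * star t * a⁻¹ = t * (rowH H w w * (a⁻¹ * a) * star t) * a⁻¹ := by
              rw [inv_mul_cancel₀ ha0, mul_one, mul_assoc t]
          _ = _ := by simp only [mul_assoc]
      rw [e1]
      exact htC
    · have e1 : rowH H (t • w) (t • w) * a⁻¹ = t * c * (a * star t * a⁻¹) := by
        have h1 : rowH H (t • w) (t • w) = t * rowH H w w * star t := by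
          change (rowF H hH.1).h (t • w) (t • w) = _
          rw [(rowF H hH.1).smul_left, (rowF H hH.1).smul_right]
          change t * (rowH H w w * star t) = _
          rw [mul_assoc]
        rw [h1, hcd]
        calc t * rowH H w w * star t * a⁻¹ = t * (rowH H w w * (a⁻¹ * a) * star t) * a⁻¹ := by
              rw [inv_mul_cancel₀ ha0, mul_one, mul_assoc t]
          _ = _ := by simp only [mul_assoc]
      rw [e1]
      exact htS

end thirdOK

end Vale.Agent.P011.RP
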