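import Vale.Agent.P011.RP.Pos

/-!
A plane on which a hermitian form is definite at all real places.
-/

open Module Matrix
open scoped ComplexOrder

set_option linter.unusedSectionVars false

namespace Vale.Agent.P011.RP

/-- the matrices `Y G Yᴴ` depend continuously on `Y` -/
theorem near_conj {κ ι : Type} [Fintype κ] [Fintype ι] (G : Matrix ι ι ℂ) (Y : Matrix κ ι ℂ)
    {η : ℝ} (hη : 0 < η) : ∃ δ : ℝ, 0 < δ ∧ ∀ U : Matrix κ ι ℂ, (∀ a b, ‖U a b - Y a b‖ < δ) →
      ∀ a b, ‖(U * G * Uᴴ) a b - (Y * G * Yᴴ) a b‖ < η := by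
  have hc : Continuous (fun U : κ → ι → ℂ => (fun a b => (Matrix.of U * G * (Matrix.of U)ᴴ) a b :
      κ → κ → ℂ)) := by
    refine continuous_pi fun a => continuous_pi fun b => ?_
    simp only [Matrix.mul_apply, Matrix.conjTranspose_apply, Matrix.of_apply]
    fun_prop
  let Y' : κ → ι → ℂ := Y
  obtain ⟨δ, hδ, h⟩ := Metric.continuous_iff.mp hc Y' η hη
  refine ⟨δ, hδ, fun U hU a b => ?_⟩
  let U' : κ → ι → ℂ := U
  have h1 : dist U' Y' < δ := by
    rw [dist_pi_lt_iff hδ]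
    intro a
    rw [dist_pi_lt_iff hδ]
    intro b
    rw [dist_eq_norm]
    exact hU a b
  have h2 := h U' h1
  rw [dist_pi_lt_iff hη] at h2
  have h3 := h2 a
  rw [dist_pi_lt_iff hη] at h3
  have h4 := h3 b
  rwa [dist_eq_norm] at h4

/-- block matrices -/
def cm {α β : Type} {n : ℕ} (X : Matrix α β (Matrix (Fin n) (Fin n) ℂ)) :
    Matrix (α × Fin n) (β × Fin n) ℂ :=
  Matrix.of fun x y => X x.1 y.1 x.2 y.2

theorem cm_mul {α β γ : Type} {n : ℕ} [Fintype β] (X : Matrix α β (Matrix (Fin n) (Fin n) ℂ))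
    (Y : Matrix β γ (Matrix (Fin n) (Fin n) ℂ)) : cm (X * Y) = cm X * cm Y := by
  ext ⟨a, p⟩ ⟨b, q⟩
  simp only [cm, Matrix.of_apply, Matrix.mul_apply, Matrix.sum_apply, Fintype.sum_prod_type]

theorem cm_conj {α β : Type} {n : ℕ} (X : Matrix α β (Matrix (Fin n) (Fin n) ℂ)) :
    (cm X)ᴴ = cm Xᴴ := by
  ext ⟨a, p⟩ ⟨b, q⟩
  rfl

variable {K D : Type} [Field K] [StarRing K] [DivisionRing D] [StarRing D] [Algebra K D]
  {n : ℕ}

/-- the value of the hermitian form with matrix `H` at a pair of rows -/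
def rowH {m : ℕ} (H : Matrix (Fin m) (Fin m) D) (u v : Fin m → D) : D :=
  ∑ a, ∑ b, u a * H a b * star (v b)

namespace RData

variable (R : RData K D n) {m : ℕ}

/-- the complex hermitian matrix attached to a hermitian matrix over `D` -/
def Gam (H : Matrix (Fin m) (Fin m) D) : Matrix (Fin m × Fin n) (Fin m × Fin n) ℂ :=
  Matrix.of fun x y => (R.f (H x.1 y.1) * R.A) x.2 y.2

theorem Gam_apply (H : Matrix (Fin m) (Fin m) D) (x y : Fin m × Fin n) :
    R.Gam H x y = (R.f (H x.1 y.1) * R.A) x.2 y.2 := rfl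

theorem Gam_herm {H : Matrix (Fin m) (Fin m) D} (hH : Hᴴ = H) : (R.Gam H).IsHermitian := by
  ext ⟨a, p⟩ ⟨b, q⟩
  rw [Matrix.conjTranspose_apply, Gam_apply, Gam_apply]
  have h1 : H a b = star (H b a) := by
    conv_lhs => rw [← hH]
    rfl
  have h2 : (R.f (H a b) * R.A) = (R.f (H b a) * R.A)ᴴ := by
    rw [h1, R.star_f, Matrix.conjTranspose_mul, R.hA]
  rw [h2, Matrix.conjTranspose_apply]

theorem Gam_unit {H : Matrix (Fin m) (Fin m) D} (hH : IsUnit H) : IsUnit (R.Gam H) := by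
  have h1 : R.Gam H = (Matrix.compRingEquiv (Fin m) (Fin n) ℂ) ((R.f.mapMatrix H) *
      Matrix.scalar (Fin m) R.A) := by
    ext ⟨a, p⟩ ⟨b, q⟩
    rw [Gam_apply]
    change _ = ((R.f.mapMatrix H) * Matrix.scalar (Fin m) R.A) a b p q
    rw [Matrix.scalar_apply, Matrix.mul_diagonal]
    rfl
  rw [h1]
  apply IsUnit.map
  exact (hH.map R.f.mapMatrix).mul (R.unit.map (Matrix.scalar (Fin m)))

/-- the complex matrix of a family of rows -/
def Um {κ : Type} (u : κ → Fin m → D) : Matrix (κ × Fin n) (Fin m × Fin n) ℂ :=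
  Matrix.of fun x y => (R.f (u x.1 y.1)) x.2 y.2

theorem Um_gram {κ : Type} [Fintype κ] (H : Matrix (Fin m) (Fin m) D) (u : κ → Fin m → D)
    (x y : κ × Fin n) : (R.Um u * R.Gam H * (R.Um u)ᴴ) x y =
      (R.f (rowH H (u x.1) (u y.1)) * R.A) x.2 y.2 := by
  let X : Matrix κ (Fin m) (Matrix (Fin n) (Fin n) ℂ) := Matrix.of fun c a => R.f (u c a)
  let G : Matrix (Fin m) (Fin m) (Matrix (Fin n) (Fin n) ℂ) :=
    Matrix.of fun a b => R.f (H a b) * R.A
  have h0 : R.Um u * R.Gam H * (R.Um u)ᴴ = cm (X * G * Xᴴ) := by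
    rw [cm_mul, cm_mul, ← cm_conj]
    rfl
  rw [h0]
  have h1 : (X * G * Xᴴ) x.1 y.1 = R.f (rowH H (u x.1) (u y.1)) * R.A := by
    rw [rowH, Finset.sum_comm, map_sum, Finset.sum_mul, Matrix.mul_apply]
    refine Finset.sum_congr rfl fun b _ => ?_
    rw [Matrix.mul_apply, map_sum, Finset.sum_mul, Finset.sum_mul]
    refine Finset.sum_congr rfl fun a _ => ?_
    change R.f (u x.1 a) * (R.f (H a b) * R.A) * (R.f (u y.1 b))ᴴ =
      R.f (u x.1 a * H a b * star (u y.1 b)) * R.A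
    rw [map_mul, map_mul, mul_assoc (R.f (u x.1 a) * R.f (H a b)), R.star_f]
    simp only [mul_assoc]
  change (X * G * Xᴴ) x.1 y.1 x.2 y.2 = _
  rw [← h1]

theorem rowH_comb {H : Matrix (Fin m) (Fin m) D} {κ : Type} [Fintype κ] (u : κ → Fin m → D)
    (β : κ → D) : rowH H (fun a => ∑ c, β c * u c a) (fun a => ∑ c, β c * u c a) =
      ∑ c, ∑ d, β c * rowH H (u c) (u d) * star (β d) := by
  simp only [rowH, star_sum, star_mul, Finset.sum_mul, Finset.mul_sum]
  have e1 : ∀ a : Fin m, ∑ b, ∑ d, ∑ c, β c * u c a * H a b * (star (u d b) * star (β d)) =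
      ∑ c, ∑ d, ∑ b, β c * u c a * H a b * (star (u d b) * star (β d)) := by
    intro a
    rw [Finset.sum_comm]
    rw [Finset.sum_congr rfl fun d _ => Finset.sum_comm]
    rw [Finset.sum_comm]
  rw [Finset.sum_congr rfl fun a _ => e1 a, Finset.sum_comm]
  refine Finset.sum_congr rfl fun c _ => ?_
  rw [Finset.sum_comm]
  refine Finset.sum_congr rfl fun d _ => ?_
  refine Finset.sum_congr rfl fun a _ => Finset.sum_congr rfl fun b _ => ?_
  simp only [mul_assoc]

theorem f_unit (R : RData K D n) {x : D} (hx : x ≠ 0) : IsUnit (R.f x) :=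
  (isUnit_iff_ne_zero.mpr hx).map R.f

/-- positivity on a plane from positivity of the complex Gram matrix -/
theorem plane_pos {H : Matrix (Fin m) (Fin m) D} {κ : Type} [Fintype κ] [DecidableEq κ]
    (u : κ → Fin m → D) (ε : ℂ) (hp : (ε • (R.Um u * R.Gam H * (R.Um u)ᴴ)).PosDef)
    {β : κ → D} (hβ : β ≠ 0) :
    (ε • (R.f (rowH H (fun a => ∑ c, β c * u c a) (fun a => ∑ c, β c * u c a)) * R.A)).PosDef := by
  obtain ⟨c0, hc0⟩ : ∃ c, β c ≠ 0 := by
    by_contra h
    push Not at h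
    exact hβ (funext h)
  let M : Matrix (Fin n) (κ × Fin n) ℂ := Matrix.of fun p y => R.f (β y.1) p y.2
  have hM : Function.Injective M.vecMul := by
    intro v w hvw
    have h1 : (v - w) ᵥ* M = 0 := by
      rw [Matrix.sub_vecMul]; exact sub_eq_zero.mpr hvw
    have h2 : (v - w) ᵥ* R.f (β c0) = 0 := by
      funext q
      exact congrFun h1 (c0, q)
    have h3 : v - w = 0 := by
      obtain ⟨Q, hQ⟩ := R.f_unit hc0
      have h4 := congrArg (fun z => z ᵥ* ((Q⁻¹ : (Matrix (Fin n) (Fin n) ℂ)ˣ) :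
        Matrix (Fin n) (Fin n) ℂ)) h2
      simp only [Matrix.vecMul_vecMul, Matrix.zero_vecMul] at h4
      rwa [← hQ, Units.mul_inv, Matrix.vecMul_one] at h4
    exact sub_eq_zero.mp h3
  have h5 := hp.mul_mul_conjTranspose_same hM
  convert h5 using 1
  rw [Matrix.mul_smul, Matrix.smul_mul]
  congr 1
  rw [rowH_comb]
  -- block computation
  let X : Matrix Unit κ (Matrix (Fin n) (Fin n) ℂ) := Matrix.of fun _ c => R.f (β c)
  let G : Matrix κ κ (Matrix (Fin n) (Fin n) ℂ) :=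
    Matrix.of fun c d => R.f (rowH H (u c) (u d)) * R.A
  have hG : R.Um u * R.Gam H * (R.Um u)ᴴ = cm G := by
    ext x y
    rw [R.Um_gram]
    rfl
  have h6 : cm (X * G * Xᴴ) = cm X * cm G * (cm X)ᴴ := by rw [cm_mul, cm_mul, ← cm_conj]
  have h7 : (X * G * Xᴴ) () () =
      R.f (∑ c, ∑ d, β c * rowH H (u c) (u d) * star (β d)) * R.A := by
    rw [Finset.sum_comm, map_sum, Finset.sum_mul, Matrix.mul_apply]
    refine Finset.sum_congr rfl fun d _ => ?_
    rw [Matrix.mul_apply, map_sum, Finset.sum_mul, Finset.sum_mul]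
    refine Finset.sum_congr rfl fun c _ => ?_
    change R.f (β c) * (R.f (rowH H (u c) (u d)) * R.A) * (R.f (β d))ᴴ =
      R.f (β c * rowH H (u c) (u d) * star (β d)) * R.A
    rw [map_mul, map_mul, mul_assoc (R.f (β c) * R.f (rowH H (u c) (u d))), R.star_f]
    simp only [mul_assoc]
  ext p q
  have h8 := congrFun (congrFun h6 ((), p)) ((), q)
  have h9 : cm (X * G * Xᴴ) ((), p) ((), q) = (X * G * Xᴴ) () () p q := rfl
  rw [h9, h7] at h8
  rw [h8, hG, Matrix.mul_apply, Matrix.mul_apply]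
  refine Finset.sum_congr rfl fun x _ => ?_
  congr 1

end RData

end Vale.Agent.P011.RP
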