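import Vale.Agent.P011.RP.Iface

/-!
Eigenvectors of commutative subfields, centralisers, density.
-/

open Module Matrix
open scoped ComplexOrder
open Vale.Agent.P011S (FK sqK)

set_option linter.unusedSectionVars false

namespace Vale.Agent.P011.RP

section

variable {K D : Type} [Field K] [StarRing K] [DivisionRing D] [StarRing D] [Algebra K D]
  [FiniteDimensional K D] [Algebra.IsCentral K D] {n : ℕ}

/-- Independence over the complex numbers of the images of independent elements. -/
theorem RData.indep (hn : 0 < n) (R : RData K D n) {ι : Type} [Fintype ι] (b : ι → D)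
    (hb : LinearIndependent K b) : LinearIndependent ℂ fun i => R.f (b i) := by
  let _ : Algebra K ℂ := R.s.toAlgebra
  let g : D →ₐ[K] Matrix (Fin n) (Fin n) ℂ := { R.f with
    commutes' := fun k => by
      change R.f (algebraMap K D k) = _
      rw [R.hf, Matrix.algebraMap_eq_diagonal]
      rfl }
  exact Vale.Agent.P011S.SF.split_indep hn g b hb

theorem RData.smul (R : RData K D n) (k : K) (x : D) : R.f (k • x) = R.s k • R.f x := by
  rw [Algebra.smul_def, map_mul, R.hf, Matrix.scalar_apply, ← Matrix.smul_eq_diagonal_mul]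

/-- Every embedding of a subfield gives an eigenvector. -/
theorem RData.exists_eigen [CharZero K] (hn : 0 < n) (R : RData K D n) {L : Type} [Field L]
    [Algebra K L] (j : L →ₐ[K] D) (σ : L →+* ℂ) (hσ : ∀ k, σ (algebraMap K L k) = R.s k) :
    ∃ v : Fin n → ℂ, v ≠ 0 ∧ ∀ l, R.f (j l) *ᵥ v = σ l • v := by
  classical
  have hfin : FiniteDimensional K L :=
    FiniteDimensional.of_injective j.toLinearMap j.toRingHom.injective
  let pb := Field.powerBasisOfFiniteOfSeparable K L
  obtain ⟨F, hF⟩ : ∃ F, F = R.f (j pb.gen) := ⟨_, rfl⟩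
  let g : Polynomial ℂ := (minpoly K pb.gen).map R.s
  have hgm : g.Monic := (minpoly.monic pb.isIntegral_gen).map _
  have hroot : g.IsRoot (σ pb.gen) := by
    have h1 : σ.comp (algebraMap K L) = R.s := RingHom.ext hσ
    rw [Polynomial.IsRoot, Polynomial.eval_map, ← h1, ← Polynomial.hom_eval₂]
    have h2 : Polynomial.eval₂ (algebraMap K L) pb.gen (minpoly K pb.gen) = 0 :=
      minpoly.aeval K pb.gen
    rw [h2, map_zero]
  let q : Polynomial ℂ := g /ₘ (Polynomial.X - Polynomial.C (σ pb.gen))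
  have hq : (Polynomial.X - Polynomial.C (σ pb.gen)) * q = g :=
    Polynomial.mul_divByMonic_eq_iff_isRoot.mpr hroot
  have hg0 : g ≠ 0 := hgm.ne_zero
  have hq0 : q ≠ 0 := by
    intro h0
    rw [h0, mul_zero] at hq
    exact hg0 hq.symm
  have hqd : q.natDegree < pb.dim := by
    have h1 := congrArg Polynomial.natDegree hq
    rw [Polynomial.natDegree_mul (Polynomial.X_sub_C_ne_zero _) hq0,
      Polynomial.natDegree_X_sub_C, (minpoly.monic pb.isIntegral_gen).natDegree_map,
      pb.natDegree_minpoly] at h1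
    omega
  have hpow : ∀ i : ℕ, F ^ i = R.f (j (pb.gen ^ i)) := by
    intro i
    rw [hF, map_pow, map_pow]
  have hgF : Polynomial.aeval F g = 0 := by
    rw [Polynomial.aeval_eq_sum_range]
    have h1 : ∀ i ∈ Finset.range (g.natDegree + 1), g.coeff i • F ^ i =
        R.f (j ((minpoly K pb.gen).coeff i • pb.gen ^ i)) := by
      intro i _
      rw [hpow, map_smul, R.smul, Polynomial.coeff_map]
    rw [Finset.sum_congr rfl h1, ← map_sum, ← map_sum]
    have h2 : g.natDegree = (minpoly K pb.gen).natDegree :=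
      (minpoly.monic pb.isIntegral_gen).natDegree_map _
    rw [h2, ← Polynomial.aeval_eq_sum_range, minpoly.aeval, map_zero, map_zero]
  have hqF : Polynomial.aeval F q ≠ 0 := by
    intro h0
    rw [Polynomial.aeval_eq_sum_range' hqd, ← Fin.sum_univ_eq_sum_range
      (fun i => q.coeff i • F ^ i)] at h0
    have hli : LinearIndependent K fun i : Fin pb.dim => j (pb.gen ^ (i : ℕ)) := by
      have h1 := pb.basis.linearIndependent
      rw [pb.coe_basis] at h1
      exact h1.map' j.toLinearMap (LinearMap.ker_eq_bot.mpr j.toRingHom.injective)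
    have h2 := Fintype.linearIndependent_iff.mp (R.indep hn _ hli) (fun i => q.coeff i) (by
      rw [← h0]
      exact Finset.sum_congr rfl fun i _ => by rw [hpow])
    apply hq0
    ext i
    rw [Polynomial.coeff_zero]
    by_cases hi : i < pb.dim
    · exact h2 ⟨i, hi⟩
    · exact Polynomial.coeff_eq_zero_of_natDegree_lt (by omega)
  obtain ⟨v0, hv0⟩ : ∃ v0 : Fin n → ℂ, (Polynomial.aeval F q) *ᵥ v0 ≠ 0 := by
    by_contra hcon
    push Not at hcon
    apply hqF
    apply Matrix.ext_of_mulVec_single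
    intro i
    rw [hcon, Matrix.zero_mulVec]
  refine ⟨_, hv0, ?_⟩
  have hgen : F *ᵥ ((Polynomial.aeval F q) *ᵥ v0) = σ pb.gen • ((Polynomial.aeval F q) *ᵥ v0) := by
    have h1 : (F - Matrix.scalar (Fin n) (σ pb.gen)) * Polynomial.aeval F q = 0 := by
      rw [← hgF, ← hq, map_mul, map_sub, Polynomial.aeval_X, Polynomial.aeval_C,
        Matrix.algebraMap_eq_diagonal]
      rfl
    have h2 := congrArg (fun X => X *ᵥ v0) h1
    simp only [Matrix.zero_mulVec] at h2
    rw [← Matrix.mulVec_mulVec, Matrix.sub_mulVec, sub_eq_zero] at h2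
    rw [h2, Matrix.scalar_apply]
    ext i
    rw [Matrix.mulVec_diagonal, Pi.smul_apply, smul_eq_mul]
  intro l
  have hl : l ∈ Algebra.adjoin K {pb.gen} := by
    rw [pb.adjoin_gen_eq_top]; exact Algebra.mem_top
  induction hl using Algebra.adjoin_induction with
  | mem x hx =>
    rw [Set.mem_singleton_iff.mp hx, ← hF]
    exact hgen
  | algebraMap k =>
    rw [AlgHom.commutes, R.hf, hσ, Matrix.scalar_apply]
    ext i
    rw [Matrix.mulVec_diagonal, Pi.smul_apply, smul_eq_mul]
  | add x y _ _ hx hy => rw [map_add, map_add, Matrix.add_mulVec, hx, hy, map_add, add_smul]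
  | mul x y _ _ hx hy =>
    rw [map_mul, map_mul, ← Matrix.mulVec_mulVec, hy, Matrix.mulVec_smul, hx, smul_smul, map_mul,
      mul_comm]

/-- Expansion of matrices in the images of a basis. -/
theorem RData.exists_coeff (hdeg : finrank K D = n ^ 2) (hn : 0 < n) (R : RData K D n)
    {ι : Type} [Fintype ι] (b : Basis ι K D) (X : Matrix (Fin n) (Fin n) ℂ) :
    ∃ γ : ι → ℂ, X = ∑ j, γ j • R.f (b j) := by
  have h2 := R.indep hn b b.linearIndependent
  have h3 := h2.span_eq_top_of_card_eq_finrank' (by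
    rw [Module.finrank_matrix, Fintype.card_fin, Module.finrank_self,
      mul_one, ← pow_two, ← hdeg, Module.finrank_eq_card_basis b])
  have h4 : X ∈ Submodule.span ℂ (Set.range fun i => R.f (b i)) := by
    rw [h3]; exact Submodule.mem_top
  rw [Submodule.mem_span_range_iff_exists_fun] at h4
  obtain ⟨γ, hγ⟩ := h4
  exact ⟨γ, hγ.symm⟩

/-- the centraliser of an element -/
def cent (K : Type) {D : Type} [Field K] [DivisionRing D] [Algebra K D] (C : D) :
    Submodule K D :=
  LinearMap.ker (LinearMap.mulLeft K C - LinearMap.mulRight K C)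

theorem mem_cent {C y : D} : y ∈ cent K C ↔ C * y = y * C := by
  rw [cent, LinearMap.mem_ker, LinearMap.sub_apply, LinearMap.mulLeft_apply,
    LinearMap.mulRight_apply, sub_eq_zero]

/-- A matrix commuting with the image of `C` is a combination of images of elements of the
centraliser of `C`. -/
theorem RData.centralizer (hdeg : finrank K D = n ^ 2) (hn : 0 < n) (R : RData K D n) {C : D}
    {X : Matrix (Fin n) (Fin n) ℂ} (hX : R.f C * X = X * R.f C) :
    ∃ γ : Fin (finrank K (cent K C)) → ℂ,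
      X = ∑ j, γ j • R.f (finBasis K (cent K C) j : D) := by
  classical
  obtain ⟨Z', hZ'⟩ := (cent K C).exists_isCompl
  let b : Basis (Fin (finrank K (cent K C)) ⊕ Fin (finrank K Z')) K D :=
    ((finBasis K (cent K C)).prod (finBasis K Z')).map (Submodule.prodEquivOfIsCompl _ _ hZ')
  have hb1 : ∀ j, b (Sum.inl j) = finBasis K (cent K C) j := by
    intro j
    simp [b]
  have hb2 : ∀ j, b (Sum.inr j) = finBasis K Z' j := by
    intro j
    simp [b]
  obtain ⟨γ, hγ⟩ := R.exists_coeff hdeg hn b X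
  rw [Fintype.sum_sum_type] at hγ
  simp only [hb1, hb2] at hγ
  -- the commutators of the complementary basis are independent
  let ad : D →ₗ[K] D := LinearMap.mulLeft K C - LinearMap.mulRight K C
  have hli : LinearIndependent K fun j => ad (finBasis K Z' j : D) := by
    have h1 : LinearIndependent K fun j => (ad.comp Z'.subtype) (finBasis K Z' j) := by
      apply (finBasis K Z').linearIndependent.map'
      rw [LinearMap.ker_eq_bot']
      intro z hz
      have h2 : (z : D) ∈ cent K C := hz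
      have h3 := hZ'.disjoint.le_bot ⟨h2, z.2⟩
      exact Subtype.ext h3
    exact h1
  have h4 : ∑ j, γ (Sum.inr j) • R.f (ad (finBasis K Z' j : D)) = 0 := by
    have h5 : R.f C * X - X * R.f C = 0 := by rw [hX, sub_self]
    rw [hγ, mul_add, add_mul, Finset.mul_sum, Finset.mul_sum, Finset.sum_mul,
      Finset.sum_mul] at h5
    have h6 : ∑ j, R.f C * (γ (Sum.inl j) • R.f (finBasis K (cent K C) j : D)) =
        ∑ j, (γ (Sum.inl j) • R.f (finBasis K (cent K C) j : D)) * R.f C := by
      refine Finset.sum_congr rfl fun j _ => ?_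
      rw [mul_smul_comm, smul_mul_assoc, ← map_mul, ← map_mul,
        mem_cent.mp (finBasis K (cent K C) j).2]
    rw [h6, add_sub_add_left_eq_sub, ← Finset.sum_sub_distrib] at h5
    rw [← h5]
    refine Finset.sum_congr rfl fun j _ => ?_
    rw [mul_smul_comm, smul_mul_assoc, ← map_mul, ← map_mul, ← smul_sub, ← map_sub]
    rfl
  have h7 := Fintype.linearIndependent_iff.mp (R.indep hn _ hli) _ h4
  refine ⟨fun j => γ (Sum.inl j), ?_⟩
  rw [hγ]
  have h8 : ∑ j, γ (Sum.inr j) • R.f (finBasis K Z' j : D) = 0 :=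
    Finset.sum_eq_zero fun j _ => by rw [h7 j, zero_smul]
  rw [h8, add_zero]

/-- density of the base field at the places -/
def KDense {ι : Type} (R : ι → RData K D n) : Prop :=
  ∀ (z : ι → ℂ) (ε : ℝ), 0 < ε → ∃ k : K, ∀ i, ‖(R i).s k - z i‖ < ε

theorem KDense.sub {ι : Type} [Finite ι] {R : ι → RData K D n} (hd : KDense R) {κ : Type}
    [Fintype κ] (z : κ → D) (γ : ι → κ → ℂ) {ε : ℝ} (hε : 0 < ε) :
    ∃ k : κ → K, ∀ i a b, ‖(R i).f (∑ j, k j • z j) a b -
      (∑ j, γ i j • (R i).f (z j)) a b‖ < ε := by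
  classical
  let _ : Fintype ι := Fintype.ofFinite ι
  obtain ⟨M, hM0, hM⟩ : ∃ M : ℝ, 0 < M ∧ ∀ i a b, ∑ j, ‖(R i).f (z j) a b‖ < M := by
    refine ⟨∑ i, ∑ a, ∑ b, ∑ j, ‖(R i).f (z j) a b‖ + 1, ?_, ?_⟩
    · positivity
    · intro i a b
      have h1 : ∑ j, ‖(R i).f (z j) a b‖ ≤ ∑ b, ∑ j, ‖(R i).f (z j) a b‖ :=
        Finset.single_le_sum (f := fun b => ∑ j, ‖(R i).f (z j) a b‖)
          (fun _ _ => Finset.sum_nonneg fun _ _ => norm_nonneg _) (Finset.mem_univ b)
      have h2 : ∑ b, ∑ j, ‖(R i).f (z j) a b‖ ≤ ∑ a, ∑ b, ∑ j, ‖(R i).f (z j) a b‖ :=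
        Finset.single_le_sum (f := fun a => ∑ b, ∑ j, ‖(R i).f (z j) a b‖)
          (fun _ _ => Finset.sum_nonneg fun _ _ => Finset.sum_nonneg fun _ _ => norm_nonneg _)
          (Finset.mem_univ a)
      have h3 : ∑ a, ∑ b, ∑ j, ‖(R i).f (z j) a b‖ ≤
          ∑ i, ∑ a, ∑ b, ∑ j, ‖(R i).f (z j) a b‖ :=
        Finset.single_le_sum (f := fun i => ∑ a, ∑ b, ∑ j, ‖(R i).f (z j) a b‖)
          (fun _ _ => Finset.sum_nonneg fun _ _ => Finset.sum_nonneg fun _ _ =>
            Finset.sum_nonneg fun _ _ => norm_nonneg _) (Finset.mem_univ i)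
      linarith
  choose k hk using fun j => hd (fun i => γ i j) (ε / M) (by positivity)
  refine ⟨k, fun i a b => ?_⟩
  have h1 : (R i).f (∑ j, k j • z j) a b - (∑ j, γ i j • (R i).f (z j)) a b =
      ∑ j, ((R i).s (k j) - γ i j) * (R i).f (z j) a b := by
    rw [map_sum, Matrix.sum_apply, Matrix.sum_apply, ← Finset.sum_sub_distrib]
    refine Finset.sum_congr rfl fun j _ => ?_
    rw [(R i).smul, Matrix.smul_apply, Matrix.smul_apply, smul_eq_mul, smul_eq_mul, sub_mul]
  rw [h1]
  calc ‖∑ j, ((R i).s (k j) - γ i j) * (R i).f (z j) a b‖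
      ≤ ∑ j, ‖((R i).s (k j) - γ i j) * (R i).f (z j) a b‖ := norm_sum_le _ _
    _ ≤ ∑ j, (ε / M) * ‖(R i).f (z j) a b‖ := by
        refine Finset.sum_le_sum fun j _ => ?_
        rw [norm_mul]
        exact mul_le_mul_of_nonneg_right (hk j i).le (norm_nonneg _)
    _ = (ε / M) * ∑ j, ‖(R i).f (z j) a b‖ := by rw [Finset.mul_sum]
    _ < (ε / M) * M := mul_lt_mul_of_pos_left (hM i a b) (by positivity)
    _ = ε := by field_simp

theorem KDense.dense (hdeg : finrank K D = n ^ 2) (hn : 0 < n) {ι : Type} [Finite ι]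
    {R : ι → RData K D n} (hd : KDense R) : Dense R := by
  intro X ε hε
  choose γ hγ using fun i => (R i).exists_coeff hdeg hn (finBasis K D) (X i)
  obtain ⟨k, hk⟩ := hd.sub (finBasis K D) γ hε
  refine ⟨∑ j, k j • finBasis K D j, fun i a b => ?_⟩
  have := hk i a b
  rwa [← hγ] at this

end

section

variable {K D : Type} [Field K] [NumberField K] [StarRing K] [DivisionRing D] [StarRing D]
  [Algebra K D] [StarModule K D] [FiniteDimensional K D] [Algebra.IsCentral K D] {n : ℕ}

/-- The places and the density of `K`. -/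
theorem exists_familyK (hK : ∃ k : K, star k ≠ k) (hn : 0 < n) (hdeg : finrank K D = n ^ 2) :
    ∃ (ι : Type) (_ : Fintype ι) (R : ι → RData K D n), Complete R ∧ KDense R := by
  obtain ⟨k, hk⟩ := hK
  have hθ0 : k - star k ≠ 0 := sub_ne_zero.mpr (Ne.symm hk)
  have hθ : star (k - star k) = -(k - star k) := by rw [star_sub, star_star, neg_sub]
  choose R hR using fun w : {w : FK K →+* ℝ // w (sqK hθ) < 0} =>
    RData.exists_of (D := D) hn hdeg (emb hθ0 hθ w.1 w.2) (emb_star hθ0 hθ w.1 w.2)
  refine ⟨{w : FK K →+* ℝ // w (sqK hθ) < 0}, Fintype.ofFinite _, R, ?_, ?_⟩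
  · intro s hs
    obtain ⟨w, hw, h⟩ := exists_emb hθ0 hθ s hs
    refine ⟨⟨w, hw⟩, ?_⟩
    rw [hR]
    exact h
  · intro z ε hε
    classical
    obtain ⟨k, hk⟩ := cplx_dense hθ0 hθ
      (fun w => if hw : w (sqK hθ) < 0 then z ⟨w, hw⟩ else 0) hε
    refine ⟨k, fun w => ?_⟩
    have h3 := hk w.1 w.2
    rw [dif_pos w.2] at h3
    rw [hR]
    exact h3

end

end Vale.Agent.P011.RP
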