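import Vale.Agent.P011.RP.Universal
import Vale.Agent.P011.RP.Eigen

/-!
Counting positive directions.
-/

open Module Matrix
open scoped ComplexOrder

set_option linter.unusedSectionVars false

namespace Vale.Agent.P011.RP

section mat

variable {ι : Type} [Fintype ι] [DecidableEq ι]

theorem diag_val (z : ι → ℂ) (a : ι → ℝ) :
    z ⬝ᵥ (Matrix.diagonal (fun i => (a i : ℂ)) *ᵥ star z) = ((∑ i, a i * ‖z i‖ ^ 2 : ℝ) : ℂ) := by
  rw [dotProduct, Complex.ofReal_sum]
  refine Finset.sum_congr rfl fun i _ => ?_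
  rw [Matrix.mulVec_diagonal, Pi.star_apply, Complex.ofReal_mul, Complex.ofReal_pow,
    ← Complex.mul_conj', Complex.star_def]
  ring

/-- If a hermitian form is positive on a subspace, then it has few nonpositive directions. -/
theorem count_le {κ : Type} [Fintype κ] [DecidableEq κ] {G T : Matrix ι ι ℂ} (hT : IsUnit T)
    {d : ι → ℝ} (hd : T * G * Tᴴ = Matrix.diagonal fun i => (d i : ℂ))
    {Y : Matrix κ ι ℂ} (hY : (Y * G * Yᴴ).PosDef) :
    Fintype.card κ + Fintype.card {i // d i ≤ 0} ≤ Fintype.card ι := by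
  classical
  obtain ⟨S, hTS⟩ : ∃ S : Matrix ι ι ℂ, T * S = 1 := by
    obtain ⟨U, rfl⟩ := hT
    exact ⟨_, U.mul_inv⟩
  let ex : ({i // d i ≤ 0} → ℂ) →ₗ[ℂ] (ι → ℂ) :=
    { toFun := fun z i => if h : d i ≤ 0 then z ⟨i, h⟩ else 0
      map_add' := fun x y => by
        funext i
        simp only [Pi.add_apply]
        split_ifs <;> simp
      map_smul' := fun c x => by
        funext i
        simp only [Pi.smul_apply, RingHom.id_apply]
        split_ifs <;> simp }
  let F : ((κ → ℂ) × ({i // d i ≤ 0} → ℂ)) →ₗ[ℂ] (ι → ℂ) :=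
    (Matrix.vecMulLinear Y).comp (LinearMap.fst ℂ _ _) -
      ((Matrix.vecMulLinear T).comp ex).comp (LinearMap.snd ℂ _ _)
  have hF : Function.Injective F := by
    rw [← LinearMap.ker_eq_bot, LinearMap.ker_eq_bot']
    rintro ⟨y, z⟩ hyz
    have h1 : y ᵥ* Y = (ex z) ᵥ* T := sub_eq_zero.mp hyz
    have h2 : (y ᵥ* Y) ⬝ᵥ (G *ᵥ star (y ᵥ* Y)) = y ⬝ᵥ ((Y * G * Yᴴ) *ᵥ star y) := by
      rw [Matrix.star_vecMul, Matrix.dotProduct_mulVec, Matrix.dotProduct_mulVec,
        Matrix.dotProduct_mulVec, ← Matrix.vecMul_vecMul, ← Matrix.vecMul_vecMul]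
    have h3 : ((ex z) ᵥ* T) ⬝ᵥ (G *ᵥ star ((ex z) ᵥ* T)) =
        (ex z) ⬝ᵥ ((T * G * Tᴴ) *ᵥ star (ex z)) := by
      rw [Matrix.star_vecMul, Matrix.dotProduct_mulVec, Matrix.dotProduct_mulVec,
        Matrix.dotProduct_mulVec, ← Matrix.vecMul_vecMul, ← Matrix.vecMul_vecMul]
    rw [← h1, h2, hd, diag_val] at h3
    have h4 : ∑ i, d i * ‖(ex z) i‖ ^ 2 ≤ 0 := by
      apply Finset.sum_nonpos
      intro i _
      by_cases hi : d i ≤ 0
      · exact mul_nonpos_of_nonpos_of_nonneg hi (by positivity)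
      · have : (ex z) i = 0 := dif_neg hi
        rw [this, norm_zero]; simp
    have hy : y = 0 := by
      by_contra hy0
      have h5 := hY.dotProduct_mulVec_pos (x := star y) (by simpa using hy0)
      rw [star_star, h3] at h5
      have h6 := (Complex.lt_def.mp h5).1
      rw [Complex.ofReal_re, Complex.zero_re] at h6
      linarith
    have hz : ex z = 0 := by
      rw [hy, Matrix.zero_vecMul] at h1
      have h7 := congrArg (fun w => w ᵥ* S) h1
      simp only [Matrix.zero_vecMul, Matrix.vecMul_vecMul, hTS, Matrix.vecMul_one] at h7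
      exact h7.symm
    rw [hy]
    refine Prod.ext rfl ?_
    funext i
    have h8 := congrFun hz i.1
    change (if h : d i.1 ≤ 0 then z ⟨i.1, h⟩ else 0) = 0 at h8
    rwa [dif_pos i.2] at h8
  have h9 := LinearMap.finrank_le_finrank_of_injective hF
  rw [Module.finrank_prod, Module.finrank_fintype_fun_eq_card,
    Module.finrank_fintype_fun_eq_card, Module.finrank_fintype_fun_eq_card] at h9
  exact h9

/-- Simultaneous diagonalisation of a positive definite hermitian matrix and a symmetric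
operator. -/
theorem spectral_pair {P M : Matrix ι ι ℂ} (hP : P.PosDef) (hM : (M * P)ᴴ = M * P) :
    ∃ (V : Matrix ι ι ℂ) (lam : ι → ℝ), IsUnit V ∧ P = V * Vᴴ ∧
      M * V = V * Matrix.diagonal fun i => (lam i : ℂ) := by
  obtain ⟨Q, hQ, hQP⟩ := posDef_one hP
  obtain ⟨B, hB, hBQ, hQB⟩ : ∃ B : Matrix ι ι ℂ, IsUnit B ∧ B * Q = 1 ∧ Q * B = 1 := by
    obtain ⟨U, rfl⟩ := hQ
    exact ⟨_, (U⁻¹).isUnit, U.inv_mul, U.mul_inv⟩
  have hQBh : Bᴴ * Qᴴ = 1 := by rw [← Matrix.conjTranspose_mul, hQB, Matrix.conjTranspose_one]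
  have hBQh : Qᴴ * Bᴴ = 1 := by rw [← Matrix.conjTranspose_mul, hBQ, Matrix.conjTranspose_one]
  have hPB : P = B * Bᴴ := by
    calc P = (B * Q) * P * (Qᴴ * Bᴴ) := by rw [hBQ, hBQh, one_mul, mul_one]
      _ = B * (Q * P * Qᴴ) * Bᴴ := by simp only [mul_assoc]
      _ = _ := by rw [hQP, mul_one]
  have hC : (Q * M * B).IsHermitian := by
    have h1 : P * Mᴴ = M * P := by
      rw [← hM, Matrix.conjTranspose_mul, hP.isHermitian.eq]
    calc (Q * M * B)ᴴ = Bᴴ * Mᴴ * Qᴴ := by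
          rw [Matrix.conjTranspose_mul, Matrix.conjTranspose_mul]; simp only [mul_assoc]
      _ = (Q * B) * Bᴴ * Mᴴ * Qᴴ := by rw [hQB, one_mul]
      _ = Q * (P * Mᴴ) * Qᴴ := by rw [hPB]; simp only [mul_assoc]
      _ = Q * M * B * (Bᴴ * Qᴴ) := by rw [h1, hPB]; simp only [mul_assoc]
      _ = Q * M * B := by rw [hQBh, mul_one]
  obtain ⟨U, hUd⟩ : ∃ U : Matrix ι ι ℂ, U = (hC.eigenvectorUnitary : Matrix ι ι ℂ) :=
    ⟨_, rfl⟩
  have hU1 : Uᴴ * U = 1 := by
    rw [hUd]; exact Matrix.mem_unitaryGroup_iff'.mp hC.eigenvectorUnitary.2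
  have hU2 : U * Uᴴ = 1 := by
    rw [hUd]; exact Matrix.mem_unitaryGroup_iff.mp hC.eigenvectorUnitary.2
  obtain ⟨lam, hlam⟩ : ∃ lam : ι → ℝ, lam = hC.eigenvalues := ⟨_, rfl⟩
  have hspec : Q * M * B = U * Matrix.diagonal (fun i => (lam i : ℂ)) * Uᴴ := by
    rw [hUd, hlam]; exact hC.spectral_theorem
  refine ⟨B * U, lam, hB.mul ⟨⟨U, Uᴴ, hU2, hU1⟩, rfl⟩, ?_, ?_⟩
  · calc P = B * (U * Uᴴ) * Bᴴ := by rw [hU2, mul_one, hPB]
      _ = _ := by rw [Matrix.conjTranspose_mul]; simp only [mul_assoc]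
  · calc M * (B * U) = (B * Q) * M * B * U := by rw [hBQ, one_mul, mul_assoc]
      _ = B * (Q * M * B) * U := by simp only [mul_assoc]
      _ = B * U * Matrix.diagonal (fun i => (lam i : ℂ)) * (Uᴴ * U) := by
          rw [hspec]; simp only [mul_assoc]
      _ = _ := by rw [hU1, mul_one]

/-- Invertible hermitian matrices are congruent to diagonal matrices of signs. -/
theorem exists_sign_diag {G : Matrix ι ι ℂ} (hG : G.IsHermitian) (hu : IsUnit G) :
    ∃ (S : Matrix ι ι ℂ) (η : ι → ℤˣ), IsUnit S ∧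
      S * G * Sᴴ = Matrix.diagonal fun i => ((((η i : ℤˣ) : ℤ) : ℝ) : ℂ) := by
  classical
  obtain ⟨U, hUd⟩ : ∃ U : Matrix ι ι ℂ, U = (hG.eigenvectorUnitary : Matrix ι ι ℂ) :=
    ⟨_, rfl⟩
  have hU1 : Uᴴ * U = 1 := by
    rw [hUd]; exact Matrix.mem_unitaryGroup_iff'.mp hG.eigenvectorUnitary.2
  have hU2 : U * Uᴴ = 1 := by
    rw [hUd]; exact Matrix.mem_unitaryGroup_iff.mp hG.eigenvectorUnitary.2
  have hspec : G = U * Matrix.diagonal (fun i => (hG.eigenvalues i : ℂ)) * Uᴴ := by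
    rw [hUd]; exact hG.spectral_theorem
  set μ := hG.eigenvalues with hμ
  have hμ0 : ∀ i, μ i ≠ 0 := by
    intro i h0
    have h1 : IsUnit (Matrix.diagonal (fun i => (μ i : ℂ))) := by
      have h2 : Matrix.diagonal (fun i => (μ i : ℂ)) = Uᴴ * G * U := by
        rw [hspec]
        calc _ = (Uᴴ * U) * Matrix.diagonal (fun i => (μ i : ℂ)) * (Uᴴ * U) := by
              rw [hU1, one_mul, mul_one]
          _ = _ := by simp only [mul_assoc]
      rw [h2]
      exact (IsUnit.mul ⟨⟨Uᴴ, U, hU1, hU2⟩, rfl⟩ hu).mul ⟨⟨U, Uᴴ, hU2, hU1⟩, rfl⟩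
    rw [Matrix.isUnit_diagonal, Pi.isUnit_iff] at h1
    have h2 := (h1 i).ne_zero
    rw [h0, Complex.ofReal_zero] at h2
    exact h2 rfl
  let r : ι → ℝ := fun i => (Real.sqrt |μ i|)⁻¹
  have hr0 : ∀ i, r i ≠ 0 := fun i =>
    inv_ne_zero (Real.sqrt_pos.mpr (abs_pos.mpr (hμ0 i))).ne'
  let η : ι → ℤˣ := fun i => if 0 < μ i then 1 else -1
  have hr : ∀ i, r i * μ i * r i = (((η i : ℤˣ) : ℤ) : ℝ) := by
    intro i
    have h3 : 0 < Real.sqrt |μ i| := Real.sqrt_pos.mpr (abs_pos.mpr (hμ0 i))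
    have h4 := Real.mul_self_sqrt (abs_nonneg (μ i))
    have h5 : r i * μ i * r i = μ i / |μ i| := by
      rw [← h4]
      change (Real.sqrt |μ i|)⁻¹ * μ i * (Real.sqrt |μ i|)⁻¹ = _
      field_simp
    rw [h5]
    change _ = (((if 0 < μ i then (1 : ℤˣ) else -1 : ℤˣ) : ℤ) : ℝ)
    split_ifs with h6
    · rw [abs_of_pos h6, div_self h6.ne']; simp
    · have h7 : μ i < 0 := lt_of_le_of_ne (not_lt.mp h6) (hμ0 i)
      rw [abs_of_neg h7, div_neg, div_self h7.ne]; simp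
  refine ⟨Matrix.diagonal (fun i => (r i : ℂ)) * Uᴴ, η, ?_, ?_⟩
  · refine IsUnit.mul ?_ ⟨⟨Uᴴ, U, hU1, hU2⟩, rfl⟩
    rw [Matrix.isUnit_diagonal, Pi.isUnit_iff]
    intro i
    exact (isUnit_iff_ne_zero.mpr (by exact_mod_cast hr0 i))
  · have hdh : (Matrix.diagonal (fun i => (r i : ℂ)))ᴴ = Matrix.diagonal (fun i => (r i : ℂ)) := by
      rw [Matrix.diagonal_conjTranspose]
      congr 1
      funext i
      exact Complex.conj_ofReal _
    rw [Matrix.conjTranspose_mul, Matrix.conjTranspose_conjTranspose, hdh]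
    calc Matrix.diagonal (fun i => (r i : ℂ)) * Uᴴ * G * (U * Matrix.diagonal fun i => (r i : ℂ))
        = Matrix.diagonal (fun i => (r i : ℂ)) * (Uᴴ * U) *
          Matrix.diagonal (fun i => (μ i : ℂ)) * (Uᴴ * U) *
            Matrix.diagonal (fun i => (r i : ℂ)) := by
          rw [hspec]; simp only [mul_assoc]
      _ = _ := by
          rw [hU1, mul_one, mul_one, Matrix.diagonal_mul_diagonal, Matrix.diagonal_mul_diagonal]
          congr 1
          funext i
          rw [← hr i]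
          push_cast
          ring

end mat

/-- Choice of signs. -/
theorem exists_signs {n : ℕ} (p : Fin n → Prop) [DecidablePred p] (η : Fin n → ℤˣ)
    (h : Fintype.card {i // p i} ≤ Fintype.card {i // η i = 1}) :
    ∃ σ : Equiv.Perm (Fin n), ∀ i, p i → η (σ i) = 1 := by
  classical
  obtain ⟨e⟩ := Function.Embedding.nonempty_of_card_le h
  let e' : {i // p i} → Fin n := fun i => (e i).1
  have he' : Function.Injective e' := fun i j hij => e.injective (Subtype.ext hij)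
  let E : {i // p i} ≃ {i // i ∈ Set.range e'} := Equiv.ofInjective e' he'
  refine ⟨E.extendSubtype, fun i hi => ?_⟩
  rw [Equiv.extendSubtype_apply_of_mem _ _ hi]
  exact (e ⟨i, hi⟩).2

end Vale.Agent.P011.RP
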