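import Vale.Agent.P011.RP.Odd
import Vale.Agent.P011.RP.Count

/-!
Rank one forms in odd degree.
-/

open Module Matrix
open scoped ComplexOrder

set_option linter.unusedSectionVars false

namespace Vale.Agent.P011.RP

open Vale.Agent.P011.T2

section

variable {K D : Type} [Field K] [StarRing K] [DivisionRing D] [StarRing D] [Algebra K D]
  [FiniteDimensional K D] [Algebra.IsCentral K D] {n : ℕ}

/-- the norm is a power of the determinant -/
theorem RData.norm_eq (hn : 0 < n) (hdeg : finrank K D = n ^ 2) (R : RData K D n) (x : D) :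
    R.s (Algebra.norm K x) = (R.f x).det ^ n := by
  let _ : Algebra K ℂ := R.s.toAlgebra
  let g : D →ₐ[K] Matrix (Fin n) (Fin n) ℂ := { R.f with
    commutes' := fun k => by
      change R.f (algebraMap K D k) = _
      rw [R.hf, Matrix.algebraMap_eq_diagonal]
      rfl }
  exact Vale.Agent.P011S.SF.norm_eq_det_pow hn hdeg g x

/-- The determinants of congruent symmetric elements have the same sign. -/
theorem RData.CongAt.det_pos {R : RData K D n} {c e : D} (hc : star c = c) (hc0 : c ≠ 0)
    (h : R.CongAt c e) : ∃ r : ℝ, 0 < r ∧ (R.f (c * e)).det = (r : ℂ) := by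
  obtain ⟨Q, hQ, hQe⟩ := h
  have h1 := congrArg Matrix.det hQe
  rw [det_mul, det_mul, det_mul, det_mul, det_conjTranspose] at h1
  have hA0 : R.A.det ≠ 0 := ((Matrix.isUnit_iff_isUnit_det _).mp R.unit).ne_zero
  have hAs : star R.A.det = R.A.det := by rw [← det_conjTranspose, R.hA]
  have hc1 : (R.f c).det ≠ 0 := ((Matrix.isUnit_iff_isUnit_det _).mp (R.f_unit hc0)).ne_zero
  have hQ0 : Q.det ≠ 0 := ((Matrix.isUnit_iff_isUnit_det _).mp hQ).ne_zero
  have hcs : star ((R.f c).det * R.A.det) = (R.f c).det * R.A.det := by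
    have h3 : (R.f c * R.A)ᴴ = R.f c * R.A := by
      rw [conjTranspose_mul, R.hA, ← R.star_f, hc]
    rw [← det_mul, ← det_conjTranspose, h3]
  have h2 : (R.f e).det = (Q.det * star Q.det) * (R.f c).det := by
    apply mul_right_cancel₀ hA0
    rw [← h1]; ring
  refine ⟨‖Q.det * (R.f c).det‖ ^ 2, by
    have := norm_pos_iff.mpr (mul_ne_zero hQ0 hc1)
    positivity, ?_⟩
  have hcr : star (R.f c).det = (R.f c).det := by
    rw [star_mul', hAs] at hcs
    exact mul_right_cancel₀ hA0 hcs
  rw [map_mul, det_mul, h2, Complex.ofReal_pow, ← Complex.mul_conj', map_mul,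
    ← Complex.star_def, hcr]
  ring

end

/-- Elements of the same signatures are congruent up to a totally positive central factor. -/
def HasAdj (K D : Type) [Field K] [StarRing K] [DivisionRing D] [StarRing D] [Algebra K D]
    (n : ℕ) : Prop :=
  ∀ c e : D, star c = c → star e = e → c ≠ 0 → e ≠ 0 → (∀ R : RData K D n, R.CongAt c e) →
    ∃ (μ : K) (t : D), star μ = μ ∧
      (∀ s : K →+* ℂ, (∀ z, s (star z) = star (s z)) → 0 < (s μ).re) ∧ t ≠ 0 ∧
      algebraMap K D μ * e = t * c * star t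

section

variable {K D : Type} [Field K] [NumberField K] [StarRing K] [DivisionRing D] [StarRing D]
  [Algebra K D] [StarModule K D] [FiniteDimensional K D] [Algebra.IsCentral K D]

theorem hasAdj_odd (hK : ∃ k : K, star k ≠ k) {n : ℕ} (hn : Odd n)
    (hdeg : finrank K D = n ^ 2) : HasAdj K D n := by
  classical
  obtain ⟨r, rfl⟩ := hn
  obtain ⟨k, hk⟩ := hK
  have hκ0 : k - star k ≠ 0 := sub_ne_zero.mpr (Ne.symm hk)
  have hκ : star (k - star k) = -(k - star k) := by rw [star_sub, star_star, neg_sub]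
  obtain ⟨E, L, _, _, _, _, _, _, _, _, M, hD, u, d, hQ, hd, -⟩ :=
    exists_MS (D := D) hκ hκ0 (by omega) hdeg
  have hL := lagrProp hQ
  intro c e hc he hc0 he0 hs
  have hfin : FiniteDimensional L D := Module.Finite.of_basis u
  set ν := M.nrm hD u c * M.nrm hD u e with hν
  have hνs : star ν = ν := by
    rw [hν, star_mul', M.nrm_star hD u hc, M.nrm_star hD u he]
  set μ : K := Algebra.norm K (c * e) with hμ
  have hμL : algebraMap K L μ = ν ^ (2 * r + 1) := by
    rw [hμ, M.norm_eq hD u hdeg, M.nrm_mul hD u]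
  have hμD : algebraMap K D μ = M.j (ν ^ (2 * r + 1)) := by
    rw [← hμL, AlgHom.commutes]
  have hμDs : star (algebraMap K D μ) = algebraMap K D μ := by
    rw [hμD, ← M.j_star, star_pow, hνs]
  have hμs : star μ = μ := by
    apply (algebraMap K D).injective
    rw [algebraMap_star_comm, hμDs]
  have hν0 : ν ≠ 0 := mul_ne_zero (M.nrm_ne_zero hD u hc0) (M.nrm_ne_zero hD u he0)
  have hμ0 : algebraMap K D μ ≠ 0 := by
    rw [hμD]
    exact (map_ne_zero M.j).mpr (pow_ne_zero _ hν0)
  have hpos : ∀ s : K →+* ℂ, (∀ z, s (star z) = star (s z)) → 0 < (s μ).re := by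
    intro s hss
    obtain ⟨R, hR⟩ := RData.exists_of (D := D) (by omega) hdeg s hss
    obtain ⟨x, hx, hx'⟩ := (hs R).det_pos hc hc0
    rw [hμ, ← hR, R.norm_eq (by omega) hdeg, hx', ← Complex.ofReal_pow, Complex.ofReal_re]
    positivity
  set e' := algebraMap K D μ * e with he'
  have hse' : star e' = e' := by
    rw [he', star_mul, hμDs, he, Algebra.commutes]
  let cf : Fin (2 * 1) → D := ![c, -e']
  have hcf : ∀ i, star (cf i) = cf i := by
    intro i
    fin_cases i
    · exact hc
    · change star (-e') = -e'; rw [star_neg, hse']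
  have hcf0 : ∀ i, cf i ≠ 0 := by
    intro i
    fin_cases i
    · exact hc0
    · exact neg_ne_zero.mpr (mul_ne_zero hμ0 he0)
  obtain ⟨Λ, hΛ1, hΛ2⟩ := M.lagr_diag hD u hL (s := 1) cf hcf hcf0 (by
    refine ⟨ν ^ (2 * r ^ 2 + 2 * r + 1) * (M.gr u 1).det, ?_, ?_⟩
    · exact mul_ne_zero (pow_ne_zero _ hν0) (M.det_gr_one_ne hD u)
    · have hgs : star (M.gr u 1).det = (M.gr u 1).det := by
        rw [← Matrix.det_conjTranspose, M.gr_star u (star_one D)]
      have hstar : star (ν ^ (2 * r ^ 2 + 2 * r + 1) * (M.gr u 1).det) =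
          ν ^ (2 * r ^ 2 + 2 * r + 1) * (M.gr u 1).det := by
        rw [star_mul', star_pow, hνs, hgs]
      rw [hstar]
      have hprod : ∏ i, (M.rho hD u (cf i)).det = M.nrm hD u c * M.nrm hD u (-e') :=
        Fin.prod_univ_two _
      rw [hprod, M.nrm_neg hD u, he', M.nrm_mul hD u, M.nrm_algebraMap hD u, hμL]
      have h1 : ((-1 : L)) ^ ((2 * r + 1) * 1) = -1 := by
        rw [mul_one, pow_succ, pow_mul]; norm_num
      rw [h1]
      have h2 : (ν ^ (2 * r + 1)) ^ (2 * r + 1) * ν =
          ν ^ (2 * r ^ 2 + 2 * r + 1) * ν ^ (2 * r ^ 2 + 2 * r + 1) := by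
        rw [← pow_mul, ← pow_succ, ← pow_add]
        congr 1
        ring
      have h3 : M.nrm hD u c * M.nrm hD u e = ν := hν.symm
      calc _ = ((ν ^ (2 * r + 1)) ^ (2 * r + 1) * (M.nrm hD u c * M.nrm hD u e)) *
            ((M.gr u 1).det ^ 2) := by ring
        _ = _ := by rw [h3, h2]; ring) (by
    intro φ hφ
    obtain ⟨P, N, P', N', h1, h2, hP, hN, hP', hN'⟩ :=
      sameSig_of_cong M hD u hQ hφ hc hc0 he he0 hs
    have hμp : PosE φ (algebraMap K L μ) := by
      rw [hμL]
      exact (MS.SameSig.nrm_pos M hD u hQ hφ hc he hc0 he0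
        ⟨P, N, P', N', h1, h2, hP, hN, hP', hN'⟩).pow _
    have hev : ∀ z : D, M.p (z * e' * star z) = algebraMap K L μ * M.p (z * e * star z) := by
      intro z
      rw [← M.p_left, AlgHom.commutes, he', ← mul_assoc z, ← Algebra.commutes μ z]
      simp only [mul_assoc]
    have hsumv : ∀ z : Fin (2 * 1) → D, M.p ((MS.dgF cf hcf).h z z) =
        ∑ i, (fun (i : Fin (2 * 1)) (w : D) => M.p (w * cf i * star w)) i (z i) := by
      intro z
      rw [MS.dgF_h, M.p_sum]
    refine ⟨Submodule.pi Set.univ ![P, N'], Submodule.pi Set.univ ![N, P'], ?_, ?_, ?_, ?_⟩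
    · refine le_trans ?_ (finrank_pi_ge (L := L) (D := D) ![P, N'])
      rw [Fin.sum_univ_two]
      change _ ≤ finrank L P + finrank L N'
      omega
    · refine le_trans ?_ (finrank_pi_ge (L := L) (D := D) ![N, P'])
      rw [Fin.sum_univ_two]
      change _ ≤ finrank L N + finrank L P'
      omega
    · intro z hz hz0
      rw [hsumv]
      refine posE_sum (fun (i : Fin (2 * 1)) (w : D) => M.p (w * cf i * star w))
        (fun i => ?_) ![P, N'] ?_ z (fun i => hz i (Set.mem_univ i)) hz0
      · simp only [zero_mul, M.p_zero']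
      · intro i w hw hw0
        fin_cases i
        · exact hP w hw hw0
        · change PosE φ (M.p (w * -e' * star w))
          rw [mul_neg, neg_mul, M.p_neg, hev, ← mul_neg]
          exact hμp.mul (hN' w hw hw0)
    · intro z hz hz0
      rw [hsumv, ← Finset.sum_neg_distrib]
      refine posE_sum (fun (i : Fin (2 * 1)) (w : D) => - M.p (w * cf i * star w))
        (fun i => ?_) ![N, P'] ?_ z (fun i => hz i (Set.mem_univ i)) hz0
      · simp only [zero_mul, M.p_zero', neg_zero]
      · intro i w hw hw0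
        fin_cases i
        · exact hN w hw hw0
        · change PosE φ (-M.p (w * -e' * star w))
          rw [mul_neg, neg_mul, M.p_neg, neg_neg, hev]
          exact hμp.mul (hP' w hw hw0))
  have hΛ : Λ ≠ ⊥ := by
    rintro rfl
    rw [finrank_bot] at hΛ1
    omega
  obtain ⟨z, hz, hz0⟩ := (Submodule.ne_bot_iff _).mp hΛ
  have hval := hΛ2 z hz z hz
  rw [MS.dgF_h, Fin.sum_univ_two] at hval
  change z 0 * c * star (z 0) + z 1 * -e' * star (z 1) = 0 at hval
  rw [mul_neg, neg_mul, ← sub_eq_add_neg, sub_eq_zero] at hval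
  have h1 : z 1 ≠ 0 := by
    intro h1
    apply hz0
    rw [h1, zero_mul, zero_mul] at hval
    have h2 : z 0 = 0 := by
      rcases mul_eq_zero.mp hval with h3 | h3
      · exact (mul_eq_zero.mp h3).resolve_right hc0
      · exact star_eq_zero.mp h3
    funext i
    fin_cases i
    · exact h2
    · exact h1
  have h0 : z 0 ≠ 0 := by
    intro h0
    rw [h0, zero_mul, zero_mul] at hval
    rcases mul_eq_zero.mp hval.symm with h3 | h3
    · exact (mul_ne_zero h1 (mul_ne_zero hμ0 he0)) h3
    · exact h1 (star_eq_zero.mp h3)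
  refine ⟨μ, (z 1)⁻¹ * z 0, hμs, hpos, mul_ne_zero (inv_ne_zero h1) h0, ?_⟩
  rw [star_mul, star_inv₀]
  have hs1 : star (z 1) ≠ 0 := star_ne_zero.mpr h1
  calc e' = ((z 1)⁻¹ * z 1) * e' * (star (z 1) * (star (z 1))⁻¹) := by
        rw [inv_mul_cancel₀ h1, mul_inv_cancel₀ hs1, one_mul, mul_one]
    _ = (z 1)⁻¹ * (z 1 * e' * star (z 1)) * (star (z 1))⁻¹ := by simp only [mul_assoc]
    _ = _ := by rw [← hval]; simp only [mul_assoc]

end

end Vale.Agent.P011.RP
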