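import Mathlib
import Vale.Agent.P011.Bdl.B2

/-!
Real places of the fixed field that do not split: the completions of a division algebra with
involution of the second kind.
-/

open Module Matrix
open scoped TensorProduct ComplexOrder

set_option linter.unusedSectionVars false

namespace Vale.Agent.P011.RP

/-- A complex embedding of `K` compatible with the involutions, a splitting of `D` over it, and
the hermitian matrix which describes the involution of `D`. -/
structure RData (K D : Type) [Field K] [StarRing K] [DivisionRing D] [StarRing D] [Algebra K D]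
    (n : ℕ) where
  s : K →+* ℂ
  hs : ∀ z, s (star z) = star (s z)
  f : D →+* Matrix (Fin n) (Fin n) ℂ
  hf : ∀ k, f (algebraMap K D k) = Matrix.scalar (Fin n) (s k)
  A : Matrix (Fin n) (Fin n) ℂ
  hA : Aᴴ = A
  unit : IsUnit A
  star_f : ∀ x, f (star x) * A = A * (f x)ᴴ

section

variable {K D : Type} [Field K] [DivisionRing D] [Algebra K D] [FiniteDimensional K D]
  [Algebra.IsCentral K D] {n : ℕ}

/-- The images of a basis under a splitting form a basis. -/
theorem span_split (hn : 0 < n) (hdeg : finrank K D = n ^ 2) {Ω : Type} [Field Ω] [Algebra K Ω]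
    (f : D →ₐ[K] Matrix (Fin n) (Fin n) Ω) :
    Submodule.span Ω (Set.range f) = ⊤ := by
  let b := Module.finBasis K D
  have h1 := Vale.Agent.P011S.SF.split_indep hn f b b.linearIndependent
  have h2 := h1.span_eq_top_of_card_eq_finrank' (by
    rw [Fintype.card_fin, Module.finrank_matrix, Fintype.card_fin, hdeg, Module.finrank_self,
      mul_one, pow_two])
  rw [eq_top_iff, ← h2]
  apply Submodule.span_mono
  rintro _ ⟨i, rfl⟩
  exact ⟨b i, rfl⟩

/-- a matrix commuting with the image of a splitting is a scalar -/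
theorem scalar_of_comm (hn : 0 < n) (hdeg : finrank K D = n ^ 2) {Ω : Type} [Field Ω]
    [Algebra K Ω] (f : D →ₐ[K] Matrix (Fin n) (Fin n) Ω) {X : Matrix (Fin n) (Fin n) Ω}
    (hX : ∀ x, f x * X = X * f x) : ∃ c : Ω, X = Matrix.scalar (Fin n) c := by
  have h1 : ∀ Y : Matrix (Fin n) (Fin n) Ω, Y * X = X * Y := by
    intro Y
    have hY : Y ∈ Submodule.span Ω (Set.range f) := by
      rw [span_split hn hdeg f]; exact Submodule.mem_top
    induction hY using Submodule.span_induction with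
    | mem x hx => obtain ⟨x, rfl⟩ := hx; exact hX x
    | zero => rw [zero_mul, mul_zero]
    | add a b _ _ ha hb => rw [add_mul, mul_add, ha, hb]
    | smul c a _ ha => rw [smul_mul_assoc, mul_smul_comm, ha]
  have h2 : X ∈ Set.center (Matrix (Fin n) (Fin n) Ω) := by
    rw [Semigroup.mem_center_iff]
    exact h1
  rw [Matrix.center_eq_range] at h2
  obtain ⟨c, hc⟩ := h2
  exact ⟨c, hc.symm⟩

/-- Two splittings over the same field are conjugate. -/
theorem skolem (hn : 0 < n) (hdeg : finrank K D = n ^ 2) {Ω : Type} [Field Ω] [Algebra K Ω]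
    (f g : D →ₐ[K] Matrix (Fin n) (Fin n) Ω) :
    ∃ S : Matrix (Fin n) (Fin n) Ω, IsUnit S ∧ ∀ x, g x * S = S * f x := by
  have : IsSimpleRing (Ω ⊗[K] D) := Vale.Agent.P011S.simple_tensor
  have hne : Nonempty (Fin n) := ⟨⟨0, hn⟩⟩
  have hbij : ∀ h : D →ₐ[K] Matrix (Fin n) (Fin n) Ω,
      Function.Bijective (Vale.Agent.P011S.bcf (E := Ω) h) := by
    intro h
    have hinj : Function.Injective (Vale.Agent.P011S.bcf (E := Ω) h) :=
      RingHom.injective (Vale.Agent.P011S.bcf (E := Ω) h).toRingHom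
    refine ⟨hinj, ?_⟩
    have h1 : finrank Ω (Ω ⊗[K] D) = finrank Ω (Matrix (Fin n) (Fin n) Ω) := by
      rw [Module.finrank_baseChange, hdeg, Module.finrank_matrix, Fintype.card_fin,
        Module.finrank_self, mul_one, pow_two]
    exact (LinearMap.injective_iff_surjective_of_finrank_eq_finrank
      (f := (Vale.Agent.P011S.bcf (E := Ω) h).toLinearMap) h1).mp hinj
  let F := AlgEquiv.ofBijective _ (hbij f)
  let G := AlgEquiv.ofBijective _ (hbij g)
  let Φ : End Ω (Fin n → Ω) ≃ₐ[Ω] End Ω (Fin n → Ω) :=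
    (Matrix.toLinAlgEquiv' (n := Fin n) (R := Ω)).symm.trans ((F.symm.trans G).trans
      (Matrix.toLinAlgEquiv' (n := Fin n) (R := Ω)))
  obtain ⟨T, hT⟩ := AlgEquiv.eq_linearEquivConjAlgEquiv Φ
  refine ⟨LinearMap.toMatrix' T.toLinearMap, ?_, ?_⟩
  · have h1 : LinearMap.toMatrix' T.toLinearMap * LinearMap.toMatrix' T.symm.toLinearMap = 1 := by
      rw [← LinearMap.toMatrix'_comp]
      simp
    have h2 : LinearMap.toMatrix' T.symm.toLinearMap * LinearMap.toMatrix' T.toLinearMap = 1 := by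
      rw [← LinearMap.toMatrix'_comp]
      simp
    exact ⟨⟨_, _, h1, h2⟩, rfl⟩
  · intro x
    have hF : F (1 ⊗ₜ x) = f x := by
      rw [AlgEquiv.ofBijective_apply]
      exact Vale.Agent.P011S.bcf_one_tmul f x
    have hG : G (1 ⊗ₜ x) = g x := by
      rw [AlgEquiv.ofBijective_apply]
      exact Vale.Agent.P011S.bcf_one_tmul g x
    have h1 : Φ (Matrix.toLin' (f x)) = Matrix.toLin' (g x) := by
      change (Matrix.toLinAlgEquiv' (n := Fin n) (R := Ω)) (G (F.symm
        ((Matrix.toLinAlgEquiv' (n := Fin n) (R := Ω)).symm (Matrix.toLin' (f x))))) = _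
      have h2 : (Matrix.toLinAlgEquiv' (n := Fin n) (R := Ω)).symm (Matrix.toLin' (f x)) = f x :=
        (Matrix.toLinAlgEquiv' (n := Fin n) (R := Ω)).symm_apply_apply (f x)
      rw [h2, ← hF, AlgEquiv.symm_apply_apply, hG]
      rfl
    rw [hT] at h1
    have h3 : (Matrix.toLin' (g x)) ∘ₗ T.toLinearMap = T.toLinearMap ∘ₗ Matrix.toLin' (f x) := by
      rw [← h1]
      ext v i
      simp [LinearEquiv.conjAlgEquiv_apply]
    have h4 := congrArg LinearMap.toMatrix' h3
    rw [LinearMap.toMatrix'_comp, LinearMap.toMatrix'_comp, LinearMap.toMatrix'_toLin',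
      LinearMap.toMatrix'_toLin'] at h4
    exact h4

end

namespace RData

variable {K D : Type} [Field K] [StarRing K] [DivisionRing D] [StarRing D] [Algebra K D]
  [StarModule K D] [FiniteDimensional K D] [Algebra.IsCentral K D] {n : ℕ}

/-- Existence of the data at a place. -/
theorem exists_of (hn : 0 < n) (hdeg : finrank K D = n ^ 2) (s : K →+* ℂ)
    (hs : ∀ z, s (star z) = star (s z)) : ∃ R : RData K D n, R.s = s := by
  let _ : Algebra K ℂ := s.toAlgebra
  obtain ⟨f⟩ := Vale.Agent.P011S.exists_split (K := K) (D := D) hdeg ℂ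
  have hfs : ∀ k, f (algebraMap K D k) = Matrix.scalar (Fin n) (s k) := by
    intro k
    rw [AlgHom.commutes, Matrix.algebraMap_eq_diagonal]
    rfl
  let g : D →ₐ[K] Matrix (Fin n) (Fin n) ℂ :=
    { toFun := fun x => (f (star x))ᴴ
      map_one' := by rw [star_one, map_one, Matrix.conjTranspose_one]
      map_zero' := by rw [star_zero, map_zero, Matrix.conjTranspose_zero]
      map_add' := fun x y => by rw [star_add, map_add, Matrix.conjTranspose_add]
      map_mul' := fun x y => by rw [star_mul, map_mul, Matrix.conjTranspose_mul]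
      commutes' := fun k => by
        rw [← algebraMap_star_comm, hfs, Matrix.algebraMap_eq_diagonal]
        change (Matrix.diagonal fun _ => s (star k))ᴴ = _
        rw [Matrix.diagonal_conjTranspose]
        congr 1
        funext i
        change star (s (star k)) = s k
        rw [hs, star_star] }
  have hg : ∀ x, g x = (f (star x))ᴴ := fun x => rfl
  obtain ⟨P, hP, hPf⟩ := skolem hn hdeg f g
  obtain ⟨Q, hQ⟩ := hP
  -- `P f(x) = f(x*)ᴴ P`
  obtain ⟨A0, hA0d⟩ : ∃ A0 : Matrix (Fin n) (Fin n) ℂ,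
    A0 = ((Q⁻¹ : (Matrix (Fin n) (Fin n) ℂ)ˣ) : Matrix _ _ ℂ)ᴴ := ⟨_, rfl⟩
  have hPQ : P = (Q : Matrix _ _ ℂ) := hQ.symm
  have hQ1 : (Q : Matrix (Fin n) (Fin n) ℂ)ᴴ * A0 = 1 := by
    rw [hA0d, ← Matrix.conjTranspose_mul, Units.inv_mul, Matrix.conjTranspose_one]
  have hQ2 : A0 * (Q : Matrix (Fin n) (Fin n) ℂ)ᴴ = 1 := by
    rw [hA0d, ← Matrix.conjTranspose_mul, Units.mul_inv, Matrix.conjTranspose_one]
  have hA0 : ∀ x, f (star x) * A0 = A0 * (f x)ᴴ := by
    intro x
    have h1 := hPf x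
    rw [hg, hPQ] at h1
    have h2 := congrArg Matrix.conjTranspose h1
    rw [Matrix.conjTranspose_mul, Matrix.conjTranspose_mul, Matrix.conjTranspose_conjTranspose]
      at h2
    calc f (star x) * A0 = A0 * ((Q : Matrix (Fin n) (Fin n) ℂ)ᴴ * f (star x)) * A0 := by
          rw [← mul_assoc A0, hQ2, one_mul]
      _ = A0 * ((f x)ᴴ * (Q : Matrix (Fin n) (Fin n) ℂ)ᴴ) * A0 := by rw [h2]
      _ = _ := by rw [mul_assoc, mul_assoc, hQ1, mul_one]
  have hA0' : ∀ x, f (star x) * A0ᴴ = A0ᴴ * (f x)ᴴ := by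
    intro x
    have h1 := congrArg Matrix.conjTranspose (hA0 (star x))
    rw [star_star, Matrix.conjTranspose_mul, Matrix.conjTranspose_mul,
      Matrix.conjTranspose_conjTranspose] at h1
    exact h1.symm
  -- a combination which is invertible and hermitian
  obtain ⟨c, hc⟩ : ∃ c : ℂ, A0ᴴ = c • A0 := by
    have h1 : ∀ x, f x * (A0ᴴ * (Q : Matrix (Fin n) (Fin n) ℂ)ᴴ) =
        (A0ᴴ * (Q : Matrix (Fin n) (Fin n) ℂ)ᴴ) * f x := by
      intro x
      have h2 := hA0' (star x)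
      rw [star_star] at h2
      have h3 := hA0 (star x)
      rw [star_star] at h3
      have h4 : (Q : Matrix (Fin n) (Fin n) ℂ)ᴴ * f x = (f (star x))ᴴ *
          (Q : Matrix (Fin n) (Fin n) ℂ)ᴴ := by
        calc (Q : Matrix (Fin n) (Fin n) ℂ)ᴴ * f x
            = (Q : Matrix (Fin n) (Fin n) ℂ)ᴴ * (f x * A0) * (Q : Matrix (Fin n) (Fin n) ℂ)ᴴ := by
              rw [mul_assoc, mul_assoc, hQ2, mul_one]
          _ = _ := by rw [h3, ← mul_assoc, hQ1, one_mul]
      rw [← mul_assoc, h2, mul_assoc, ← h4, mul_assoc]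
    obtain ⟨c, hc⟩ := scalar_of_comm hn hdeg f h1
    refine ⟨c, ?_⟩
    calc A0ᴴ = A0ᴴ * ((Q : Matrix (Fin n) (Fin n) ℂ)ᴴ * A0) := by rw [hQ1, mul_one]
      _ = (A0ᴴ * (Q : Matrix (Fin n) (Fin n) ℂ)ᴴ) * A0 := by rw [mul_assoc]
      _ = _ := by rw [hc, Matrix.scalar_apply, ← Matrix.smul_eq_diagonal_mul]
  have hA0u : IsUnit A0 := ⟨⟨A0, (Q : Matrix (Fin n) (Fin n) ℂ)ᴴ, hQ2, hQ1⟩, rfl⟩
  have hA00 : A0 ≠ 0 := by
    have hne : Nonempty (Fin n) := ⟨⟨0, hn⟩⟩
    exact hA0u.ne_zero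
  have hcc : star c * c = 1 := by
    have h1 := congrArg Matrix.conjTranspose hc
    rw [Matrix.conjTranspose_conjTranspose, Matrix.conjTranspose_smul, hc, smul_smul] at h1
    have h2 : (star c * c - 1) • A0 = 0 := by rw [sub_smul, one_smul, ← h1, sub_self]
    rcases smul_eq_zero.mp h2 with h3 | h3
    · exact sub_eq_zero.mp h3
    · exact absurd h3 hA00
  obtain ⟨t, ht0, ht⟩ : ∃ t : ℂ, t ≠ 0 ∧ star t * c = t := by
    by_cases h : (1 : ℂ) + c = 0
    · refine ⟨Complex.I, Complex.I_ne_zero, ?_⟩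
      have : c = -1 := by linear_combination h
      rw [this]
      simp
    · refine ⟨1 + c, h, ?_⟩
      rw [star_add, star_one, add_mul, one_mul, hcc, add_comm]
  exact ⟨{ s := s, hs := hs, f := f, hf := hfs, A := t • A0
           hA := by rw [Matrix.conjTranspose_smul, hc, smul_smul, ht]
           unit := ⟨⟨t • A0, t⁻¹ • (Q : Matrix (Fin n) (Fin n) ℂ)ᴴ, by
               rw [smul_mul_smul_comm, hQ2, mul_inv_cancel₀ ht0, one_smul], by
               rw [smul_mul_smul_comm, hQ1, inv_mul_cancel₀ ht0, one_smul]⟩, rfl⟩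
           star_f := fun x => by
             change f (star x) * _ = _ * (f x)ᴴ
             rw [mul_smul_comm, hA0, smul_mul_assoc] }, rfl⟩

theorem A_ne_zero (hn : 0 < n) (R : RData K D n) : R.A ≠ 0 := by
  have hne : Nonempty (Fin n) := ⟨⟨0, hn⟩⟩
  exact R.unit.ne_zero

/-- Uniqueness of the data at a place. -/
theorem unique (hn : 0 < n) (hdeg : finrank K D = n ^ 2) (R R' : RData K D n)
    (h : R.s = R'.s) : ∃ (S : Matrix (Fin n) (Fin n) ℂ) (c : ℝ), IsUnit S ∧ c ≠ 0 ∧
      (∀ x, R'.f x * S = S * R.f x) ∧ R'.A = (c : ℂ) • (S * R.A * Sᴴ) := by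
  let _ : Algebra K ℂ := R.s.toAlgebra
  let f : D →ₐ[K] Matrix (Fin n) (Fin n) ℂ := { R.f with
    commutes' := fun k => by
      change R.f (algebraMap K D k) = _
      rw [R.hf, Matrix.algebraMap_eq_diagonal]
      rfl }
  let g : D →ₐ[K] Matrix (Fin n) (Fin n) ℂ := { R'.f with
    commutes' := fun k => by
      change R'.f (algebraMap K D k) = _
      rw [R'.hf, Matrix.algebraMap_eq_diagonal, ← h]
      rfl }
  obtain ⟨S, hS, hSf⟩ := skolem hn hdeg f g
  have hSf' : ∀ x, R'.f x * S = S * R.f x := hSf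
  obtain ⟨Q, hQ⟩ := hS
  obtain ⟨T, hT⟩ : ∃ T : Matrix (Fin n) (Fin n) ℂ, T = ((Q⁻¹ : (Matrix (Fin n) (Fin n) ℂ)ˣ) :
    Matrix _ _ ℂ) := ⟨_, rfl⟩
  have hST : S * T = 1 := by rw [hT, ← hQ, Units.mul_inv]
  have hTS : T * S = 1 := by rw [hT, ← hQ, Units.inv_mul]
  obtain ⟨U, hU⟩ := R.unit
  obtain ⟨C, hC⟩ : ∃ C : Matrix (Fin n) (Fin n) ℂ, C = ((U⁻¹ : (Matrix (Fin n) (Fin n) ℂ)ˣ) :
    Matrix _ _ ℂ) := ⟨_, rfl⟩
  have hAC : R.A * C = 1 := by rw [hC, ← hU, Units.mul_inv]
  have hCA : C * R.A = 1 := by rw [hC, ← hU, Units.inv_mul]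
  -- `B = S A Sᴴ` and its inverse
  have hB : ∀ x, R'.f (star x) * (S * R.A * Sᴴ) = (S * R.A * Sᴴ) * (R'.f x)ᴴ := by
    intro x
    have h1 : (R'.f x * S)ᴴ = (S * R.f x)ᴴ := by rw [hSf' x]
    rw [Matrix.conjTranspose_mul, Matrix.conjTranspose_mul] at h1
    calc R'.f (star x) * (S * R.A * Sᴴ) = (R'.f (star x) * S) * R.A * Sᴴ := by
          simp only [mul_assoc]
      _ = S * (R.f (star x) * R.A) * Sᴴ := by rw [hSf']; simp only [mul_assoc]
      _ = S * R.A * ((R.f x)ᴴ * Sᴴ) := by rw [R.star_f]; simp only [mul_assoc]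
      _ = _ := by rw [← h1]; simp only [mul_assoc]
  have hBi : (S * R.A * Sᴴ) * (Tᴴ * C * T) = 1 := by
    have h1 : Sᴴ * Tᴴ = 1 := by rw [← Matrix.conjTranspose_mul, hTS, Matrix.conjTranspose_one]
    calc (S * R.A * Sᴴ) * (Tᴴ * C * T) = S * (R.A * ((Sᴴ * Tᴴ) * C)) * T := by
          simp only [mul_assoc]
      _ = 1 := by rw [h1, one_mul, hAC, mul_one, hST]
  have hBi' : (Tᴴ * C * T) * (S * R.A * Sᴴ) = 1 := by
    have h1 : Tᴴ * Sᴴ = 1 := by rw [← Matrix.conjTranspose_mul, hST, Matrix.conjTranspose_one]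
    calc (Tᴴ * C * T) * (S * R.A * Sᴴ) = Tᴴ * (C * ((T * S) * R.A)) * Sᴴ := by
          simp only [mul_assoc]
      _ = 1 := by rw [hTS, one_mul, hCA, mul_one, h1]
  obtain ⟨c, hc⟩ := scalar_of_comm hn hdeg g (X := R'.A * (Tᴴ * C * T)) (by
    intro x
    change R'.f x * (R'.A * (Tᴴ * C * T)) = R'.A * (Tᴴ * C * T) * R'.f x
    have h1 := R'.star_f (star x)
    have h2 := hB (star x)
    rw [star_star] at h1 h2
    have h3 : (R'.f (star x))ᴴ * (Tᴴ * C * T) = (Tᴴ * C * T) * R'.f x := by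
      calc (R'.f (star x))ᴴ * (Tᴴ * C * T)
          = ((Tᴴ * C * T) * (S * R.A * Sᴴ)) * (R'.f (star x))ᴴ * (Tᴴ * C * T) := by
            rw [hBi', one_mul]
        _ = (Tᴴ * C * T) * ((S * R.A * Sᴴ) * (R'.f (star x))ᴴ) * (Tᴴ * C * T) := by
            simp only [mul_assoc]
        _ = (Tᴴ * C * T) * R'.f x * ((S * R.A * Sᴴ) * (Tᴴ * C * T)) := by
            rw [← h2]; simp only [mul_assoc]
        _ = _ := by rw [hBi, mul_one]
    rw [← mul_assoc, h1, mul_assoc, h3]
    simp only [mul_assoc])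
  have hA' : R'.A = c • (S * R.A * Sᴴ) := by
    calc R'.A = R'.A * ((Tᴴ * C * T) * (S * R.A * Sᴴ)) := by rw [hBi', mul_one]
      _ = (R'.A * (Tᴴ * C * T)) * (S * R.A * Sᴴ) := by simp only [mul_assoc]
      _ = _ := by rw [hc, Matrix.scalar_apply, ← Matrix.smul_eq_diagonal_mul]
  have hBh : (S * R.A * Sᴴ)ᴴ = S * R.A * Sᴴ := by
    rw [Matrix.conjTranspose_mul, Matrix.conjTranspose_mul, Matrix.conjTranspose_conjTranspose,
      R.hA, mul_assoc]
  have hB0 : S * R.A * Sᴴ ≠ 0 := by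
    intro h0
    rw [h0, smul_zero] at hA'
    exact R'.A_ne_zero hn hA'
  have hcc : star c = c := by
    have h1 := R'.hA
    rw [hA', Matrix.conjTranspose_smul, hBh] at h1
    have h2 : (star c - c) • (S * R.A * Sᴴ) = 0 := by rw [sub_smul, h1, sub_self]
    rcases smul_eq_zero.mp h2 with h3 | h3
    · exact sub_eq_zero.mp h3
    · exact absurd h3 hB0
  have hcre : ((c.re : ℝ) : ℂ) = c := Complex.conj_eq_iff_re.mp hcc
  refine ⟨S, c.re, ⟨Q, hQ⟩, ?_, hSf', ?_⟩
  · intro h0
    rw [h0, Complex.ofReal_zero] at hcre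
    rw [← hcre, zero_smul] at hA'
    exact R'.A_ne_zero hn hA'
  · rw [hcre]; exact hA'

/-- positivity of a symmetric element at a place -/
def PosAt (R : RData K D n) (e : D) : Prop := (R.f e * R.A).PosDef

theorem isHermitian (R : RData K D n) {e : D} (he : star e = e) : (R.f e * R.A).IsHermitian := by
  rw [Matrix.IsHermitian, Matrix.conjTranspose_mul, R.hA, ← R.star_f, he]

/-- positivity does not depend on the data, if both are positive -/
theorem PosAt.congr (hn : 0 < n) (hdeg : finrank K D = n ^ 2) {R R' : RData K D n}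
    (h : R.s = R'.s) (hR : R.A.PosDef) (hR' : R'.A.PosDef) {e : D} (he : R.PosAt e) :
    R'.PosAt e := by
  obtain ⟨S, c, hS, hc0, hSf, hA⟩ := unique hn hdeg R R' h
  have hc : 0 < c := by
    have h1 : (S * R.A * Sᴴ).PosDef := (Matrix.IsUnit.posDef_star_right_conjugate_iff hS).mpr hR
    have hne : Nonempty (Fin n) := ⟨⟨0, hn⟩⟩
    have h2 := hR'.diag_pos (i := ⟨0, hn⟩)
    have h3 := h1.diag_pos (i := ⟨0, hn⟩)
    rw [hA, Matrix.smul_apply, smul_eq_mul] at h2
    have h4 := (Complex.lt_def.mp h2).1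
    have h5 := (Complex.lt_def.mp h3).1
    rw [Complex.re_ofReal_mul] at h4
    simp only [Complex.zero_re] at h4 h5
    exact (pos_iff_pos_of_mul_pos h4).mpr h5
  have h1 : R'.f e * R'.A = (c : ℂ) • (S * (R.f e * R.A) * Sᴴ) := by
    rw [hA, mul_smul_comm]
    congr 1
    rw [← mul_assoc, ← mul_assoc, hSf]
    simp only [mul_assoc]
  rw [PosAt, h1]
  have h2 : (S * (R.f e * R.A) * Sᴴ).PosDef :=
    (Matrix.IsUnit.posDef_star_right_conjugate_iff hS).mpr he
  exact h2.smul (by exact_mod_cast hc)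

end RData

end Vale.Agent.P011.RP
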