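import Vale.Agent.P011.RP.Final2
import Vale.Agent.P011.Even.R2

/-!
The special unitary group of an anisotropic hermitian form of rank at least four over a division
algebra of arbitrary degree over a number field.
-/

open Module Matrix

namespace Vale.Agent.P011.RP

open Vale.Agent.P011S Vale.Agent.P011.H402 Vale.Agent.P011.T2

variable {K D : Type} [Field K] [NumberField K] [StarRing K] [DivisionRing D] [StarRing D]
  [Algebra K D] [StarModule K D] [FiniteDimensional K D] [Algebra.IsCentral K D]

/-- Normal subgroups, division algebras of arbitrary degree. -/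
theorem normal_every (hK : ∃ k : K, star k ≠ k) {n : ℕ} (hn : 0 < n)
    (hdeg : finrank K D = n ^ 2)
    {F : Type} [Field F] [Algebra K F] (f : D →ₐ[K] Matrix (Fin n) (Fin n) F)
    {m : ℕ} (hm : 4 ≤ m) (H : Matrix (Fin m) (Fin m) D) (hH : IsAnisotropicForm H)
    (N : Subgroup (SU f H)) [N.Normal] :
    N ≤ Subgroup.center (SU f H) ∨
      (ContainsCommutators f H N ∧ IsQuotientOfSUK f (SU f H ⧸ N) ∧
        (Squarefree n → N = ⊤)) :=
  normal_of_R2 hK hn hdeg (fun a ha0 ha =>
    @Even.hasR2 K D _ _ _ _ (twist a ha0 ha) _ (twist_module a ha0 ha) _ _ hK n hn hdeg)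
    f hm H hH N

/-- All clauses, division algebras of arbitrary degree. -/
theorem clauses_every (hK : ∃ k : K, star k ≠ k) {n : ℕ} (hn : 0 < n)
    (hdeg : finrank K D = n ^ 2)
    {F : Type} [Field F] [Algebra K F] (f : D →ₐ[K] Matrix (Fin n) (Fin n) F)
    {m : ℕ} (hm : 4 ≤ m) (H : Matrix (Fin m) (Fin m) D) (hH : IsAnisotropicForm H) :
    AllClauses f H :=
  clauses_of_R2 hK hn hdeg (fun a ha0 ha =>
    @Even.hasR2 K D _ _ _ _ (twist a ha0 ha) _ (twist_module a ha0 ha) _ _ hK n hn hdeg)
    f hm H hH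

end Vale.Agent.P011.RP
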