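import Vale.Agent.P011.RP.Iface
import Vale.Agent.P011.T2.MaxSub
import Vale.Agent.P011.T2.Lagr

/-!
Signatures computed over a self-adjoint maximal subfield.
-/

open Module Matrix
open scoped ComplexOrder

set_option linter.unusedSectionVars false

namespace Vale.Agent.P011.RP

open Vale.Agent.P011.T2

/-- the extension of a real place that does not split -/
theorem exists_psi {E L : Type} [Field E] [Field L] [CharZero L] [StarRing L] [Algebra E L]
    [Algebra.IsAlgebraic E L] {d : E} (hQ : QuadL E L d) {φ : E →+* ℝ} (hφ : φ d < 0) :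
    ∃ ψ : L →+* ℂ, (∀ e, ψ (algebraMap E L e) = ((φ e : ℝ) : ℂ)) ∧
      ∀ l, ψ (star l) = star (ψ l) := by
  obtain ⟨θ, hθ0, hθ, hθd⟩ := hQ.gen
  let _ : Algebra E ℂ := (Complex.ofRealHom.comp φ).toAlgebra
  let ψ : L →ₐ[E] ℂ := IsAlgClosed.lift
  have hψ : ∀ e, ψ (algebraMap E L e) = ((φ e : ℝ) : ℂ) := fun e => ψ.commutes e
  have h1 : ψ θ ^ 2 = ((φ d : ℝ) : ℂ) := by rw [← map_pow, hθd, hψ]
  have h2 : star (ψ θ) = - ψ θ := by
    have h3 : (ψ θ).re = 0 := by
      have h4 := congrArg Complex.im h1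
      have h5 := congrArg Complex.re h1
      rw [pow_two, Complex.mul_im, Complex.ofReal_im] at h4
      rw [pow_two, Complex.mul_re, Complex.ofReal_re] at h5
      by_contra hre
      have h6 : (ψ θ).im = 0 := by
        have : (ψ θ).re * (2 * (ψ θ).im) = 0 := by linarith
        rcases mul_eq_zero.mp this with h | h
        · exact absurd h hre
        · linarith
      rw [h6] at h5
      nlinarith [mul_self_nonneg (ψ θ).re]
    apply Complex.ext
    · rw [Complex.star_def, Complex.conj_re, Complex.neg_re, h3, neg_zero]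
    · rw [Complex.star_def, Complex.conj_im, Complex.neg_im]
  refine ⟨ψ, hψ, fun x => ?_⟩
  obtain ⟨p, hp⟩ := hQ.fix ((x + star x) / 2) (by
    rw [star_div₀, star_add, star_star, star_ofNat, add_comm])
  obtain ⟨r, hr⟩ := hQ.fix ((x - star x) / (2 * θ)) (by
    rw [star_div₀, star_sub, star_star, star_mul', star_ofNat, hθ, mul_neg, div_neg,
      ← neg_div, neg_sub])
  have hx1 : x = algebraMap E L p + algebraMap E L r * θ := by
    rw [hp, hr]; field_simp; ring
  have hx2 : star x = algebraMap E L p - algebraMap E L r * θ := by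
    rw [hp, hr]; field_simp; ring
  change ψ (star x) = star (ψ x)
  rw [hx2]
  conv_rhs => rw [hx1]
  rw [map_sub, map_add, map_mul, hψ, hψ, star_add, star_mul', h2, Complex.star_def,
    Complex.conj_ofReal, Complex.conj_ofReal]
  ring

section

variable {K D E L : Type} [Field K] [StarRing K] [DivisionRing D] [StarRing D] [Algebra K D]
  [StarModule K D] [Field E] [Field L] [StarRing L] [Algebra E L] [Algebra K L] {n : ℕ}
  (M : MS K D E L n) [Module L D] (hD : ∀ (l : L) (x : D), l • x = M.j l * x)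
  (u : Basis (Fin n) L D)

theorem gr_conj (w : Fin n → D) (x : D) : (M.gr w x)ᴴ = M.gr w (star x) := by
  ext a b
  rw [Matrix.conjTranspose_apply, MS.gr, MS.gr, Matrix.of_apply, Matrix.of_apply, ← M.p_star,
    star_mul, star_mul, star_star, mul_assoc]

/-- the data at a place, computed over the subfield -/
noncomputable def rdata (ψ : L →+* ℂ) (hψ : ∀ l, ψ (star l) = star (ψ l)) : RData K D n where
  s := ψ.comp (algebraMap K L)
  hs z := by
    have h1 : star (algebraMap K L z) = algebraMap K L (star z) := by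
      apply M.j.toRingHom.injective
      change M.j (star (algebraMap K L z)) = M.j (algebraMap K L (star z))
      rw [M.j_star, AlgHom.commutes, AlgHom.commutes, algebraMap_star_comm]
    rw [RingHom.comp_apply, RingHom.comp_apply, ← hψ, h1]
  f := ψ.mapMatrix.comp (M.rho hD u).toRingHom
  hf k := by
    change ψ.mapMatrix (M.rho hD u (algebraMap K D k)) = _
    rw [AlgHom.commutes, Matrix.algebraMap_eq_diagonal]
    ext a b
    rw [RingHom.mapMatrix_apply, Matrix.map_apply, Matrix.scalar_apply, Matrix.diagonal_apply,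
      Matrix.diagonal_apply]
    split_ifs
    · rfl
    · exact map_zero ψ
  A := ψ.mapMatrix (M.gr u 1)
  hA := by
    rw [← star_one D] 
    conv_rhs => rw [star_one, ← M.gr_star u (star_one D)]
    ext a b
    rw [Matrix.conjTranspose_apply, RingHom.mapMatrix_apply, RingHom.mapMatrix_apply,
      Matrix.map_apply, Matrix.map_apply, Matrix.conjTranspose_apply, ← hψ, star_one]
  unit := by
    have h1 : IsUnit (M.gr u 1) := by
      rw [Matrix.isUnit_iff_isUnit_det]
      exact (M.det_gr_one_ne hD u).isUnit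
    exact h1.map ψ.mapMatrix
  star_f x := by
    change ψ.mapMatrix (M.rho hD u (star x)) * ψ.mapMatrix (M.gr u 1) =
      ψ.mapMatrix (M.gr u 1) * (ψ.mapMatrix (M.rho hD u x))ᴴ
    have h1 : (ψ.mapMatrix (M.rho hD u x))ᴴ = ψ.mapMatrix ((M.rho hD u x)ᴴ) := by
      ext a b
      rw [Matrix.conjTranspose_apply, RingHom.mapMatrix_apply, RingHom.mapMatrix_apply,
        Matrix.map_apply, Matrix.map_apply, Matrix.conjTranspose_apply, ← hψ]
    rw [h1, ← map_mul, ← map_mul]
    congr 1
    rw [← M.gr_eq hD u, ← gr_conj, M.gr_eq hD u x, Matrix.conjTranspose_mul,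
      M.gr_star u (star_one D)]

theorem rdata_f (ψ : L →+* ℂ) (hψ : ∀ l, ψ (star l) = star (ψ l)) (e : D) :
    (rdata M hD u ψ hψ).f e * (rdata M hD u ψ hψ).A = ψ.mapMatrix (M.gr u e) := by
  rw [M.gr_eq hD u e, map_mul]
  rfl

end

section orth

variable {E L : Type} [Field E] [Field L] [CharZero L] [StarRing L] [Algebra E L]

/-- Orthogonal bases. -/
theorem exists_orth_basis {d : E} (hQ : QuadL E L d) :
    ∀ (n : ℕ) (V : Type) [AddCommGroup V] [Module L V] [FiniteDimensional L V] (b : HF L V),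
      b.Nondeg → finrank L V = n → ∃ w : Basis (Fin n) L V,
      (∀ i j, i ≠ j → b.h (w i) (w j) = 0) ∧ ∀ i, b.h (w i) (w i) ≠ 0 := by
  intro n
  induction n with
  | zero =>
    intro V _ _ _ b _ hV
    exact ⟨Module.finBasisOfFinrankEq L V hV, fun i => i.elim0, fun i => i.elim0⟩
  | succ n ih =>
    intro V _ _ _ b hb hV
    have hnt : Nontrivial V := Module.nontrivial_of_finrank_pos (R := L) (by omega)
    obtain ⟨v, hv⟩ := exists_ne (0 : V)
    obtain ⟨x, hx⟩ := b.exists_ne hb hQ hv
    have hx0 : x ≠ 0 := by rintro rfl; exact hx (b.zero_left _)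
    let U : Submodule L V := LinearMap.ker (b.lin x)
    have hU : ∀ y, y ∈ U ↔ b.h y x = 0 := fun y => LinearMap.mem_ker
    have hdec : ∀ y : V, y - (b.h y x / b.h x x) • x ∈ U := by
      intro y
      rw [hU, b.sub_left, b.smul_left, div_mul_cancel₀ _ hx, sub_self]
    have hUn : finrank L U = n := by
      have h1 : finrank L (LinearMap.range (b.lin x)) + finrank L U = finrank L V :=
        LinearMap.finrank_range_add_finrank_ker (b.lin x)
      have h2 : LinearMap.range (b.lin x) = ⊤ := by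
        rw [LinearMap.range_eq_top]
        intro l
        refine ⟨(l / b.h x x) • x, ?_⟩
        rw [b.lin_apply, b.smul_left, div_mul_cancel₀ _ hx]
      rw [h2, finrank_top, Module.finrank_self] at h1
      omega
    obtain ⟨w, hw1, hw2⟩ := ih U (b.sub U) (by
      rintro ⟨y, hy⟩ h
      apply Subtype.ext
      apply hb
      intro z
      have h1 := h ⟨_, hdec z⟩
      have h2 : b.h y (z - (b.h z x / b.h x x) • x) = 0 := h1
      rw [b.sub_right, b.smul_right, (hU y).mp hy, zero_mul, sub_zero] at h2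
      exact h2) hUn
    let w' : Basis (Fin (n + 1)) L V := Module.Basis.mkFinCons x w (by
        intro c y hy h
        have h3 := (hU y).mp hy
        have h4 : y = -(c • x) := by
          rw [← add_eq_zero_iff_eq_neg, add_comm]; exact h
        rw [h4, b.neg_left, b.smul_left, neg_eq_zero] at h3
        exact (mul_eq_zero.mp h3).resolve_right hx) (by
        intro z
        refine ⟨-(b.h z x / b.h x x), ?_⟩
        have := hdec z
        rwa [sub_eq_add_neg, ← neg_smul] at this)
    have hw' : (w' : Fin (n + 1) → V) = Fin.cons x (fun i => (w i : V)) :=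
      Module.Basis.coe_mkFinCons x w _ _
    refine ⟨w', ?_, ?_⟩
    · intro i j hij
      rw [hw']
      induction i using Fin.cases with
      | zero =>
        induction j using Fin.cases with
        | zero => exact absurd rfl hij
        | succ j =>
          change b.h x (w j) = 0
          rw [← b.star_h, (hU _).mp (w j).2, star_zero]
      | succ i =>
        induction j using Fin.cases with
        | zero => exact (hU _).mp (w i).2
        | succ j => exact hw1 i j (fun h => hij (by rw [h]))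
    · intro i
      rw [hw']
      induction i using Fin.cases with
      | zero => exact hx
      | succ i => exact hw2 i

/-- The span of the positive vectors of an orthogonal basis is positive. -/
theorem posE_span {φ : E →+* ℝ} {d : E} (hQ : QuadL E L d) (hφ : φ d < 0) {V : Type}
    [AddCommGroup V] [Module L V] (b : HF L V) {ι : Type} [Fintype ι] (w : ι → V)
    (hw : ∀ i j, i ≠ j → b.h (w i) (w j) = 0) (hp : ∀ i, PosE φ (b.h (w i) (w i)))
    {x : V} (hx : x ∈ Submodule.span L (Set.range w)) (hx0 : x ≠ 0) : PosE φ (b.h x x) := by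
  classical
  obtain ⟨c, rfl⟩ := (Submodule.mem_span_range_iff_exists_fun L).mp hx
  have hval : b.h (∑ i, c i • w i) (∑ i, c i • w i) =
      ∑ i, (c i * star (c i)) * b.h (w i) (w i) := by
    rw [b.sum_left]
    refine Finset.sum_congr rfl fun i _ => ?_
    rw [b.sum_right, Finset.sum_eq_single i]
    · rw [b.smul_left, b.smul_right]; ring
    · intro j _ hj
      rw [b.smul_left, b.smul_right, hw i j (Ne.symm hj)]; ring
    · intro h; exact absurd (Finset.mem_univ i) h
  rw [hval]
  have h1 : ∀ i, ∃ e : E, algebraMap E L e = (c i * star (c i)) * b.h (w i) (w i) ∧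
      0 ≤ φ e ∧ (c i ≠ 0 → 0 < φ e) := by
    intro i
    by_cases hc : c i = 0
    · exact ⟨0, by rw [hc, map_zero]; ring, by rw [map_zero], fun h => absurd hc h⟩
    · obtain ⟨e, he, he'⟩ := (hQ.norm_pos hφ hc).mul (hp i)
      exact ⟨e, he, he'.le, fun _ => he'⟩
  choose e he1 he2 he3 using h1
  refine ⟨∑ i, e i, ?_, ?_⟩
  · rw [map_sum]; exact Finset.sum_congr rfl fun i _ => he1 i
  · rw [map_sum]
    obtain ⟨i, hi⟩ : ∃ i, c i ≠ 0 := by
      by_contra hcon
      push Not at hcon
      apply hx0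
      exact Finset.sum_eq_zero fun i _ => by rw [hcon i, zero_smul]
    exact Finset.sum_pos' (fun i _ => he2 i) ⟨i, Finset.mem_univ _, he3 i hi⟩

end orth

/-- Sylvester's law of inertia, one half. -/
theorem sylvester_le {n : ℕ} {a b : Fin n → ℝ} (Q : Matrix (Fin n) (Fin n) ℂ) (hQ : IsUnit Q)
    (h : Q * Matrix.diagonal (fun i => (a i : ℂ)) * Qᴴ = Matrix.diagonal fun i => (b i : ℂ)) :
    Fintype.card {i // 0 < a i} ≤ Fintype.card {i // 0 < b i} := by
  classical
  by_contra hcon
  push Not at hcon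
  obtain ⟨T, hTQ, hQT⟩ : ∃ T : Matrix (Fin n) (Fin n) ℂ, T * Q = 1 ∧ Q * T = 1 := by
    obtain ⟨U, rfl⟩ := hQ
    exact ⟨_, U.inv_mul, U.mul_inv⟩
  -- the map restricting to the positive coordinates
  let F : ({i // 0 < a i} → ℂ) →ₗ[ℂ] ({i // 0 < b i} → ℂ) :=
    { toFun := fun x i => ∑ j, x j * T j.1 i.1
      map_add' := fun x y => by
        ext i
        simp only [Pi.add_apply, add_mul, Finset.sum_add_distrib]
      map_smul' := fun c x => by
        ext i
        simp only [Pi.smul_apply, smul_eq_mul, mul_assoc, Finset.mul_sum, RingHom.id_apply] }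
  have h1 : LinearMap.ker F ≠ ⊥ := by
    apply LinearMap.ker_ne_bot_of_finrank_lt
    rw [Module.finrank_fintype_fun_eq_card, Module.finrank_fintype_fun_eq_card]
    exact hcon
  obtain ⟨x, hx, hx0⟩ := (Submodule.ne_bot_iff _).mp h1
  let y : Fin n → ℂ := fun i => if hi : 0 < a i then x ⟨i, hi⟩ else 0
  let v : Fin n → ℂ := y ᵥ* T
  have hvQ : v ᵥ* Q = y := by
    rw [Matrix.vecMul_vecMul, hTQ, Matrix.vecMul_one]
  have hv : ∀ i, 0 < b i → v i = 0 := by
    intro i hi
    have h2 := congrFun (LinearMap.mem_ker.mp hx) ⟨i, hi⟩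
    have h3 : ∑ j : {i // 0 < a i}, x j * T j.1 i = 0 := h2
    change ∑ j, y j * T j i = 0
    rw [← h3, ← Finset.sum_filter_add_sum_filter_not Finset.univ (fun j => 0 < a j)]
    rw [Finset.sum_eq_zero (s := Finset.univ.filter fun j => ¬ 0 < a j), add_zero]
    · rw [Finset.sum_subtype (p := fun j => 0 < a j) (F := inferInstance) _ (fun j => by simp)]
      refine Finset.sum_congr rfl fun j _ => ?_
      change (if hi : 0 < a j.1 then x ⟨j.1, hi⟩ else 0) * _ = _
      rw [dif_pos j.2]
    · intro j hj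
      rw [Finset.mem_filter] at hj
      change (if hi : 0 < a j then x ⟨j, hi⟩ else 0) * _ = _
      rw [dif_neg hj.2, zero_mul]
  have hval : ∀ (z : Fin n → ℂ) (a : Fin n → ℝ),
      z ⬝ᵥ (Matrix.diagonal (fun i => (a i : ℂ)) *ᵥ star z) =
        ((∑ i, a i * ‖z i‖ ^ 2 : ℝ) : ℂ) := by
    intro z a
    rw [dotProduct, Complex.ofReal_sum]
    refine Finset.sum_congr rfl fun i _ => ?_
    rw [Matrix.mulVec_diagonal, Pi.star_apply, Complex.ofReal_mul, Complex.ofReal_pow,
      ← Complex.mul_conj', Complex.star_def]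
    ring
  have h4 : v ⬝ᵥ (Matrix.diagonal (fun i => (b i : ℂ)) *ᵥ star v) =
      y ⬝ᵥ (Matrix.diagonal (fun i => (a i : ℂ)) *ᵥ star y) := by
    clear_value v
    rw [← h, ← hvQ, Matrix.star_vecMul, Matrix.dotProduct_mulVec, Matrix.dotProduct_mulVec,
      Matrix.dotProduct_mulVec, ← Matrix.vecMul_vecMul, ← Matrix.vecMul_vecMul]
  rw [hval, hval, Complex.ofReal_inj] at h4
  have h5 : ∑ i, b i * ‖v i‖ ^ 2 ≤ 0 := by
    apply Finset.sum_nonpos
    intro i _
    by_cases hi : 0 < b i
    · rw [hv i hi, norm_zero]; simp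
    · exact mul_nonpos_of_nonpos_of_nonneg (not_lt.mp hi) (by positivity)
  have h6 : 0 < ∑ i, a i * ‖y i‖ ^ 2 := by
    obtain ⟨⟨i, hi⟩, hxi⟩ := Function.ne_iff.mp hx0
    apply Finset.sum_pos'
    · intro j _
      by_cases hj : 0 < a j
      · positivity
      · have : y j = 0 := dif_neg hj
        rw [this, norm_zero]; simp
    · refine ⟨i, Finset.mem_univ _, ?_⟩
      have : y i = x ⟨i, hi⟩ := dif_pos hi
      rw [this]
      have h7 : 0 < ‖x ⟨i, hi⟩‖ := norm_pos_iff.mpr hxi
      positivity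
  linarith

section

variable {K D E L : Type} [Field K] [StarRing K] [DivisionRing D] [StarRing D] [Algebra K D]
  [StarModule K D] [Field E] [Field L] [CharZero L] [StarRing L] [Algebra E L] [Algebra K L]
  {n : ℕ} (M : MS K D E L n) [Module L D] (hD : ∀ (l : L) (x : D), l • x = M.j l * x)
  (u : Basis (Fin n) L D)

/-- the rank one form over the subfield -/
def lineG (c : D) (hc : star c = c) : HF L D where
  h x y := M.p (x * c * star y)
  add_left x y z := by rw [add_mul, add_mul, M.p_add]
  smul_left a x y := by rw [hD, mul_assoc, mul_assoc, M.p_left, mul_assoc]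
  star_h x y := by rw [← M.p_star, star_mul, star_mul, hc, star_star, mul_assoc]

theorem lineG_nondeg (c : D) (hc : star c = c) (h0 : c ≠ 0) : (lineG M hD c hc).Nondeg := by
  intro x hx
  have h1 := M.p_nondeg (x := x * c) hx
  exact (mul_eq_zero.mp h1).resolve_right h0

theorem gram_eq {V : Type} [AddCommGroup V] [Module L V] (b : HF L V) {ι : Type} [Fintype ι]
    [DecidableEq ι] (v w : Basis ι L V) :
    b.gram v = (w.toMatrix v)ᵀ * b.gram w * ((w.toMatrix v)ᵀ)ᴴ := by
  ext i j
  rw [Matrix.mul_apply]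
  change b.h (v i) (v j) = _
  have e : ∀ i, v i = ∑ k, w.toMatrix v k i • w k := fun i => (w.sum_toMatrix_smul_self v i).symm
  conv_lhs => rw [e i, e j]
  rw [b.sum_right]
  refine Finset.sum_congr rfl fun k _ => ?_
  rw [b.smul_right, b.sum_left, Matrix.mul_apply]
  congr 1
  refine Finset.sum_congr rfl fun l _ => ?_
  rw [b.smul_left]
  rfl

/-- Diagonalisation of the form at `c` over the subfield. -/
theorem diag_at {d : E} (hQ : QuadL E L d) {φ : E →+* ℝ} (hφ : φ d < 0) (ψ : L →+* ℂ)
    (hψ : ∀ l, ψ (star l) = star (ψ l)) (hψφ : ∀ e, ψ (algebraMap E L e) = ((φ e : ℝ) : ℂ))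
    {c : D} (hc : star c = c) (hc0 : c ≠ 0) :
    ∃ (T : Matrix (Fin n) (Fin n) ℂ) (a : Fin n → ℝ) (P N : Submodule L D), IsUnit T ∧
      (∀ i, a i ≠ 0) ∧
      T * ((rdata M hD u ψ hψ).f c * (rdata M hD u ψ hψ).A) * Tᴴ =
        Matrix.diagonal (fun i => (a i : ℂ)) ∧
      finrank L P = Fintype.card {i // 0 < a i} ∧
      finrank L N = Fintype.card {i // 0 < -a i} ∧
      (∀ x ∈ P, x ≠ 0 → PosE φ (M.p (x * c * star x))) ∧
      (∀ x ∈ N, x ≠ 0 → PosE φ (-M.p (x * c * star x))) := by
  classical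
  have hfin : FiniteDimensional L D := Module.Finite.of_basis u
  have hn : finrank L D = n := by rw [Module.finrank_eq_card_basis u, Fintype.card_fin]
  obtain ⟨w, hw1, hw2⟩ := exists_orth_basis hQ n D (lineG M hD c hc)
    (lineG_nondeg M hD c hc hc0) hn
  have h1 : ∀ i, ∃ e : E, algebraMap E L e = (lineG M hD c hc).h (w i) (w i) := fun i =>
    hQ.fix _ ((lineG M hD c hc).star_h _ _)
  choose e he using h1
  have he0 : ∀ i, e i ≠ 0 := by
    intro i h0
    apply hw2 i
    rw [← he, h0, map_zero]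
  have hgram := gram_eq (lineG M hD c hc) w u
  have hdiag : (lineG M hD c hc).gram w = Matrix.diagonal fun i => algebraMap E L (e i) := by
    ext i j
    rw [Matrix.diagonal_apply]
    split_ifs with hij
    · subst hij; exact (he i).symm
    · exact hw1 i j hij
  have hmapT : ∀ X : Matrix (Fin n) (Fin n) L, ψ.mapMatrix Xᴴ = (ψ.mapMatrix X)ᴴ := by
    intro X
    ext a b
    rw [Matrix.conjTranspose_apply, RingHom.mapMatrix_apply, RingHom.mapMatrix_apply,
      Matrix.map_apply, Matrix.map_apply, Matrix.conjTranspose_apply, ← hψ]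
  refine ⟨ψ.mapMatrix (u.toMatrix w)ᵀ, fun i => φ (e i),
    Submodule.span L (Set.range fun i : {i // 0 < φ (e i)} => w i),
    Submodule.span L (Set.range fun i : {i // 0 < -φ (e i)} => w i), ?_, ?_, ?_, ?_, ?_, ?_, ?_⟩
  · have h2 : IsUnit (u.toMatrix w)ᵀ := by
      have : IsUnit (u.toMatrix w) := by
        refine ⟨⟨u.toMatrix w, w.toMatrix u, ?_, ?_⟩, rfl⟩
        · exact Basis.toMatrix_mul_toMatrix_flip u w
        · exact Basis.toMatrix_mul_toMatrix_flip w u
      exact (Matrix.isUnit_transpose _).mpr this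
    exact h2.map ψ.mapMatrix
  · intro i h0
    exact he0 i ((map_eq_zero φ).mp h0)
  · rw [rdata_f, ← hmapT, ← map_mul, ← map_mul]
    have h2 : M.gr u c = (lineG M hD c hc).gram u := rfl
    rw [h2, ← hgram, hdiag]
    ext i j
    rw [RingHom.mapMatrix_apply, Matrix.map_apply, Matrix.diagonal_apply, Matrix.diagonal_apply]
    split_ifs
    · exact hψφ _
    · exact map_zero ψ
  · rw [finrank_span_eq_card]
    exact w.linearIndependent.comp _ Subtype.val_injective
  · rw [finrank_span_eq_card]
    exact w.linearIndependent.comp _ Subtype.val_injective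
  · intro x hx hx0
    refine posE_span hQ hφ (lineG M hD c hc) (fun i : {i // 0 < φ (e i)} => w i)
      (fun i j hij => hw1 _ _ fun h => hij (Subtype.ext h)) (fun i => ?_) hx hx0
    exact ⟨e i, he i, i.2⟩
  · intro x hx hx0
    let b' : HF L D :=
      { h := fun x y => -(lineG M hD c hc).h x y
        add_left := fun x y z => by rw [(lineG M hD c hc).add_left, neg_add]
        smul_left := fun a x y => by rw [(lineG M hD c hc).smul_left, mul_neg]
        star_h := fun x y => by rw [star_neg, (lineG M hD c hc).star_h] }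
    refine posE_span hQ hφ b' (fun i : {i // 0 < -φ (e i)} => w i)
      (fun i j hij => ?_) (fun i => ?_) hx hx0
    · change -(lineG M hD c hc).h _ _ = 0
      rw [hw1 _ _ fun h => hij (Subtype.ext h), neg_zero]
    · exact ⟨-e i, by rw [map_neg, he i], by rw [map_neg]; exact i.2⟩

end

section

variable {K D E L : Type} [Field K] [StarRing K] [DivisionRing D] [StarRing D] [Algebra K D]
  [StarModule K D] [Algebra.IsCentral K D] [FiniteDimensional K D] [Field E] [Field L]
  [CharZero L] [StarRing L] [Algebra E L] [Algebra K L]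
  {r : ℕ} (M : MS K D E L (2 * r + 1)) [Module L D] (hD : ∀ (l : L) (x : D), l • x = M.j l * x)
  (u : Basis (Fin (2 * r + 1)) L D)

include hD u in
/-- Equal signatures at the data give equal signatures over the subfield. -/
theorem sameSig_of_cong [Algebra.IsAlgebraic E L] {d : E} (hQ : QuadL E L d) {φ : E →+* ℝ}
    (hφ : φ d < 0) {c e : D} (hc : star c = c) (hc0 : c ≠ 0) (he : star e = e) (he0 : e ≠ 0)
    (h : ∀ R : RData K D (2 * r + 1), R.CongAt c e) : M.SameSig φ c e := by
  classical
  obtain ⟨ψ, hψφ, hψ⟩ := exists_psi hQ hφ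
  obtain ⟨Q, hQu, hQe⟩ := h (rdata M hD u ψ hψ)
  obtain ⟨T, a, P, N, hT, ha, hTa, hP, hN, hP', hN'⟩ := diag_at M hD u hQ hφ ψ hψ hψφ hc hc0
  obtain ⟨T', a', P', N', hT', ha', hTa', hPe, hNe, hPe', hNe'⟩ :=
    diag_at M hD u hQ hφ ψ hψ hψφ he he0
  set G := (rdata M hD u ψ hψ).f c * (rdata M hD u ψ hψ).A with hG
  set G' := (rdata M hD u ψ hψ).f e * (rdata M hD u ψ hψ).A with hG'
  have inv : ∀ X : Matrix (Fin (2 * r + 1)) (Fin (2 * r + 1)) ℂ, IsUnit X →
      ∃ Y : Matrix (Fin (2 * r + 1)) (Fin (2 * r + 1)) ℂ, IsUnit Y ∧ Y * X = 1 ∧ X * Y = 1 := by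
    rintro X ⟨U, rfl⟩
    exact ⟨_, (U⁻¹).isUnit, U.inv_mul, U.mul_inv⟩
  obtain ⟨S, hS, hST, hTS⟩ := inv T hT
  obtain ⟨S', hS', hST', hTS'⟩ := inv T' hT'
  obtain ⟨Q', hQ', hQQ', hQQ''⟩ := inv Q hQu
  have e1 : (T' * Q * S) * Matrix.diagonal (fun i => (a i : ℂ)) * (T' * Q * S)ᴴ =
      Matrix.diagonal fun i => (a' i : ℂ) := by
    rw [← hTa, ← hTa', ← hQe]
    have : Tᴴ * Sᴴ = 1 := by rw [← Matrix.conjTranspose_mul, hST, Matrix.conjTranspose_one]
    simp only [Matrix.conjTranspose_mul]
    calc T' * Q * S * (T * G * Tᴴ) * (Sᴴ * (Qᴴ * T'ᴴ))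
        = T' * Q * (S * T) * G * (Tᴴ * Sᴴ) * (Qᴴ * T'ᴴ) := by simp only [mul_assoc]
      _ = T' * (Q * G * Qᴴ) * T'ᴴ := by
          rw [hST, this]; simp only [mul_assoc, mul_one]
  have e2 : (T * Q' * S') * Matrix.diagonal (fun i => (a' i : ℂ)) * (T * Q' * S')ᴴ =
      Matrix.diagonal fun i => (a i : ℂ) := by
    rw [← hTa, ← hTa', ← hQe]
    have h1 : T'ᴴ * S'ᴴ = 1 := by rw [← Matrix.conjTranspose_mul, hST', Matrix.conjTranspose_one]
    have h2 : Qᴴ * Q'ᴴ = 1 := by rw [← Matrix.conjTranspose_mul, hQQ', Matrix.conjTranspose_one]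
    simp only [Matrix.conjTranspose_mul]
    calc T * Q' * S' * (T' * (Q * G * Qᴴ) * T'ᴴ) * (S'ᴴ * (Q'ᴴ * Tᴴ))
        = T * Q' * (S' * T') * (Q * G * Qᴴ) * (T'ᴴ * S'ᴴ) * (Q'ᴴ * Tᴴ) := by
          simp only [mul_assoc]
      _ = T * (Q' * Q) * G * (Qᴴ * Q'ᴴ) * Tᴴ := by
          rw [hST', h1]; simp only [mul_assoc, one_mul]
      _ = T * G * Tᴴ := by rw [hQQ', h2]; simp only [mul_one]
  have p1 := sylvester_le _ ((hT'.mul hQu).mul hS) e1
  have p2 := sylvester_le _ ((hT.mul hQ').mul hS') e2
  have hcard : ∀ a : Fin (2 * r + 1) → ℝ, (∀ i, a i ≠ 0) →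
      Fintype.card {i // 0 < a i} + Fintype.card {i // 0 < -a i} = 2 * r + 1 := by
    intro a ha
    have h1 : Fintype.card {i // 0 < -a i} = Fintype.card {i // ¬ 0 < a i} := by
      apply Fintype.card_congr
      refine Equiv.subtypeEquivRight fun i => ?_
      constructor
      · intro h; linarith
      · intro h
        have := lt_of_le_of_ne (not_lt.mp h) (ha i)
        linarith
    rw [h1, Fintype.card_subtype_compl, Fintype.card_fin]
    have := Fintype.card_subtype_le fun i => 0 < a i
    rw [Fintype.card_fin] at this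
    omega
  have c1 := hcard a ha
  have c2 := hcard a' ha'
  exact ⟨P, N, P', N', by omega, by omega, hP', hN', hPe', hNe'⟩

end

section

variable {K D : Type} [Field K] [NumberField K] [StarRing K] [DivisionRing D] [StarRing D]
  [Algebra K D] [StarModule K D] [FiniteDimensional K D] [Algebra.IsCentral K D]

/-- In odd degree, anisotropic forms of rank at least two represent every element which has the
signatures of one of their values. -/
theorem hasR2_odd (hK : ∃ k : K, star k ≠ k) {n : ℕ} (hn : Odd n)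
    (hdeg : finrank K D = n ^ 2) : HasR2 K D n := by
  obtain ⟨r, rfl⟩ := hn
  obtain ⟨k, hk⟩ := hK
  have hκ0 : k - star k ≠ 0 := sub_ne_zero.mpr (Ne.symm hk)
  have hκ : star (k - star k) = -(k - star k) := by rw [star_sub, star_star, neg_sub]
  obtain ⟨E, L, _, _, _, _, _, _, _, _, M, hD, u, d, hQ, hd, -⟩ :=
    exists_MS (D := D) hκ hκ0 (by omega) hdeg
  intro V _ _ _ B hB hV x hx e he he0 hs
  have hxx : B.h x x ≠ 0 := fun h => hx (hB x h)
  exact M.represents hD u hQ (lagrProp hQ) hdeg B hB hV hx he he0 fun φ hφ =>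
    sameSig_of_cong M hD u hQ hφ (B.star_h x x) hxx he he0 hs

end

end Vale.Agent.P011.RP
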