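import Vale.Agent.P011.RP.Iface

/-!
Congruence of complex hermitian matrices: positive definite matrices are congruent to the
identity, and matrices close to an invertible hermitian matrix are congruent to it.
-/

open Module Matrix
open scoped ComplexOrder MatrixOrder

set_option linter.unusedSectionVars false

namespace Vale.Agent.P011.RP

section mat

variable {ι : Type} [Fintype ι] [DecidableEq ι]

/-- Positive definite matrices are congruent to the identity. -/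
theorem posDef_one {P : Matrix ι ι ℂ} (hP : P.PosDef) :
    ∃ Q : Matrix ι ι ℂ, IsUnit Q ∧ Q * P * Qᴴ = 1 := by
  obtain ⟨U, hUd⟩ : ∃ U : Matrix ι ι ℂ, U = (hP.isHermitian.eigenvectorUnitary : Matrix ι ι ℂ) :=
    ⟨_, rfl⟩
  have hU1 : Uᴴ * U = 1 := by
    rw [hUd]; exact Matrix.mem_unitaryGroup_iff'.mp hP.isHermitian.eigenvectorUnitary.2
  have hU2 : U * Uᴴ = 1 := by
    rw [hUd]; exact Matrix.mem_unitaryGroup_iff.mp hP.isHermitian.eigenvectorUnitary.2
  have h2 : P = U * Matrix.diagonal (fun i => (hP.isHermitian.eigenvalues i : ℂ)) * Uᴴ := by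
    rw [hUd]; exact hP.isHermitian.spectral_theorem
  have hpos : ∀ i, 0 < hP.isHermitian.eigenvalues i := fun i => hP.eigenvalues_pos i
  let r : ι → ℝ := fun i => (Real.sqrt (hP.isHermitian.eigenvalues i))⁻¹
  have hr : ∀ i, r i * hP.isHermitian.eigenvalues i * r i = 1 := by
    intro i
    have h3 : Real.sqrt (hP.isHermitian.eigenvalues i) ≠ 0 := (Real.sqrt_pos.mpr (hpos i)).ne'
    have h4 := Real.mul_self_sqrt (hpos i).le
    simp only [r]
    field_simp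
    rw [pow_two, h4]
  have hr0 : ∀ i, r i ≠ 0 := fun i h => by
    have := hr i
    rw [h, zero_mul, zero_mul] at this
    exact zero_ne_one this
  refine ⟨Matrix.diagonal (fun i => (r i : ℂ)) * Uᴴ, ?_, ?_⟩
  · refine ⟨⟨Matrix.diagonal (fun i => (r i : ℂ)) * Uᴴ,
      U * Matrix.diagonal (fun i => ((r i : ℂ))⁻¹), ?_, ?_⟩, rfl⟩
    · calc Matrix.diagonal (fun i => (r i : ℂ)) * Uᴴ * (U * Matrix.diagonal (fun i => ((r i : ℂ))⁻¹))
          = Matrix.diagonal (fun i => (r i : ℂ)) * (Uᴴ * U) *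
            Matrix.diagonal (fun i => ((r i : ℂ))⁻¹) := by simp only [mul_assoc]
        _ = 1 := by
            rw [hU1, mul_one, Matrix.diagonal_mul_diagonal, ← Matrix.diagonal_one]
            congr 1
            funext i
            exact mul_inv_cancel₀ (by exact_mod_cast hr0 i)
    · calc U * Matrix.diagonal (fun i => ((r i : ℂ))⁻¹) * (Matrix.diagonal (fun i => (r i : ℂ)) * Uᴴ)
          = U * (Matrix.diagonal (fun i => ((r i : ℂ))⁻¹) * Matrix.diagonal (fun i => (r i : ℂ))) *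
            Uᴴ := by simp only [mul_assoc]
        _ = 1 := by
            rw [Matrix.diagonal_mul_diagonal]
            have h3 : (fun i => ((r i : ℂ))⁻¹ * (r i : ℂ)) = fun _ => 1 := by
              funext i
              exact inv_mul_cancel₀ (by exact_mod_cast hr0 i)
            rw [h3, Matrix.diagonal_one, mul_one, hU2]
  · have h3 : (Matrix.diagonal (fun i => (r i : ℂ)) * Uᴴ)ᴴ =
        U * Matrix.diagonal (fun i => (r i : ℂ)) := by
      rw [Matrix.conjTranspose_mul, Matrix.conjTranspose_conjTranspose,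
        Matrix.diagonal_conjTranspose]
      congr 2
      funext i
      exact Complex.conj_ofReal _
    rw [h3]
    conv_lhs => rw [h2]
    calc Matrix.diagonal (fun i => (r i : ℂ)) * Uᴴ *
          (U * Matrix.diagonal (fun i => (hP.isHermitian.eigenvalues i : ℂ)) * Uᴴ) *
          (U * Matrix.diagonal (fun i => (r i : ℂ)))
        = Matrix.diagonal (fun i => (r i : ℂ)) * (Uᴴ * U) *
          Matrix.diagonal (fun i => (hP.isHermitian.eigenvalues i : ℂ)) * (Uᴴ * U) *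
          Matrix.diagonal (fun i => (r i : ℂ)) := by simp only [mul_assoc]
      _ = 1 := by
          rw [hU1, mul_one, mul_one, Matrix.diagonal_mul_diagonal, Matrix.diagonal_mul_diagonal,
            ← Matrix.diagonal_one]
          congr 1
          funext i
          have := hr i
          exact_mod_cast this

/-- A hermitian block matrix, positive on the first block and negative on the second. -/
theorem blocks_congr {α β : Type} [Fintype α] [DecidableEq α] [Fintype β] [DecidableEq β]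
    {A : Matrix α α ℂ} {B : Matrix α β ℂ} {C : Matrix β β ℂ} (hA : A.PosDef) (hC : (-C).PosDef) :
    ∃ Q : Matrix (α ⊕ β) (α ⊕ β) ℂ, IsUnit Q ∧
      Q * Matrix.fromBlocks A B Bᴴ C * Qᴴ = Matrix.fromBlocks 1 0 0 (-1) := by
  obtain ⟨Ai, hAi1, hAi2⟩ : ∃ Ai : Matrix α α ℂ, A * Ai = 1 ∧ Ai * A = 1 := by
    obtain ⟨u, hu⟩ := hA.isUnit
    exact ⟨((u⁻¹ : (Matrix α α ℂ)ˣ) : Matrix α α ℂ), by rw [← hu, Units.mul_inv],
      by rw [← hu, Units.inv_mul]⟩
  have hAiH : Aiᴴ = Ai := by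
    have h1 : Aiᴴ * A = 1 := by
      have := congrArg Matrix.conjTranspose hAi1
      rwa [Matrix.conjTranspose_mul, hA.isHermitian.eq, Matrix.conjTranspose_one] at this
    calc Aiᴴ = Aiᴴ * (A * Ai) := by rw [hAi1, Matrix.mul_one]
      _ = (Aiᴴ * A) * Ai := by rw [Matrix.mul_assoc]
      _ = Ai := by rw [h1, Matrix.one_mul]
  -- the Schur complement
  have hSchur : (-(C - Bᴴ * Ai * B)).PosDef := by
    have h1 : -(C - Bᴴ * Ai * B) = -C + (Ai * B)ᴴ * A * (Ai * B) := by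
      rw [Matrix.conjTranspose_mul, hAiH]
      have : Bᴴ * Ai * A * (Ai * B) = Bᴴ * Ai * B := by
        calc Bᴴ * Ai * A * (Ai * B) = Bᴴ * (Ai * A) * (Ai * B) := by simp only [Matrix.mul_assoc]
          _ = _ := by rw [hAi2, Matrix.mul_one, Matrix.mul_assoc]
      rw [this]
      abel
    rw [h1]
    exact hC.add_posSemidef (hA.posSemidef.conjTranspose_mul_mul_same _)
  obtain ⟨R, hR, hRA⟩ := posDef_one hA
  obtain ⟨T, hT, hTC⟩ := posDef_one hSchur
  have hRT : IsUnit (Matrix.fromBlocks R 0 0 T) := by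
    obtain ⟨u, hu⟩ := hR
    obtain ⟨v, hv⟩ := hT
    refine ⟨⟨Matrix.fromBlocks R 0 0 T, Matrix.fromBlocks ((u⁻¹ : (Matrix α α ℂ)ˣ) : Matrix α α ℂ)
      0 0 ((v⁻¹ : (Matrix β β ℂ)ˣ) : Matrix β β ℂ), ?_, ?_⟩, rfl⟩
    · rw [Matrix.fromBlocks_multiply, ← hu, ← hv]
      simp [← Matrix.fromBlocks_one]
    · rw [Matrix.fromBlocks_multiply, ← hu, ← hv]
      simp [← Matrix.fromBlocks_one]
  have hL : IsUnit (Matrix.fromBlocks (1 : Matrix α α ℂ) 0 (-(Bᴴ * Ai)) (1 : Matrix β β ℂ)) := by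
    refine ⟨⟨Matrix.fromBlocks (1 : Matrix α α ℂ) 0 (-(Bᴴ * Ai)) (1 : Matrix β β ℂ),
      Matrix.fromBlocks (1 : Matrix α α ℂ) 0 (Bᴴ * Ai) (1 : Matrix β β ℂ), ?_, ?_⟩, rfl⟩
    · rw [Matrix.fromBlocks_multiply]
      simp [← Matrix.fromBlocks_one]
    · rw [Matrix.fromBlocks_multiply]
      simp [← Matrix.fromBlocks_one]
  refine ⟨Matrix.fromBlocks R 0 0 T *
    Matrix.fromBlocks (1 : Matrix α α ℂ) 0 (-(Bᴴ * Ai)) (1 : Matrix β β ℂ), hRT.mul hL, ?_⟩
  have h1 : Matrix.fromBlocks (1 : Matrix α α ℂ) 0 (-(Bᴴ * Ai)) (1 : Matrix β β ℂ) *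
      Matrix.fromBlocks A B Bᴴ C *
      (Matrix.fromBlocks (1 : Matrix α α ℂ) 0 (-(Bᴴ * Ai)) (1 : Matrix β β ℂ))ᴴ =
      Matrix.fromBlocks A 0 0 (C - Bᴴ * Ai * B) := by
    rw [Matrix.fromBlocks_conjTranspose, Matrix.fromBlocks_multiply, Matrix.fromBlocks_multiply]
    simp only [Matrix.conjTranspose_one, Matrix.conjTranspose_zero, Matrix.conjTranspose_neg,
      Matrix.conjTranspose_mul, Matrix.conjTranspose_conjTranspose, hAiH, Matrix.one_mul,
      Matrix.zero_mul, Matrix.mul_one, Matrix.mul_zero, add_zero, Matrix.neg_mul,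
      Matrix.mul_neg]
    have e1 : A * (Ai * B) = B := by rw [← Matrix.mul_assoc, hAi1, Matrix.one_mul]
    have e2 : Bᴴ * Ai * A = Bᴴ := by rw [Matrix.mul_assoc, hAi2, Matrix.mul_one]
    rw [e1, e2]
    simp only [neg_add_cancel, Matrix.zero_mul, neg_zero, zero_add]
    congr 1
    abel
  calc Matrix.fromBlocks R 0 0 T *
        Matrix.fromBlocks (1 : Matrix α α ℂ) 0 (-(Bᴴ * Ai)) (1 : Matrix β β ℂ) *
        Matrix.fromBlocks A B Bᴴ C *
        (Matrix.fromBlocks R 0 0 T *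
          Matrix.fromBlocks (1 : Matrix α α ℂ) 0 (-(Bᴴ * Ai)) (1 : Matrix β β ℂ))ᴴ
      = Matrix.fromBlocks R 0 0 T *
        (Matrix.fromBlocks (1 : Matrix α α ℂ) 0 (-(Bᴴ * Ai)) (1 : Matrix β β ℂ) *
        Matrix.fromBlocks A B Bᴴ C *
        (Matrix.fromBlocks (1 : Matrix α α ℂ) 0 (-(Bᴴ * Ai)) (1 : Matrix β β ℂ))ᴴ) *
        (Matrix.fromBlocks R 0 0 T)ᴴ := by
        rw [Matrix.conjTranspose_mul]
        simp only [Matrix.mul_assoc]
    _ = Matrix.fromBlocks 1 0 0 (-1) := by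
        rw [h1, Matrix.fromBlocks_conjTranspose, Matrix.fromBlocks_multiply,
          Matrix.fromBlocks_multiply]
        simp only [Matrix.conjTranspose_zero, Matrix.zero_mul, Matrix.mul_zero, add_zero, zero_add]
        rw [hRA]
        congr 1
        rw [Matrix.mul_neg, Matrix.neg_mul] at hTC
        rw [← hTC, neg_neg]

/-- Hermitian matrices close to an invertible hermitian matrix are congruent to it. -/
theorem herm_near {G : Matrix ι ι ℂ} (hG : G.IsHermitian) (hu : IsUnit G) :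
    ∃ η : ℝ, 0 < η ∧ ∀ M : Matrix ι ι ℂ, M.IsHermitian → (∀ a b, ‖M a b‖ < η) →
      ∃ Q : Matrix ι ι ℂ, IsUnit Q ∧ Q * G * Qᴴ = G + M := by
  classical
  obtain ⟨U, hUd⟩ : ∃ U : Matrix ι ι ℂ, U = (hG.eigenvectorUnitary : Matrix ι ι ℂ) :=
    ⟨_, rfl⟩
  have hU1 : Uᴴ * U = 1 := by
    rw [hUd]; exact Matrix.mem_unitaryGroup_iff'.mp hG.eigenvectorUnitary.2
  have hU2 : U * Uᴴ = 1 := by
    rw [hUd]; exact Matrix.mem_unitaryGroup_iff.mp hG.eigenvectorUnitary.2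
  have hspec : Uᴴ * G * U = Matrix.diagonal (fun i => (hG.eigenvalues i : ℂ)) := by
    have h2 : G = U * Matrix.diagonal (fun i => (hG.eigenvalues i : ℂ)) * Uᴴ := by
      rw [hUd]; exact hG.spectral_theorem
    calc Uᴴ * G * U = Uᴴ * (U * Matrix.diagonal (fun i => (hG.eigenvalues i : ℂ)) * Uᴴ) * U := by
          rw [← h2]
      _ = (Uᴴ * U) * Matrix.diagonal (fun i => (hG.eigenvalues i : ℂ)) * (Uᴴ * U) := by
          simp only [mul_assoc]
      _ = _ := by rw [hU1, one_mul, mul_one]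
  have hne : ∀ i, hG.eigenvalues i ≠ 0 := by
    intro i h0
    have hdet : G.det ≠ 0 := ((Matrix.isUnit_iff_isUnit_det G).mp hu).ne_zero
    apply hdet
    rw [hG.det_eq_prod_eigenvalues]
    exact Finset.prod_eq_zero (Finset.mem_univ i) (by rw [h0]; rfl)
  let α := {i // 0 < hG.eigenvalues i}
  let β := {i // ¬ 0 < hG.eigenvalues i}
  let e : α ⊕ β ≃ ι := Equiv.sumCompl _
  let V : Matrix (α ⊕ β) ι ℂ := Uᴴ.submatrix e id
  have hVH : Vᴴ = U.submatrix id e := by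
    rw [Matrix.conjTranspose_submatrix, Matrix.conjTranspose_conjTranspose]
  have hV1 : V * Vᴴ = 1 := by
    rw [hVH]
    have h1 : V * U.submatrix id e = (Uᴴ * U).submatrix e e := by
      ext a b
      rfl
    rw [h1, hU1, Matrix.submatrix_one_equiv]
  have hV2 : Vᴴ * V = 1 := by
    rw [hVH]
    change U.submatrix id e * Uᴴ.submatrix e id = 1
    rw [Matrix.submatrix_mul_equiv U Uᴴ id e id, hU2]
    rfl
  have hVG : V * G * Vᴴ = (Matrix.diagonal (fun i => (hG.eigenvalues i : ℂ))).submatrix e e := by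
    rw [hVH, ← hspec]
    ext a b
    simp [V, Matrix.mul_apply, Matrix.submatrix_apply]
  have hp : ((V * G * Vᴴ).toBlocks₁₁).PosDef := by
    rw [hVG]
    have : ((Matrix.diagonal (fun i => (hG.eigenvalues i : ℂ))).submatrix e e).toBlocks₁₁ =
        Matrix.diagonal (fun a : α => (hG.eigenvalues a : ℂ)) := by
      ext a b
      rw [Matrix.diagonal_apply]
      change (Matrix.diagonal (fun i => (hG.eigenvalues i : ℂ))) (a : ι) (b : ι) = _
      rw [Matrix.diagonal_apply]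
      by_cases hab : a = b
      · subst hab; simp
      · rw [if_neg hab, if_neg (fun h => hab (Subtype.ext h))]
    rw [this]
    apply Matrix.PosDef.diagonal
    intro a
    exact_mod_cast a.2
  have hn : (-((V * G * Vᴴ).toBlocks₂₂)).PosDef := by
    rw [hVG]
    have : -((Matrix.diagonal (fun i => (hG.eigenvalues i : ℂ))).submatrix e e).toBlocks₂₂ =
        Matrix.diagonal (fun a : β => ((-hG.eigenvalues a : ℝ) : ℂ)) := by
      ext a b
      rw [Matrix.neg_apply, Matrix.diagonal_apply]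
      change -(Matrix.diagonal (fun i => (hG.eigenvalues i : ℂ))) (a : ι) (b : ι) = _
      rw [Matrix.diagonal_apply]
      by_cases hab : a = b
      · subst hab; simp
      · rw [if_neg hab, if_neg (fun h => hab (Subtype.ext h)), neg_zero]
    rw [this]
    apply Matrix.PosDef.diagonal
    intro a
    have h1 : hG.eigenvalues a < 0 := lt_of_le_of_ne (not_lt.mp a.2) (hne a)
    have h2 : 0 < -hG.eigenvalues a := by linarith
    exact_mod_cast h2
  obtain ⟨η₁, hη₁, h₁⟩ := posDef_near hp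
  obtain ⟨η₂, hη₂, h₂⟩ := posDef_near hn
  -- a bound for the entries of `V`
  obtain ⟨C, hC, hCV⟩ : ∃ C : ℝ, 0 < C ∧ ∀ a b, ‖V a b‖ ≤ C := by
    refine ⟨1 + ∑ a, ∑ b, ‖V a b‖, by positivity, fun a b => ?_⟩
    have h1 : ‖V a b‖ ≤ ∑ b, ‖V a b‖ :=
      Finset.single_le_sum (f := fun b => ‖V a b‖) (fun _ _ => norm_nonneg _) (Finset.mem_univ b)
    have h2 : ∑ b, ‖V a b‖ ≤ ∑ a, ∑ b, ‖V a b‖ :=
      Finset.single_le_sum (f := fun a => ∑ b, ‖V a b‖)
        (fun _ _ => Finset.sum_nonneg fun _ _ => norm_nonneg _) (Finset.mem_univ a)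
    linarith
  obtain ⟨N, hN0, hN⟩ : ∃ N : ℝ, 0 < N ∧ (Fintype.card ι : ℝ) * (Fintype.card ι * (C * C)) ≤ N :=
    ⟨(Fintype.card ι : ℝ) * (Fintype.card ι * (C * C)) + 1, by positivity, by linarith⟩
  refine ⟨min η₁ η₂ / N / 2, by positivity, fun M hM hMs => ?_⟩
  have hVM : ∀ a b, ‖(V * M * Vᴴ) a b‖ < min η₁ η₂ := by
    intro a b
    have h3 : ∀ c, ‖(V * M) a c * Vᴴ c b‖ ≤
        Fintype.card ι * (C * C) * (min η₁ η₂ / N / 2) := by
      intro c
      rw [Matrix.mul_apply, Finset.sum_mul]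
      refine (norm_sum_le _ _).trans ?_
      have h4 : ∀ x ∈ (Finset.univ : Finset ι), ‖V a x * M x c * Vᴴ c b‖ ≤
          (C * C) * (min η₁ η₂ / N / 2) := by
        intro x _
        rw [norm_mul, norm_mul, Matrix.conjTranspose_apply, norm_star]
        calc ‖V a x‖ * ‖M x c‖ * ‖V b c‖ = (‖V a x‖ * ‖V b c‖) * ‖M x c‖ := by ring
          _ ≤ (C * C) * (min η₁ η₂ / N / 2) :=
              mul_le_mul (mul_le_mul (hCV _ _) (hCV _ _) (norm_nonneg _) hC.le) (hMs _ _).le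
                (norm_nonneg _) (by positivity)
      refine (Finset.sum_le_sum h4).trans ?_
      rw [Finset.sum_const, Finset.card_univ, nsmul_eq_mul]
      apply le_of_eq
      ring
    rw [Matrix.mul_apply]
    refine (norm_sum_le _ _).trans_lt ?_
    refine (Finset.sum_le_sum fun c _ => h3 c).trans_lt ?_
    rw [Finset.sum_const, Finset.card_univ, nsmul_eq_mul]
    have h5 : 0 < min η₁ η₂ := lt_min hη₁ hη₂
    calc (Fintype.card ι : ℝ) * (Fintype.card ι * (C * C) * (min η₁ η₂ / N / 2))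
        = ((Fintype.card ι : ℝ) * (Fintype.card ι * (C * C))) * (min η₁ η₂ / N / 2) := by ring
      _ ≤ N * (min η₁ η₂ / N / 2) := mul_le_mul_of_nonneg_right hN (by positivity)
      _ = min η₁ η₂ / 2 := by field_simp
      _ < min η₁ η₂ := by linarith
  have hherm : ∀ X : Matrix ι ι ℂ, X.IsHermitian → (V * X * Vᴴ).IsHermitian := by
    intro X hX
    rw [Matrix.IsHermitian, Matrix.conjTranspose_mul, Matrix.conjTranspose_mul,
      Matrix.conjTranspose_conjTranspose, hX.eq, Matrix.mul_assoc]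
  have key : ∀ X : Matrix ι ι ℂ, X.IsHermitian → ((V * X * Vᴴ).toBlocks₁₁).PosDef →
      (-((V * X * Vᴴ).toBlocks₂₂)).PosDef → ∃ Q : Matrix (α ⊕ β) (α ⊕ β) ℂ, IsUnit Q ∧
        Q * (V * X * Vᴴ) * Qᴴ = Matrix.fromBlocks 1 0 0 (-1) := by
    intro X hX h3 h4
    have h5 : V * X * Vᴴ = Matrix.fromBlocks (V * X * Vᴴ).toBlocks₁₁ (V * X * Vᴴ).toBlocks₁₂
        ((V * X * Vᴴ).toBlocks₁₂)ᴴ (V * X * Vᴴ).toBlocks₂₂ := by
      conv_lhs => rw [← Matrix.fromBlocks_toBlocks (V * X * Vᴴ)]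
      congr 1
      ext a b
      have h6 := congrFun (congrFun (hherm X hX).eq (Sum.inr a)) (Sum.inl b)
      exact h6.symm
    rw [h5]
    exact blocks_congr h3 h4
  obtain ⟨Q₀, hQ₀, hQ₀'⟩ := key G hG hp hn
  have hGM : (G + M).IsHermitian := hG.add hM
  have hsum : V * (G + M) * Vᴴ = V * G * Vᴴ + V * M * Vᴴ := by
    rw [Matrix.mul_add, Matrix.add_mul]
  obtain ⟨Q₁, hQ₁, hQ₁'⟩ := key (G + M) hGM (by
    apply h₁
    · ext a b
      exact congrFun (congrFun (hherm _ hGM).eq (Sum.inl a)) (Sum.inl b)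
    · intro a b
      rw [hsum]
      change ‖((V * G * Vᴴ) (Sum.inl a) (Sum.inl b) + (V * M * Vᴴ) (Sum.inl a) (Sum.inl b)) -
        (V * G * Vᴴ) (Sum.inl a) (Sum.inl b)‖ < η₁
      rw [add_sub_cancel_left]
      exact (hVM _ _).trans_le (min_le_left _ _)) (by
    apply h₂
    · ext a b
      rw [Matrix.conjTranspose_apply, Matrix.neg_apply, Matrix.neg_apply, star_neg]
      congr 1
      exact congrFun (congrFun (hherm _ hGM).eq (Sum.inr a)) (Sum.inr b)
    · intro a b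
      rw [hsum]
      change ‖-((V * G * Vᴴ) (Sum.inr a) (Sum.inr b) + (V * M * Vᴴ) (Sum.inr a) (Sum.inr b)) -
        (-(V * G * Vᴴ) (Sum.inr a) (Sum.inr b))‖ < η₂
      have h6 : -((V * G * Vᴴ) (Sum.inr a) (Sum.inr b) + (V * M * Vᴴ) (Sum.inr a) (Sum.inr b)) -
        (-(V * G * Vᴴ) (Sum.inr a) (Sum.inr b)) = -((V * M * Vᴴ) (Sum.inr a) (Sum.inr b)) := by
        ring
      rw [h6, norm_neg]
      exact (hVM _ _).trans_le (min_le_right _ _))
  obtain ⟨u₁, hu₁⟩ := hQ₁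
  obtain ⟨u₀, hu₀⟩ := hQ₀
  obtain ⟨P, hPd⟩ : ∃ P : Matrix (α ⊕ β) (α ⊕ β) ℂ,
    P = ((u₁⁻¹ : (Matrix (α ⊕ β) (α ⊕ β) ℂ)ˣ) : Matrix _ _ ℂ) := ⟨_, rfl⟩
  obtain ⟨P₀, hPd₀⟩ : ∃ P : Matrix (α ⊕ β) (α ⊕ β) ℂ,
    P = ((u₀⁻¹ : (Matrix (α ⊕ β) (α ⊕ β) ℂ)ˣ) : Matrix _ _ ℂ) := ⟨_, rfl⟩
  have hPQ : P * Q₁ = 1 := by rw [hPd, ← hu₁, Units.inv_mul]
  have hQP : Q₁ * P = 1 := by rw [hPd, ← hu₁, Units.mul_inv]
  have hPQ₀ : P₀ * Q₀ = 1 := by rw [hPd₀, ← hu₀, Units.inv_mul]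
  have hQP₀ : Q₀ * P₀ = 1 := by rw [hPd₀, ← hu₀, Units.mul_inv]
  refine ⟨Vᴴ * (P * Q₀) * V, ?_, ?_⟩
  · refine ⟨⟨Vᴴ * (P * Q₀) * V, Vᴴ * (P₀ * Q₁) * V, ?_, ?_⟩, rfl⟩
    · calc Vᴴ * (P * Q₀) * V * (Vᴴ * (P₀ * Q₁) * V)
          = Vᴴ * (P * (Q₀ * ((V * Vᴴ) * P₀)) * Q₁) * V := by simp only [Matrix.mul_assoc]
        _ = 1 := by rw [hV1, Matrix.one_mul, hQP₀, Matrix.mul_one, hPQ, Matrix.mul_one, hV2]
    · calc Vᴴ * (P₀ * Q₁) * V * (Vᴴ * (P * Q₀) * V)
          = Vᴴ * (P₀ * (Q₁ * ((V * Vᴴ) * P)) * Q₀) * V := by simp only [Matrix.mul_assoc]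
        _ = 1 := by rw [hV1, Matrix.one_mul, hQP, Matrix.mul_one, hPQ₀, Matrix.mul_one, hV2]
  · have hJ : Q₀ * (V * G * Vᴴ) * Q₀ᴴ = Q₁ * (V * (G + M) * Vᴴ) * Q₁ᴴ := by rw [hQ₀', hQ₁']
    have hPH : Q₁ᴴ * Pᴴ = 1 := by
      rw [← Matrix.conjTranspose_mul, hPQ, Matrix.conjTranspose_one]
    calc Vᴴ * (P * Q₀) * V * G * (Vᴴ * (P * Q₀) * V)ᴴ
        = Vᴴ * (P * (Q₀ * (V * G * Vᴴ) * Q₀ᴴ) * Pᴴ) * V := by
          simp only [Matrix.conjTranspose_mul, Matrix.conjTranspose_conjTranspose,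
            Matrix.mul_assoc]
      _ = (Vᴴ * ((P * Q₁) * V)) * (G + M) * (Vᴴ * ((Q₁ᴴ * Pᴴ) * V)) := by
          rw [hJ]; simp only [Matrix.mul_assoc]
      _ = G + M := by
          rw [hPQ, hPH, Matrix.one_mul, hV2, Matrix.one_mul, Matrix.mul_one]

/-- entries of a positive semidefinite matrix -/
theorem psd_entry {P : Matrix ι ι ℂ} (hP : P.PosSemidef) (a b : ι) :
    2 * ‖P a b‖ ≤ (P a a).re + (P b b).re := by
  obtain ⟨B, rfl⟩ : ∃ B : Matrix ι ι ℂ, P = Bᴴ * B :=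
    CStarAlgebra.nonneg_iff_eq_star_mul_self.mp hP.nonneg
  have h1 : ∀ c, ((Bᴴ * B) c c).re = ∑ k, ‖B k c‖ ^ 2 := by
    intro c
    rw [Matrix.mul_apply, Complex.re_sum]
    refine Finset.sum_congr rfl fun k _ => ?_
    rw [Matrix.conjTranspose_apply, Complex.star_def, ← Complex.normSq_eq_conj_mul_self,
      Complex.ofReal_re, Complex.normSq_eq_norm_sq]
  rw [h1, h1, ← Finset.sum_add_distrib, Matrix.mul_apply]
  calc 2 * ‖∑ k, Bᴴ a k * B k b‖ ≤ 2 * ∑ k, ‖Bᴴ a k * B k b‖ := by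
        have := norm_sum_le (Finset.univ : Finset ι) (fun k => Bᴴ a k * B k b)
        linarith
    _ = ∑ k, 2 * (‖B k a‖ * ‖B k b‖) := by
        rw [Finset.mul_sum]
        refine Finset.sum_congr rfl fun k _ => ?_
        rw [norm_mul, Matrix.conjTranspose_apply, norm_star]
    _ ≤ ∑ k, (‖B k a‖ ^ 2 + ‖B k b‖ ^ 2) := by
        refine Finset.sum_le_sum fun k _ => ?_
        nlinarith [sq_nonneg (‖B k a‖ - ‖B k b‖)]

end mat

end Vale.Agent.P011.RP
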